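import Crest.Agent.X212.Nv5.Stm
import Crest.Agent.X212.Tau19.TL
import Crest.Agent.X212.Dr59.Rod

/-!
# X212 / Rob53, part Rfl (helper53): the reflection in the exceptional sphere

* `exists_cj` : a diffeomorphism with compact support extends through a partial diffeomorphism;
* `lat_refl` : the Picard-Lefschetz formula on a rank one lattice;  `exists_rod` : the twist of `a | b | e`;
* `rflStmt : Nv5.RflStmt`.
-/

set_option autoImplicit false
set_option linter.unusedSectionVars false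

open Set Filter Topology Function
open scoped ContDiff Manifold Real
open Crest.Agent.R208 Crest.Agent.R208.FI
open Crest.Agent.R208.F hiding wd
open Crest.Agent.X212.Int54 (SameOn)
open Crest.Agent.X212.Line51 hiding tp Uni
open Crest.Agent.X212.Orx52 Crest.Agent.X212.Rod53 Crest.Agent.X212.Dr59
open Crest.Agent.X212.Nv5 (wZ isZ mE)
open Crest.Agent.X212.Bor5.T (W4)

noncomputable section

namespace Crest.Agent.X212.Rob53

section gen

variable {E : Type*} [NormedAddCommGroup E] [NormedSpace ℝ E] [FiniteDimensional ℝ E]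
  {H : Type*} [TopologicalSpace H] {I : ModelWithCorners ℝ E H} [I.Boundaryless]
  {M : Type*} [TopologicalSpace M] [ChartedSpace H M] [IsManifold I ∞ M] [T2Space M]
  {E' : Type*} [NormedAddCommGroup E'] [NormedSpace ℝ E'] [FiniteDimensional ℝ E']
  {H' : Type*} [TopologicalSpace H'] {J : ModelWithCorners ℝ E' H'} [J.Boundaryless]
  {N : Type*} [TopologicalSpace N] [ChartedSpace H' N] [IsManifold J ∞ N]
  (φ : PartialDiffeomorph J I N M ∞) {f g : N → N} {K S : Set N}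

theorem maps_of_off (hf : Injective f) (h0 : ∀ y, y ∉ K → f y = y) (hS : K ⊆ S) : MapsTo f S S := fun y hy => by
  by_cases k : f y ∈ K
  · exact hS k
  · rwa [hf (h0 _ k)]

open Classical in
/-- conjugation, extended by the identity -/
def cj (f : N → N) (x : M) : M := if x ∈ φ.target then φ (f (φ.symm x)) else x

theorem cj_tgt {x : M} (hx : x ∈ φ.target) : cj φ f x = φ (f (φ.symm x)) := if_pos hx

theorem cj_src {y : N} (hy : y ∈ φ.source) : cj φ f (φ y) = φ (f y) :=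
  (cj_tgt φ (φ.map_source hy)).trans (congrArg (fun z => φ (f z)) (φ.left_inv hy))

theorem cj_off (h0 : ∀ y, y ∉ K → f y = y) {x : M} (hx : x ∉ φ '' K) : cj φ f x = x := by
  by_cases k : x ∈ φ.target
  · exact (cj_tgt φ k).trans ((congrArg φ (h0 _ fun e => hx ⟨_, e, φ.right_inv k⟩)).trans (φ.right_inv k))
  · exact if_neg k

theorem cj_cj (hm : MapsTo f φ.source φ.source) (l : ∀ y, g (f y) = y) (x : M) : cj φ g (cj φ f x) = x := by
  by_cases k : x ∈ φ.target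
  · exact (congrArg _ (cj_tgt φ k)).trans ((cj_src φ (hm (φ.map_target k))).trans
      ((congrArg φ (l _)).trans (φ.right_inv k)))
  · rw [show cj φ f x = x from if_neg k]
    exact if_neg k

theorem op_off (hK : IsCompact K) (hS : K ⊆ φ.source) : IsOpen (φ '' K)ᶜ :=
  (hK.image_of_continuousOn (φ.contMDiffOn_toFun.continuousOn.mono hS)).isClosed.isOpen_compl

theorem tgt_or (hS : K ⊆ φ.source) (x : M) : x ∈ φ.target ∪ (φ '' K)ᶜ :=
  (em (x ∈ φ '' K)).imp_left fun ⟨_, k, e⟩ => e ▸ φ.map_source (hS k)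

theorem cm_cj (hf : ContMDiff J J ∞ f) (hm : MapsTo f φ.source φ.source) (h0 : ∀ y, y ∉ K → f y = y)
    (hK : IsCompact K) (hS : K ⊆ φ.source) : ContMDiff I I ∞ (cj φ f) := fun x => by
  rcases tgt_or φ hS x with k | k
  · exact ((ldp φ (hm (φ.map_target k))).contMDiffAt.comp x ((hf _).comp x (ldp φ.symm k).contMDiffAt)).congr_of_eventuallyEq
      (eventually_of_mem (φ.open_target.mem_nhds k) fun _ => cj_tgt φ)
  · exact contMDiffAt_id.congr_of_eventuallyEq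
      (eventually_of_mem ((op_off φ hK hS).mem_nhds k) fun _ => cj_off φ h0)

/-- **extension by the identity** -/
theorem exists_cj (ψ : N ≃ₘ^∞⟮J, J⟯ N) (h0 : ∀ y, y ∉ K → ψ y = y) (hK : IsCompact K) (hS : K ⊆ φ.source)
    {v : N → Ext E'} {o : M → Ext E} (ho : Int54.Ori I o) (hφ : Pos J I φ φ.source v o) (hψ : Pos J J ψ univ v v) :
    ∃ ρ : M ≃ₘ^∞⟮I, I⟯ M, Pos I I ρ univ o o ∧ (∀ y ∈ φ.source, ρ (φ y) = φ (ψ y)) ∧ ∀ x, x ∉ φ '' K → ρ x = x := by
  have h1 : ∀ y, y ∉ K → ψ.symm y = y := fun y k => ψ.injective ((ψ.apply_symm_apply y).trans (h0 y k).symm)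
  have m0 := maps_of_off ψ.injective h0 hS
  have m1 := maps_of_off ψ.symm.injective h1 hS
  refine ⟨Glue52.diffeoOf (cj φ ψ) (cj φ ψ.symm) (cm_cj φ ψ.contMDiff m0 h0 hK hS)
    (cm_cj φ ψ.symm.contMDiff m1 h1 hK hS) (cj_cj φ m0 ψ.symm_apply_apply) (cj_cj φ m1 ψ.apply_symm_apply),
    Pos.mono (Pos.union (s := φ.target) ?_ ((pos_id.2 (oriOn ho _).same).congr (op_off φ hK hS)
      fun _ => cj_off φ h0)) fun x _ => tgt_or φ hS x, fun _ => cj_src φ, fun _ => cj_off φ h0⟩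
  have s := hφ.symm subset_rfl
  rw [φ.image_source_eq_target] at s
  exact ((hφ.comp (hψ.mono (subset_univ _)) (fun _ => ldp φ) (fun y _ => ψ.isLocalDiffeomorph y) m0).comp s
    (fun y k => (ψ.isLocalDiffeomorph y).comp _ _ (ldp φ (m0 k))) (fun _ => ldp φ.symm)
    fun _ => φ.map_target).congr φ.open_target fun _ => cj_tgt φ

variable [MeasurableSpace E] [BorelSpace E] [MeasurableSpace M] [BorelSpace M] [SecondCountableTopology M]

/-- **the Picard-Lefschetz formula** -/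
theorem lat_refl {o e c x : M → Ext E} {U L K : Set M} {G : ℝ}
    (h : Lat I o U L (fun _ : Unit => e) (Matrix.diagonal fun _ => G)) {f : M → M} (hf : ContMDiff I I ∞ f)
    (hm : MapsTo f U U) (h0 : ∀ y, y ∉ K → f y = y) (hK : IsCompact K) (hU : K ⊆ U)
    (hμ : ip I o (pm I I f e) e = -G) (hc : Cl I 2 univ c) (hx : Cs I 2 univ x) :
    ip I o (pm I I f c) x = ip I o c x + -2 / G * (ip I o c e * ip I o x e) := by
  have he := h.csU ()
  have m := Mp.of_contMDiff hf (mapsTo_univ _ (univ : Set M))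
  have cf := hc.pm m
  have k : ∀ p, p ∉ K → (pm I I f c - c) p = 0 := fun p hp => sub_eq_zero.2
    (pm_of_eventually_id (eventually_of_mem (hK.isClosed.isOpen_compl.mem_nhds hp) h0) c)
  have z : Cs I 2 U (pm I I f c - c) := ⟨cf.sub hc, HasCompactSupport.intro hK k,
    (closure_minimal (support_subset_iff'.2 k) hK.isClosed).trans hU⟩
  obtain ⟨l, hl⟩ : ∃ l : ℝ, Dr59.Ex I U (c - l • e) := ⟨_, by simpa using h.span (hc.mono (subset_univ _))⟩
  have s : ∀ {a}, Cl I 2 univ a → Sm I U a := fun a => a.sm.mono (subset_univ _)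
  have e1 : ip I o c e = l * G := by
    rw [he.ip_coh h.ori (s hc) (s (he.cl.smul l)) hl, ip_smul, h.gram () (), Matrix.diagonal_apply_eq]
  have e2 : ip I o (pm I I f c) e = l * -G := by
    rw [he.ip_coh h.ori (s cf) (s ((he.cl.pm m).smul l)) (by
      simpa only [pm_sub, pm_smul] using hl.pm (Mp.of_contMDiff hf hm)), ip_smul, hμ]
  have e3 := h.diag (hx.on U) z
  rw [← ip_comm z.cl.dg, hx.ip_sub h.ori cf.sm hc.sm, Fintype.sum_unique, he.ip_sub h.ori (s cf) (s hc), e2] at e3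
  rw [eq_add_of_sub_eq' e3, e1]
  ring

end gen

/-- the orders of the sphere -/
def kE (j : ℤ) : ℤ := if j = -1 then 1 else 0

theorem dr_mE (j : ℤ) : dr (mE j) (wZ j) = kE j := by
  unfold mE wZ kE Bor5.T.w2
  split_ifs <;> first | omega | simp [dr]

theorem nv_wZ : nv wZ (-2) 0 = 1 + 1 := by
  rw [show (0 : ℤ) = -2 + 1 + 1 from rfl, nv_succ _ (by omega), nv_succ _ le_rfl, nv_self, if_pos (.inl rfl),
    if_pos (.inl rfl)]

theorem vch_wZ (s i : ℤ) : ∃ η, dot η (wZ (i - 1)) = s * kE (i - 1) ∧ dot η (wZ i) = s * kE i := by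
  refine ⟨if i = -1 then (0, s) else if i = 0 then (s, 0) else 0, ?_⟩
  unfold wZ kE Bor5.T.w2
  split_ifs <;> first | omega | simp [dot]

variable {EN HN : Type} [NormedAddCommGroup EN] [NormedSpace ℝ EN] [FiniteDimensional ℝ EN]
  [TopologicalSpace HN] {IN : ModelWithCorners ℝ EN HN} [IN.Boundaryless]
  {N : Type} [TopologicalSpace N] [ChartedSpace HN N] [IsManifold IN ∞ N] [T2Space N] {T : Tb IN N}
  [MeasurableSpace E4] [BorelSpace E4] [MeasurableSpace (X T (wd wZ))] [BorelSpace (X T (wd wZ))]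
  [SecondCountableTopology (X T (wd wZ))] {o : N → Ext EN} {O e F : X T (wd wZ) → Ext E4} {σ : ℤ}
  {U : Set (X T (wd wZ))}

theorem ip_mE (hO : OX T (wd wZ) o O) (hσ : σ = 1 ∨ σ = -1)
    (hτ : Pos Rod53.IT IN T.τ {z | z.2 ≠ 0} ((σ : ℝ) • oT) o) (he : WF T wZ (1 / 10) 0 mE (fun _ => 0) e)
    (hU : IsOpen U) (hc : Cs (𝓡 4) 2 U e) {s : ℝ} (h : WC T wZ U F (s • mE)) :
    ip (𝓡 4) O F e = s * (σ * (2 * π) ^ 2) := by
  have hS : ∀ l, l ∉ ({-2, -1, 0} : Finset ℤ) → mE (l + 1) = mE l := fun l a => by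
    simp only [Finset.mem_insert, Finset.mem_singleton] at a
    unfold mE
    split_ifs <;> first | omega | rfl
  have k : ∑ j ∈ ({-2, -1, 0} : Finset ℤ), det2 ((s • mE) j) (mE (j + 1) - mE j) = -s := by
    simp [mE, det2]
  rcases hσ with rfl | rfl
  · rw [h.ip_eq hO (by simpa using hτ) isZ hU he hc hS, k]
    push_cast; ring
  · rw [← neg_neg O, ip_neg_ori, h.ip_eq hO.neg (pos_neg_left.1 (by simpa using hτ)) isZ hU he hc hS, k]
    push_cast; ring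

theorem uZ : Uni (wZ (-1 - 1)) (wZ (-1)) := .inl rfl

theorem sZ : wZ (-1 + 1) = -wZ (-1 - 1) + ((1 : ℕ) : ℤ) • wZ (-1) := rfl

theorem hr1 : (1 : ℝ) ∈ Ioo ((1 : ℝ) ^ 2 / 2) (3 / 2) := ⟨by norm_num, by norm_num⟩

variable (T) in
/-- the neighbourhood of the sphere -/
abbrev UZ : Set (X T (wd wZ)) := T.disc (wd wZ) (((-1 : ℤ) : ℝ) + 1 / 2) (Iio (3 / 2))

variable (T) in
/-- the twist -/
abbrev tZ : X T (wd wZ) ≃ₘ^∞⟮𝓡 4, 𝓡 4⟯ X T (wd wZ) := (Tau19.sph_wd uZ sZ).tau T (e := 2) rfl hr1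

theorem cs_UZ (he : WF T wZ (1 / 10) 0 mE (fun _ => 0) e) : Cs (𝓡 4) 2 (UZ T) e :=
  (he.cs_ov (xa_zero T 1) (by norm_num) isZ (i := -2) (j := 1) (fun k a => by
    rw [mE, if_neg (by omega), if_neg (by omega), smul_zero]) fun k a => by
    rw [mE, if_neg (by omega), if_neg (by omega), smul_zero]).mono fun p hp => ⟨hp.1, by
      obtain ⟨-, ⟨a1, a2⟩, a3, a4⟩ := hp
      refine (Real.sqrt_lt' (by norm_num)).2 ?_
      push_cast at a1 a2 ⊢
      nlinarith⟩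

theorem bd_UZ : Bd (𝓡 4) 2 (UZ T) 1 := by
  have := Orx52.sigmaCompact (𝓡 4) (X T (wd wZ))
  obtain ⟨B, b1, b2⟩ := hd_disc (T := T) (c := ((-1 : ℤ) : ℝ) + 1 / 2) (r := 3 / 2) isZ (i := -2) (j := 0) (by omega)
    ⟨by norm_num, by norm_num⟩ ⟨by norm_num, by norm_num⟩ nv_wZ
  exact b2.bd2 (bd_zero.2 (b1.hz 1))

theorem wc_tZ (he : WF T wZ (1 / 10) 0 mE (fun _ => 0) e) :
    WC T wZ univ (pm (𝓡 4) (𝓡 4) (tZ T) e) ((-1 : ℝ) • mE) := by
  have := Orx52.sigmaCompact (𝓡 4) (X T (wd wZ))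
  obtain ⟨p, s, hp⟩ := exists_TL_wd (n := fun j => 1 * kE j) T (vch_wZ 1)
  obtain ⟨q, s', hq⟩ := exists_TL_wd (n := fun j => -1 * kE j) T (vch_wZ (-1))
  obtain ⟨u, u1, -⟩ := Tau19.exists_uni_wd uZ sZ T (e := 2) rfl hr1 (w := fun j => 1 * kE j) (w' := fun j => -1 * kE j)
    (fun j a => by simp [kE, a]) (by simp [kE]) isOpen_univ (subset_univ _) hp hq
  obtain ⟨b, h1, -, h3⟩ := he.exists_conn (k := fun j => 1 * kE j) (fun j => by rw [dr_mE, one_mul]) isOpen_univ hp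
  have m := Mp.of_contMDiff (tZ T).contMDiff (mapsTo_univ _ (univ : Set (X T (wd wZ))))
  have w := wc_line (m := (-1 : ℝ) • mE) (fun j => by
      have := he.step j
      simp only [dr, Pi.smul_apply, Prod.smul_fst, Prod.smul_snd, Prod.fst_sub, Prod.snd_sub, smul_eq_mul] at *
      linarith) (fun j => by
      have := dr_mE j
      simp only [dr, Pi.smul_apply, Prod.smul_fst, Prod.smul_snd, smul_eq_mul] at *
      push_cast
      linarith) isOpen_univ (h1.pull m) (hq.trans isOpen_univ u1)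
  exact w.coh (he.tg.cl.pm m) (ex_of_zero fun y _ => sub_eq_zero.2
    ((h1.F_pull isOpen_univ isOpen_univ m (mem_univ y)).trans (pm_congr_right (h3 (mem_univ _)))).symm)

/-- **the twist of the word `a | b | e`** -/
theorem exists_rod (hO : OX T (wd wZ) o O) (hσ : σ = 1 ∨ σ = -1)
    (hτ : Pos Rod53.IT IN T.τ {z | z.2 ≠ 0} ((σ : ℝ) • oT) o) (he : WF T wZ (1 / 10) 0 mE (fun _ => 0) e) :
    ∃ (ψ : X T (wd wZ) ≃ₘ^∞⟮𝓡 4, 𝓡 4⟯ X T (wd wZ)) (U K : Set (X T (wd wZ))) (G : ℝ), G ≠ 0 ∧ IsCompact K ∧ K ⊆ U ∧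
      U ⊆ T.time _ ⁻¹' Ioo (-2) 1 ∧ (∀ x, x ∉ K → ψ x = x) ∧ Pos (𝓡 4) (𝓡 4) ψ univ O O ∧
      Lat (𝓡 4) O U U (fun _ : Unit => e) (Matrix.diagonal fun _ => G) ∧
      ip (𝓡 4) O (pm (𝓡 4) (𝓡 4) ψ e) e = -G := by
  have S := Tau19.sph_wd uZ sZ
  have oU : IsOpen (UZ T) := T.isOpen_disc isOpen_Iio
  have g := ip_mE hO hσ hτ he oU (cs_UZ he) (s := 1) ((one_smul ℝ mE).symm ▸ he.wc _)
  have g0 : (1 : ℝ) * (σ * (2 * π) ^ 2) ≠ 0 := by
    rcases hσ with rfl | rfl <;> simp [Real.pi_ne_zero]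
  refine ⟨tZ T, UZ T, S.K T (Tau19.rh 1 1), _, g0, S.isCompact_K T hr1.2,
    fun p hp => let k := S.K_subset T hr1.2 hp; ⟨k.1, lt_of_le_of_lt k.2 hr1.2⟩, fun p hp => ?_,
    fun _ => S.tau_off T _ hr1, S.pos_tau T _ hr1 hO.ori,
    ⟨hO.ori, oU, subset_rfl, bd_UZ, fun _ => cs_UZ he, fun _ _ => g, by simpa using g0⟩, ?_⟩
  · have := abs_lt.1 ((T.abs_time_le _ p).trans_lt hp.2)
    push_cast at this
    exact ⟨by linarith [this.1], by linarith [this.2]⟩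
  · rw [ip_mE hO hσ hτ he oU (cs_UZ he) ((wc_tZ he).mono (subset_univ _))]
    ring

omit [MeasurableSpace E4] [BorelSpace E4] [MeasurableSpace (X T (wd wZ))] [BorelSpace (X T (wd wZ))] in
theorem rfl_of {Z : W4} (φ : PartialDiffeomorph (𝓡 4) Z.X.P.I (X T (wd wZ)) Z.M ∞) (hO : OX T (wd wZ) o O)
    (hσ : σ = 1 ∨ σ = -1) (hτ : Pos Rod53.IT IN T.τ {z | z.2 ≠ 0} ((σ : ℝ) • oT) o)
    (he : WF T wZ (1 / 10) 0 mE (fun _ => 0) e) (hp : Pos (𝓡 4) Z.X.P.I φ φ.source O Z.o)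
    (hs : T.time _ ⁻¹' Ioo (-2) 1 ⊆ φ.source) : ∃ (ρ : W4.Dif Z Z) (q : ℝ), q ≠ 0 ∧
      (∀ p, p ∉ φ '' (T.time _ ⁻¹' Ioo (-2) 1) → ρ.φ p = p) ∧ ∀ c x, Cl Z.X.P.I 2 univ c → Cs Z.X.P.I 2 univ x →
        ip Z.X.P.I Z.o (pm Z.X.P.I Z.X.P.I ρ.φ c) x =
          ip Z.X.P.I Z.o c x + q * (ip Z.X.P.I Z.o c (psh φ e) * ip Z.X.P.I Z.o x (psh φ e)) := by
  borelize E4 (X T (wd wZ))
  obtain ⟨ψ, U, K, G, g0, hK, hU, hT, h0, hψ, l, hμ⟩ := exists_rod hO hσ hτ he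
  have sU := hT.trans hs
  obtain ⟨ρ, r1, r2, r3⟩ := exists_cj φ ψ h0 hK (hU.trans sU) Z.ori hp hψ
  have m := maps_of_off ψ.injective h0 hU
  refine ⟨⟨ρ, r1⟩, -2 / G, div_ne_zero (by norm_num) g0, fun p k => r3 p fun a => k (image_mono (hU.trans hT) a),
    fun c x => lat_refl (l.push φ sU Z.ori (same_symm (hp.mono sU))) ρ.contMDiff ?_ r3
      (hK.image_of_continuousOn (φ.contMDiffOn_toFun.continuousOn.mono (hU.trans sU))) (image_mono hU) ?_⟩
  · rintro _ ⟨y, hy, rfl⟩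
    exact ⟨_, m hy, (r2 y (sU hy)).symm⟩
  · refine ((l.cs ()).ip_psh φ sU Z.ori hO.ori (same_symm (hp.mono sU)) _).trans
      (((l.cs ()).ip_congr fun y hy => ?_).trans hμ)
    exact (pm_comp_ld (ρ.isLocalDiffeomorph _) (ldp _ (sU hy))).symm.trans ((pm_congr (g := φ ∘ ψ)
      (eventually_of_mem (φ.open_source.mem_nhds (sU hy)) r2) rfl).trans
      ((pm_comp_ld (ldp _ (sU (m hy))) (ψ.isLocalDiffeomorph _)).trans (pm_congr_right (pm_psh _ (sU (m hy)) e))))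

/-- **NV-RFL** -/
theorem rflStmt : Nv5.RflStmt := by
  rintro τ Y f N Z J _ ⟨e, he, rfl⟩
  have := τ.T.secondCountable isZ.loc
  have s : ∀ t ∈ Ioo (-2 : ℝ) 1, t ∈ Ioi N.α := fun t ht => (N.lt.trans_le N.hb).trans ht.1
  obtain ⟨ρ, q, h1, h2, h3⟩ := rfl_of J.r.φ (oX_spec isZ.loc τ.ori) τ.hσ τ.pos he (J.pr.mono J.r.src.le)
    fun p hp => J.r.mem_src (s _ hp)
  refine ⟨ρ, q, h1, fun p hp => h2 p ?_, h3⟩
  rintro ⟨y, hy, rfl⟩
  exact hp ((J.r.tm y (s _ hy)).symm ▸ hy)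

end Crest.Agent.X212.Rob53
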