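import Crest.Agent.X212.Dr59.Hd
import Crest.Agent.X212.Orx52.Rod
import Crest.Agent.X212.Rod53.Mer
import Crest.Agent.X212.Line51.Rod

/-!
# X212 / Rob53, part Hz (helper53): real cohomology of exteriors and fillings

* `rT T k` (restriction from the exterior to the punctured tube), `mid`, `inj` (Mayer-Vietoris);
* `DR T δ` : `H² (Ex) = 0`, `H¹ (Ex)` injects onto the line of the character `δ`;
* `dr_of`, `DR.tg`, `DR.hz1`, `DR.hz2`, `DR.fill1`, `DR.fill2`.
-/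

set_option autoImplicit false
set_option linter.unusedSectionVars false
set_option linter.style.haveILetI false

open Set Filter Topology Function Module MeasureTheory
open scoped ContDiff Manifold
open Crest.Agent.R208 Crest.Agent.R208.F
open Crest.Agent.X212.Dr59 hiding IT
open Crest.Agent.X212.Int54 (Ori integ rat tp)
open Crest.Agent.X212.Line51 (ang CSm cl_ang pm_ang ang_congr Ang chT dot)
open Crest.Agent.X212.Rod53 Crest.Agent.X212.Glue52

noncomputable section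

namespace Crest.Agent.X212.Rob53

section gen

variable {E : Type*} [NormedAddCommGroup E] [NormedSpace ℝ E] [FiniteDimensional ℝ E]
  {H : Type*} [TopologicalSpace H] {I : ModelWithCorners ℝ E H} [I.Boundaryless]
  {M : Type*} [TopologicalSpace M] [ChartedSpace H M] [IsManifold I ∞ M]
  {E' : Type*} [NormedAddCommGroup E'] [NormedSpace ℝ E'] [FiniteDimensional ℝ E']
  {H' : Type*} [TopologicalSpace H'] {J : ModelWithCorners ℝ E' H'} [J.Boundaryless]
  {N : Type*} [TopologicalSpace N] [ChartedSpace H' N] [IsManifold J ∞ N]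

theorem st_bij {j : N → M} {W : Set N} {U : Set M} (h : Mp J I W U j) (hW : IsOpen W)
    (ld : ∀ y ∈ W, IsLocalDiffeomorphAt J I ∞ j y) (b : BijOn j W U) (n : W.Nonempty) (k : ℕ) :
    Bijective (h.st k) := by
  obtain rfl := b.image_eq
  exact pd_st_bij (pdOn hW n ld b.injOn) hW Subset.rfl

/-- a top form with small support that is not exact -/
theorem exists_top [T2Space M] [CompactSpace M] [SecondCountableTopology M] {o : M → Ext E} (ho : Ori I o)
    {n : ℕ} (hn : finrank ℝ E = n) {W : Set M} (hW : IsOpen W) (h : W.Nonempty) :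
    ∃ b : M → Ext E, Cl I n univ b ∧ (∀ y ∉ W, b y = 0) ∧ ¬Ex I univ b := by
  subst hn
  borelize E M
  obtain ⟨f, fs, fd, f0⟩ := hW.exists_contMDiff_support_eq I (n := ⊤)
  have e : ∀ y, rat o (f • dp (finrank ℝ E) o) y = f y := fun y => by
    rw [Int54.rat_fsmul, Pi.mul_apply, rat, Orx52.tp_dp, div_self (ho.ne y), mul_one]
  have d : Dg (finrank ℝ E) univ (f • dp (finrank ℝ E) o) := Dg.fsmul f fun x _ => T.isDeg_dpl _ _
  refine ⟨_, ⟨Sm.fsmul (fun x _ => fd x) (Sm.dp _ fun x _ => ho.sm x), d, fun x hx =>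
    (d.dM (I := I) isOpen_univ x hx).eq_zero (by simp)⟩, fun y hy => ?_, fun ⟨p, hp, dp⟩ => ?_⟩
  · rw [← fs, notMem_support] at hy
    rw [Pi.smul_apply', hy, zero_smul]
  · haveI := ho.openPos
    haveI := ho.finCpt
    have k := Int54.stokes_closed ho fun x => hp x trivial
    rw [funext fun x => dp x trivial, integ, funext e] at k
    obtain ⟨y, hy⟩ := h
    exact (fd.continuous.integral_pos_of_hasCompactSupport_nonneg_nonzero
      (HasCompactSupport.of_compactSpace f) f0 (by rwa [← fs] at hy)).ne' k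

end gen

theorem isOpen_out : IsOpen {z : Circle × ℂ | 1 < ‖z.2‖} := isOpen_lt continuous_const (by fun_prop)

theorem eqv_out : Eqv IT cz {z | 1 < ‖z.2‖} := by
  have n : ∀ (ζ : ℂ) (t : ℝ), t ≤ 1 → ‖ζ + (1 - t : ℝ) * dir ζ‖ = ‖ζ‖ + (1 - t) := fun ζ t ht => by
    rw [← norm_polar (add_nonneg (norm_nonneg ζ) (sub_nonneg.2 ht)) (dir ζ), Complex.ofReal_add, add_mul,
      norm_mul_dir]
  refine eqv_of_ht isOpen_cz isOpen_out (fun z hz => norm_pos_iff.1 (one_pos.trans hz))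
    (G := fun p => (p.1.1, p.1.2 + (1 - p.2 : ℝ) * dir p.1.2)) ⟨fun z hz t _ => contMDiffAt_fst.fst.prodMk
      (contMDiffAt_fst.snd.add (cm_mul (cm_ofReal (contMDiffAt_const.sub contMDiffAt_snd))
        (cm_coe (cm_dir contMDiffAt_fst.snd hz)))), fun z hz t ht => norm_pos_iff.1 ?_⟩
    (fun z hz t ht => ?_) (fun z hz => ?_) fun z _ => by simp
  · rw [n _ _ ht.2]
    linarith [norm_pos_iff.2 hz, ht.2]
  · rw [mem_ofPred_eq, n _ _ ht.2]
    linarith [show 1 < ‖z.2‖ from hz, ht.2]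
  · rw [mem_ofPred_eq, n _ _ zero_le_one]
    linarith [norm_pos_iff.2 hz]

/-- the class of a character -/
def ch (x y : ℝ) : HR IT 1 cz := x • cl_aL.cls + y • cl_aM.cls

theorem ch_inj {x y x' y' : ℝ} (h : ch x y = ch x' y') : x = x' ∧ y = y' := by
  have : (x - x') • (cl_aL (S := cz)).cls + (y - y') • cl_aM.cls = 0 := by
    rw [← sub_eq_zero] at h
    rw [← h, ch, ch]
    module
  exact (indep_cz (cls_eq_zero.1 ((cls_add (cl_aL.smul _) (cl_aM.smul _)).trans this))).imp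
    sub_eq_zero.1 sub_eq_zero.1

theorem res_aL (s : ℝ) : res (subset_univ cz) (s • cl_aL.cls) = ch s 0 := by
  rw [ch, zero_smul, add_zero, map_smul, res_cls]

theorem mp_gl {p q : Z2} : Mp IT IT cz cz (gl p q) := ⟨fun _ h => cm_gl p q h, fun _ h => gl_ne.2 h⟩

theorem st_gl (p q : Z2) (x y : ℝ) :
    (mp_gl (p := p) (q := q)).st 1 (ch x y) = ch (x * q.1 + y * q.2) (x * p.1 + y * p.2) := by
  have k : ∀ (m n : ℤ) (f : Circle × ℂ → Circle) (h : ∀ z ∈ cz, CSm IT f z),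
      (∀ z ∈ cz, f (gl p q z) = dir z.2 ^ m * z.1 ^ n) →
      (mp_gl (p := p) (q := q)).st 1 (cl_ang h).cls = ch n m := fun m n f h e =>
    cls_congr (h' := (cl_aL.smul _).add (cl_aM.smul _)) fun z hz =>
      (pm_ang (h _ (gl_ne.2 hz)) ((cm_gl p q hz).mdifferentiableAt ne0)).trans
        ((ang_congr (eventually_of_mem (isOpen_cz.mem_nhds hz) e)).trans ((Orx52.ang_mon m n hz).trans (add_comm _ _)))
  have k1 : mp_gl.st 1 cl_aL.cls = _ := k p.1 q.1 _ (fun z _ => csm_fst z) fun _ _ => rfl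
  have k2 : mp_gl.st 1 cl_aM.cls = _ := k p.2 q.2 _ (fun _ => csm_dir) fun _ h => dir_gl p q h
  rw [ch, map_add, map_smul, map_smul, k1, k2]
  simp only [ch]
  module

variable {EN HN : Type} [NormedAddCommGroup EN] [NormedSpace ℝ EN] [FiniteDimensional ℝ EN]
  [TopologicalSpace HN] {IN : ModelWithCorners ℝ EN HN} [IN.Boundaryless]
  {N : Type} [TopologicalSpace N] [ChartedSpace HN N] [IsManifold IN ∞ N] [T2Space N]
  {EN' HN' : Type} [NormedAddCommGroup EN'] [NormedSpace ℝ EN'] [FiniteDimensional ℝ EN']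
  [TopologicalSpace HN'] {IN' : ModelWithCorners ℝ EN' HN'} [IN'.Boundaryless]
  {N' : Type} [TopologicalSpace N'] [ChartedSpace HN' N'] [IsManifold IN' ∞ N'] [T2Space N']
  (T : Tb IN N) {k : ℕ}

theorem mp_τ {S : Set (Circle × ℂ)} {U : Set N} (h : MapsTo T.τ S U) : Mp IT IN S U T.τ :=
  ⟨fun z _ => (T.ld z).contMDiffAt, h⟩

theorem st_τ {S : Set (Circle × ℂ)} {U : Set N} (hS : IsOpen S) (n : S.Nonempty) (h : T.τ '' S = U) (k : ℕ) :
    Bijective ((mp_τ T (h ▸ mapsTo_image _ _ : MapsTo T.τ S U)).st k) :=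
  st_bij _ hS (fun z _ => T.ld z) (h ▸ T.inj.injOn.bijOn_image) n k

/-- from the exterior to the punctured tube -/
def rT (k : ℕ) : HR IN k T.Ex →ₗ[ℝ] HR IT k cz := (mp_τ T fun _ h => T.τ_mem.2 h).st k

/-- from the closed manifold to the tube -/
def rU (k : ℕ) : HR IN k (univ : Set N) →ₗ[ℝ] HR IT k (univ : Set (Circle × ℂ)) := (mp_τ T (mapsTo_univ _ _)).st k

theorem rT_res (x : HR IN k (univ : Set N)) : rT T k (res (subset_univ _) x) = res (subset_univ _) (rU T k x) :=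
  (Mp.st_res _ _ x).trans (Mp.res_st _ _ x).symm

theorem cz_ne : cz.Nonempty := ⟨(1, 1), one_ne_zero⟩

theorem im_cz : T.τ '' cz = T.Ex ∩ range T.τ :=
  Subset.antisymm (by rintro _ ⟨z, h, rfl⟩; exact ⟨T.τ_mem.2 h, z, rfl⟩)
    (by rintro _ ⟨h, z, rfl⟩; exact ⟨z, T.τ_mem.1 h, rfl⟩)

theorem cover : (univ : Set N) ⊆ T.Ex ∪ range T.τ := fun p _ => (T.Ex_or p).imp_right fun ⟨_, h⟩ => ⟨_, h⟩

variable [SecondCountableTopology N]

theorem mid {y : HR IN k T.Ex} {z : HR IT k (univ : Set (Circle × ℂ))} (h : rT T k y = res (subset_univ _) z) :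
    ∃ x, res (subset_univ _) x = y ∧ rU T k x = z := by
  haveI := Orx52.sigmaCompact IN N
  obtain ⟨χ, hχ⟩ := exists_cut (I := IN) T.isOpen_Ex T.oe.isOpen_range
  obtain ⟨z, rfl⟩ := (st_τ T isOpen_univ univ_nonempty image_univ k).2 z
  obtain ⟨x, rfl, rfl⟩ := mv_mid T.isOpen_Ex T.oe.isOpen_range hχ (y := y) (z := z)
    ((st_τ T isOpen_cz cz_ne (im_cz T) k).1 ((Mp.st_res _ _ y).trans
      (h.trans ((Mp.res_st _ _ z).trans (Mp.st_res _ _ z).symm))))
  exact ⟨res (cover T) x, res_res _ _ x, (Mp.st_res _ _ x).trans (Mp.st_res _ _ x).symm⟩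

theorem inj (h : ∀ e, ∃ y z, e = rT T k y - res (subset_univ _) z) {x : HR IN (k + 1) (univ : Set N)}
    (h1 : res (subset_univ T.Ex) x = 0) (h2 : rU T _ x = 0) : x = 0 := by
  haveI := Orx52.sigmaCompact IN N
  have b := st_τ T isOpen_univ univ_nonempty image_univ
  rw [← res_self x, ← res_res (subset_univ _) (cover T)]
  refine (congrArg _ (res_inj T.isOpen_Ex T.oe.isOpen_range (fun e => ?_)
    ((res_res _ _ x).trans h1) ((b _).1 ?_))).trans (map_zero _)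
  · obtain ⟨y, z, he⟩ := h ((mp_τ T (im_cz T ▸ mapsTo_image _ _)).st k e)
    obtain ⟨z, rfl⟩ := (b k).2 z
    refine ⟨y, z, (st_τ T isOpen_cz cz_ne (im_cz T) k).1 (he.trans ?_)⟩
    rw [map_sub, Mp.st_res, Mp.st_res, Mp.res_st]
    rfl
  · rw [res_res, Mp.st_res, map_zero]
    exact h2

theorem sj0 (e : HR IT 0 cz) : ∃ y z, e = rT T 0 y - res (subset_univ _) z := by
  obtain ⟨z, rfl⟩ := res0_surj isOpen_cz isPreconnected_cz (subset_univ _) e
  exact ⟨0, -z, by simp⟩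

/-- the torus bounds -/
theorem rT_two [CompactSpace N] {o : N → Ext EN} (ho : Ori IN o) (y : HR IN 2 T.Ex) : rT T 2 y = 0 := by
  have hU := (T.isClosed_tube 1).isOpen_compl
  have hV := T.oe.isOpen_range
  have e1 : T.τ '' {z | 1 < ‖z.2‖} = (T.τ '' {z | ‖z.2‖ ≤ 1})ᶜ ∩ range T.τ :=
    Subset.antisymm (by rintro _ ⟨z, h, rfl⟩; exact ⟨fun k => (show 1 < ‖z.2‖ from h).not_ge (T.inj.mem_set_image.1 k), z, rfl⟩)
      (by rintro _ ⟨h, z, rfl⟩; exact ⟨z, show 1 < ‖z.2‖ from lt_of_not_ge fun k => h ⟨z, k, rfl⟩, rfl⟩)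
  have e2 : (T.τ '' {z | ‖z.2‖ ≤ 1})ᶜ ⊆ T.Ex := fun p h u e => h ⟨_, by simp, e⟩
  have b := st_τ T isOpen_out ⟨(1, 2), by simp⟩ e1 2
  obtain ⟨w, w1, w2, w3⟩ := exists_top ho T.dim (T.oe.isOpenEmbedding.isOpenMap {z | ‖z.2‖ < 1}
    (isOpen_lt (by fun_prop) continuous_const)) ⟨_, (1, 0), by simp, rfl⟩
  obtain ⟨χ, hχ⟩ := exists_cut (I := IN) hU hV
  obtain ⟨e, he⟩ := mv_ker hU hV hχ (x := (w1.mono (subset_univ _)).cls) (cls_eq_zero.2 (ex_of_zero fun p hp =>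
    w2 p fun ⟨z, k, e⟩ => hp ⟨z, (show ‖z.2‖ < 1 from k).le, e⟩)) ((hz_st.of_inj _ (st_τ T isOpen_univ univ_nonempty image_univ _).1).eq _)
  have n : hχ.dl 2 e ≠ 0 := fun k => w3 ((cls_eq_zero.1 (he.symm.trans k)).mono fun p _ =>
    (em _).symm.imp_right fun h => image_subset_range _ _ h)
  obtain ⟨s, hs⟩ := Bd.span (ι := Unit) ((eqv_out.bd.1 bd_cz2).of_inj _ b.1) (e := fun _ => e) (fun s hs _ => by
    rw [Fintype.sum_unique] at hs
    exact (smul_eq_zero.1 hs).resolve_right fun k => n (by rw [k, map_zero])) (res inter_subset_left (res e2 y))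
  have k := dl_res_left hU hV hχ (res e2 y)
  rw [Fintype.sum_unique] at hs
  rw [← hs, map_smul, smul_eq_zero, or_iff_left n] at k
  rw [k, zero_smul, res_res] at hs
  refine (eqv_out.bij 2).1 ((Mp.res_st _ _ y).trans ((Mp.st_res (mp_τ T (e1 ▸ mapsTo_image _ _))
    (inter_subset_left.trans e2) y).symm.trans ?_))
  rw [← hs, map_zero, map_zero]

/-- the real cohomology of the exterior of a knot in a rational homology sphere -/
structure DR (δ : Z2) : Prop where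
  h2 : HZ IN 2 T.Ex
  inj : ∀ y, rT T 1 y = 0 → y = 0
  ex : ∃ y, rT T 1 y = ch δ.1 δ.2
  im : ∀ y, ∃ r : ℝ, rT T 1 y = ch (r * δ.1) (r * δ.2)

variable {T} {δ a b : Z2}

theorem smul_ch (r x y : ℝ) : r • ch x y = ch (r * x) (r * y) := by simp only [ch]; module

theorem sub_ch (x y x' y' : ℝ) : ch x y - ch x' y' = ch (x - x') (y - y') := by simp only [ch]; module

theorem rT_ang {θ : N → Circle} (h : Ang T θ δ) : rT T 1 (cl_ang h.sm).cls = ch δ.1 δ.2 :=
  cls_congr (h' := (cl_aL.smul _).add (cl_aM.smul _)) fun z hz =>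
    (pm_ang (h.sm _ (T.τ_mem.2 hz)) ((T.ld z).mdifferentiableAt ne0)).trans
      ((ang_congr (eventually_of_mem (isOpen_cz.mem_nhds hz)
        fun w hw => (h.eq w hw).trans (mul_comm _ _))).trans ((Orx52.ang_mon _ _ hz).trans (add_comm _ _)))

theorem dr_of [CompactSpace N] {o : N → Ext EN} (ho : Ori IN o) (h1 : HZ IN 1 (univ : Set N))
    (h2 : HZ IN 2 (univ : Set N)) {θ : N → Circle} (h : Ang T θ δ) (h0 : δ.2 ≠ 0) : DR T δ := by
  have k : ∀ {k} {y : HR IN k T.Ex} {z}, HZ IN k (univ : Set N) → rT T k y = res (subset_univ _) z → y = 0 :=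
    fun h e => by obtain ⟨x, rfl, -⟩ := mid T e; rw [h.eq x, map_zero]
  have n : (δ.2 : ℝ) ≠ 0 := by exact_mod_cast h0
  refine ⟨hz_iff.2 fun y => k h2 ((rT_two T ho y).trans (map_zero _).symm),
    fun y e => k h1 (e.trans (map_zero _).symm), ⟨_, rT_ang h⟩, fun y => ?_⟩
  obtain ⟨s, t, e⟩ := span_cz (rT T 1 y)
  refine ⟨t / δ.2, ?_⟩
  rw [← smul_ch, ← rT_ang h, ← map_smul, ← sub_eq_zero, ← map_sub]
  refine (congrArg _ (k h1 (z := (s - t / δ.2 * δ.1) • cl_aL.cls) ?_)).trans (map_zero _)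
  rw [map_sub, map_smul, rT_ang h, smul_ch, res_aL, e, div_mul_cancel₀ _ n]
  exact (sub_ch s t _ _).trans (by rw [sub_self])

theorem DR.hz1 (h : DR T δ) (h0 : δ.2 ≠ 0) : HZ IN 1 (univ : Set N) := hz_iff.2 fun x => by
  obtain ⟨s, hs⟩ := span_st (rU T 1 x)
  obtain ⟨r, hr⟩ := h.im (res (subset_univ _) x)
  have e := rT_res T x
  rw [hs, res_aL] at e
  obtain ⟨e1, e2⟩ := ch_inj (hr.symm.trans e)
  obtain rfl : r = 0 := (mul_eq_zero.1 e2).resolve_right (by exact_mod_cast h0)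
  rw [zero_mul] at e1
  exact Rob53.inj T (sj0 T) (h.inj _ (by rw [hr]; simp [ch])) (by rw [hs, ← e1, zero_smul])

theorem DR.hz2 (h : DR T δ) (h0 : δ.2 ≠ 0) : HZ IN 2 (univ : Set N) := hz_iff.2 fun x => by
  refine Rob53.inj T (fun e => ?_) (h.h2.eq _) ((hz_st (k := 0)).eq _)
  obtain ⟨s, t, rfl⟩ := span_cz e
  obtain ⟨y, hy⟩ := h.ex
  refine ⟨(t / δ.2) • y, (t / δ.2 * δ.1 - s) • cl_aL.cls, ?_⟩
  rw [map_smul, hy, smul_ch, res_aL, sub_ch, div_mul_cancel₀ _ (by exact_mod_cast h0), sub_sub_cancel, sub_zero, ch]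

omit [SecondCountableTopology N] in
theorem DR.tg {T' : Tb IN' N'} {g : N' → N} {p q : Z2} (h : DR T δ) (k : TG T' T g p q) :
    DR T' (dot δ q, dot δ p) := by
  have m : Mp IN' IN T'.Ex T.Ex g := ⟨fun y hy => (k.ld y hy).contMDiffAt, k.bij.mapsTo⟩
  have b := st_bij m T'.isOpen_Ex k.ld k.bij ⟨_, (T'.τ_mem (w := (1, 1))).2 one_ne_zero⟩
  have e : ∀ y, rT T' 1 (m.st 1 y) = (mp_gl (p := p) (q := q)).st 1 (rT T 1 y) := fun y =>
    (Mp.st_comp _ _ y).trans ((Mp.st_congr isOpen_cz _ _ k.eq y).trans (Mp.st_comp _ _ y).symm)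
  refine ⟨bd_zero.1 ((bd_zero.2 h.h2).of_surj _ (b 2).2), fun y hy => ?_, ?_, fun y => ?_⟩
  · obtain ⟨y, rfl⟩ := (b 1).2 y
    rw [h.inj y (st_inj_of_inv isOpen_cz mp_gl mp_gl (fun _ => gl_glI k.uni) (by rw [← e, hy, map_zero])), map_zero]
  · obtain ⟨y, hy⟩ := h.ex
    exact ⟨_, (e y).trans (by rw [hy, st_gl]; simp [dot])⟩
  · obtain ⟨y, rfl⟩ := (b 1).2 y
    obtain ⟨r, hr⟩ := h.im y
    exact ⟨r, (e y).trans (by rw [hr, st_gl]; simp [dot, mul_add, mul_assoc])⟩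

theorem DR.fill1 (h : DR T δ) (F : Fl T a b IN' N') (hu : Uni a b) (h0 : dot δ a ≠ 0) :
    HZ IN' 1 (univ : Set N') := haveI := F.sc hu; (h.tg (F.tg' hu)).hz1 h0

theorem DR.fill2 (h : DR T δ) (F : Fl T a b IN' N') (hu : Uni a b) (h0 : dot δ a ≠ 0) :
    HZ IN' 2 (univ : Set N') := haveI := F.sc hu; (h.tg (F.tg' hu)).hz2 h0

end Crest.Agent.X212.Rob53
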