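import Crest.Agent.X212.Sw87.MoL
import Crest.Agent.X212.Cht98.Dp
import Crest.Agent.X212.M.Api

/-!
# Row 212, GEO engine, leaf PZ (helper53), part A: active bands are necks
-/

set_option autoImplicit false
set_option linter.unusedSectionVars false
noncomputable section
open scoped Manifold ContDiff Topology InnerProductSpace
open MeasureTheory Set Function Filter

namespace Crest.Agent.X212.Rob53.Pz
open An Cyf70 Sw Flo2 Geo28 Met55 Sw87.Mo
open Nd18 (Jv)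
open Orx52 (pr oR Pos oriOn ori_oR)
open Int54 (oc volF)
open Line51 (iL)
open Cht98 (Nck)

variable {κ : Type} [Fintype κ] [DecidableEq κ] {μ : Type} [Fintype μ] [DecidableEq μ]
  {X : M4} {k : ℕ}

/-! ### the stretch -/

theorem ld_st (v σ : ℝ) : IsLocalDiffeomorphAt 𝓘(ℝ, ℝ) 𝓘(ℝ, ℝ) ∞ (stH v).symm σ :=
  ld_of_oph (φ := (stH v).symm.toOpenPartialHomeomorph) (stH_sm v).contMDiff.contMDiffOn
    (st_sm v).contMDiff.contMDiffOn trivial

theorem pos_st (v : ℝ) : Pos 𝓘(ℝ, ℝ) 𝓘(ℝ, ℝ) (stH v).symm univ oR oR :=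
  Orx52.pos_of_eq (oriOn ori_oR _) (c := fun τ => (sd v ((stH v).symm τ))⁻¹)
    (fun _ _ => inv_pos.2 (sd_pos _ _)) fun x _ => by
    rw [Orx52.pm_oR (stH_der v x).differentiableAt.mdifferentiableAt, Orx52.oR_eq, ← map_smul, Dr59.df]
    refine congrArg _ (LinearMap.ext_ring ?_)
    simp [Dr59.mf, (stH_der v x).deriv]

theorem ld_cy (e : ET κ) (v : ℝ) (x : e.A.Y.M × ℝ) :
    IsLocalDiffeomorphAt (IC e.A.Y.I) (IC e.A.Y.I) ∞ (cyH e.A.Y.M v) x :=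
  ld_of_oph (φ := (cyH e.A.Y.M v).toOpenPartialHomeomorph) (cyH_sm e v).contMDiffOn
    (cyH_sm' e v).contMDiffOn trivial

theorem pos_cy (e : ET κ) (v : ℝ) :
    Pos (IC e.A.Y.I) (IC e.A.Y.I) (cyH e.A.Y.M v) univ (pr e.A.o oR) (pr e.A.o oR) :=
  ((Orx52.pos_id.2 (oriOn e.A.ori univ).same).prodMap (pos_st v)
    (fun y _ => (Diffeomorph.refl _ _ _).isLocalDiffeomorph y) fun σ _ => ld_st v σ).mono
    fun _ _ => ⟨trivial, trivial⟩

theorem cy_st {Y : Type} [TopologicalSpace Y] (v : ℝ) (x : Y × ℝ) : cyH Y v (x.1, st v x.2) = x :=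
  Prod.ext rfl (symm_st v x.2)

/-! ### literal frames -/

section band
variable {b : NB κ X} {e : Option κ → VF X.I X.M} {v d : ℝ}

theorem ld_k {x : b.e.A.Y.M × ℝ} (hx : x ∈ b.k.source) :
    IsLocalDiffeomorphAt (IC b.e.A.Y.I) X.I ∞ b.k x := ld_of_oph b.sm b.sm' hx

theorem rl_e (h : b.Rl e v d) (hd : d ≤ 1) {x : b.e.A.Y.M × ℝ} (hx : cyH _ v x ∈ b.V d) (a : Option κ) :
    mfderiv (IC b.e.A.Y.I) X.I (b.k ∘ cyH _ v) x (ce b.e.D.F.e a x) = e a (b.k (cyH _ v x)) :=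
  (DFunLike.congr_fun (mfderiv_comp x ((ld_k (b.V_sub hd hx)).mdifferentiableAt (by simp))
    ((cyH_sm b.e v x).mdifferentiableAt (by simp))) _).trans
    ((congrArg _ (cyH_e b.e v a x)).trans (h a _ hx))

theorem rl_P (h : b.Rl e v d) (hd : d ≤ 1) {x : b.e.A.Y.M × ℝ} (hx : x ∈ b.V d) (a a' : Option κ) :
    fP e (b.k x) a a' = b.e.D.B.P a a' x := by
  rw [← cy_st v x] at hx
  have h1 := fP_rel ((ld_cy b.e v _).comp _ _ (ld_k (b.V_sub hd hx)))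
    (pre_sp b.e.D.Z.toPre _) (rl_e h hd hx)
  have h2 := fr_P b.e.D.Z a a' (x.1, st v x.2)
  rw [comp_apply, cy_st] at h1
  rw [← h1]
  refine h2.symm.trans ?_
  cases a <;> cases a' <;> rfl

theorem rl_o (hs : b.e.Std) (he : ∀ x, FAt e x) (h : b.Rl e v d) (hd : d ≤ 1) {x : b.e.A.Y.M × ℝ}
    (hx : x ∈ b.V d) (a₁ a₂ a₃ a₄ : Option κ) :
    oc e (volF X.o e) a₁ a₂ a₃ a₄ (b.k x) = b.e.D.o a₁ a₂ a₃ a₄ x.1 := by
  rw [← cy_st v x] at hx
  have h1 : Pos (IC b.e.A.Y.I) X.I (b.k ∘ cyH _ v) {(x.1, st v x.2)} (pr b.e.A.o oR) X.o :=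
    Pos.comp b.n.pos ((pos_cy b.e v).mono (subset_univ _)) (fun _ hy => ld_k hy)
      (fun y _ => ld_cy b.e v y) (by rintro _ rfl; exact b.V_sub hd hx)
  have h2 := M.cf_rel (I := X.I) (J := IC b.e.A.Y.I) X.X.dim
    (by rw [Module.finrank_prod, b.e.A.Y.dim, Module.finrank_self]) (f := b.k ∘ cyH _ v)
    (e' := ce b.e.D.F.e) (o := X.o) (o' := pr b.e.A.o oR) (rl_e h hd hx) (he _).sp
    (pre_sp b.e.D.Z.toPre _) (mul_comm (_ : ℝ) _ ▸ h1 _ rfl) ![a₁, a₂, a₃, a₄]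
  rw [comp_apply, cy_st] at h2
  exact h2.trans (hs.o a₁ a₂ a₃ a₄ (x.1, st v x.2)).symm

theorem tm_cont (v : ℝ) : Continuous (b.tm v) := (st_sm v).continuous.comp b.n.cont

theorem ψ_tgt' (v : ℝ) : (b.ψ v).target = b.tm v ⁻¹' Jv (pa b.s) (qa v b.s) := by
  rw [NB.ψ_tgt]; ext x; exact (st_mem b.s v _).symm

theorem ψ_mem {x : b.e.A.Y.M × ℝ} (hx : x ∈ (b.ψ v).source) : cyH _ v x ∈ b.V 0 := NB.cy_mem hx.2.2

theorem ψ_U {x : b.e.A.Y.M × ℝ} (hx : x ∈ (b.ψ v).source) : b.ψ v x ∈ b.U 0 :=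
  NB.ψ_tgt (b := b) v ▸ (b.ψ v).map_source hx

theorem nck (hs : b.e.Std) {F : Fr X.I X.M (Option κ)} (hF : F.IsVol) (h : b.Rl F.e v 0) :
    Nck b.e.D.F.toPre F.toPre (pa b.s) (qa v b.s) (b.ψ v) (b.tm v) where
  src := NB.ψ_src v
  tgt := ψ_tgt' v
  cont := tm_cont v
  tm_ψ x hx := (congrArg (st v) (NB.tm_k (b.V_sub zero_le_one (ψ_mem hx)))).trans (st_symm v x.2)
  iso := iso_vol hs.ok.G.vol hF h.rel.sm h.rel.sm' h.rel.e

/-- extensions of smooth fields are smooth -/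
theorem sm_ext {W : Type} [NormedAddCommGroup W] [NormedSpace ℝ W] {f : b.e.A.Y.M → W}
    (hf : Sm b.e.A.Y.I f) : Sm X.I (b.ext f) := fun x => by
  by_cases hx : x ∈ b.k.target
  · have h1 := (b.sm' x hx).contMDiffAt (b.k.open_target.mem_nhds hx)
    refine (((cu_sm b.s).contMDiff _).comp x (contMDiffAt_snd.comp x h1)).smul
      ((hf _).comp x (contMDiffAt_fst.comp x h1)) |>.congr_of_eventuallyEq ?_
    filter_upwards [b.k.open_target.mem_nhds hx] with y hy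
    exact congrArg (fun σ => cu b.s σ • f (b.k.symm y).1) (NB.symm_snd hy).symm
  · have h1 : b.n.tm x ∉ closure (Jm b.s (1 / 4)) := fun h => hx (b.U_sub (d := 1 / 2) (by norm_num) (by
      show b.n.tm x ∈ Jm b.s (1 / 2)
      generalize b.n.tm x = σ at h
      rcases hs : b.s with _ | _ | _ <;> rw [hs] at h
      · have := closure_minimal (fun _ k => mem_Icc.2 ⟨(jm_none.1 k).1.le, (jm_none.1 k).2.le⟩)
          isClosed_Icc h
        exact jm_none.2 ⟨by linarith [this.1], by linarith [this.2]⟩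
      · have := closure_minimal (fun _ k => (jm_in.1 k).le) isClosed_Iic h
        exact jm_in.2 (by linarith [mem_Iic.1 this])
      · have := closure_minimal (fun _ k => (jm_out.1 k).le) isClosed_Ici h
        exact jm_out.2 (by linarith [mem_Ici.1 this])))
    refine (contMDiffAt_const (c := 0)).congr_of_eventuallyEq ?_
    filter_upwards [b.n.cont.continuousAt.eventually_mem (isClosed_closure.isOpen_compl.mem_nhds h1)]
      with y hy using NB.ext_zero f fun h => hy (subset_closure h)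

end band

/-! ### models -/

variable {τ : MT κ X} {β : MB τ k} {t : Tk k} {i : τ.N}

theorem v_end (h : (τ.nb i).s ≠ none) : β.v t i = 2 := if_neg h

theorem B_P (a b : Option κ) (x : X.M) : β.B.P a b x = fP (β.e t) x a b :=
  congrFun (congrFun (β.P t x).symm a) b

theorem F_P : (β.F t).P = β.B.P := by funext a b x; exact (B_P a b x).symm

theorem B_lit (h : 1 < β.v t i) {x : (τ.nb i).e.A.Y.M × ℝ} (hx : x ∈ (τ.nb i).V (1 / 2)) :
    (∀ a b, β.B.P a b ((τ.nb i).k x) = (τ.nb i).e.D.B.P a b x) ∧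
      ∀ a b c d, β.B.o a b c d ((τ.nb i).k x) = (τ.nb i).e.D.o a b c d x.1 :=
  ⟨fun a b => (B_P a b _).trans (rl_P (β.lit t i h) (by norm_num) hx a b), fun a b c d =>
    (congrFun (congrFun (congrFun (congrFun (congrFun (β.o t) a) b) c) d) _).symm.trans
      (rl_o (τ.std i) (β.fr t) (β.lit t i h) (by norm_num) hx a b c d)⟩

theorem nckF (h : 1 < β.v t i) : Nck (τ.nb i).e.D.F.toPre (β.F t).toPre (pa (τ.nb i).s)
    (qa (β.v t i) (τ.nb i).s) ((τ.nb i).ψ (β.v t i)) ((τ.nb i).tm (β.v t i)) :=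
  nck (τ.std i) (rFr_vol _ _) ((β.lit t i h).mono (by norm_num))

theorem V_half {b : NB κ X} {v : ℝ} {x : b.e.A.Y.M × ℝ} (hx : x ∈ (b.ψ v).source) :
    cyH _ v x ∈ b.V (1 / 2) := ⟨trivial, jm_mono _ (by norm_num) (ψ_mem hx).2⟩

variable (c : MC μ β)

omit c in
theorem sum_k {W : Type} [AddCommGroup W] [Module ℝ W] (f : ∀ j, (τ.nb j).e.A.Y.M → W) (v : τ.N → ℝ)
    {x : (τ.nb i).e.A.Y.M × ℝ} (hx : x ∈ (τ.nb i).k.source) :
    ∑ j, wt (v j) • (τ.nb j).ext (f j) ((τ.nb i).k x) = (wt (v i) * cu (τ.nb i).s x.2) • f i x.1 := by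
  rw [Finset.sum_eq_single i (fun j _ hj => ?_) (by simp), NB.ext_k _ hx, smul_smul]
  rw [NB.ext_zero _ fun h => disjoint_left.1 (τ.dj hj) ((τ.nb j).U_sub (by norm_num) h)
    ((τ.nb i).k.map_source hx), smul_zero]

omit c in
theorem sum_ψ {W : Type} [AddCommGroup W] [Module ℝ W] (f : ∀ j, (τ.nb j).e.A.Y.M → W) {v : τ.N → ℝ}
    (h : 3 / 2 ≤ v i) {x : (τ.nb i).e.A.Y.M × ℝ} (hx : x ∈ ((τ.nb i).ψ (v i)).source) :
    ∑ j, wt (v j) • (τ.nb j).ext (f j) ((τ.nb i).ψ (v i) x) = f i x.1 := by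
  refine (sum_k f v ((τ.nb i).V_sub zero_le_one (ψ_mem hx))).trans ?_
  rw [wt_hi h, cu_one (ψ_mem hx).2, mul_one, one_smul]
  rfl

theorem cmp_zero {e : Option κ → VF X.I X.M} {f : X.Fm} {x : X.M} (h : f x = 0) :
    Sw87.Mo.cmp e f x = 0 := by
  ext s; simp [Sw87.Mo.cmp, Int54.cf, h]

theorem cn_ψ (h : 1 < β.v t i) (a : Option κ) {x : (τ.nb i).e.A.Y.M × ℝ}
    (hx : x ∈ ((τ.nb i).ψ (β.v t i)).source) : Gm56.cn (β.F t) c.m.re a ((τ.nb i).ψ (β.v t i) x) =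
      Nd18.ca (Gm56.cnY (τ.nb i).e.D.F ((c.ec i).m (c.cl i))) a x := by
  have h1 := Gm56.cn_lit (F := cyl (τ.nb i).e.D.F) (F' := β.F t) (m := Gm56.mZ ((c.ec i).m (c.cl i)))
    (m' := c.m.re) (Pj41.fRel_of_iso (nckF h).iso) (fun y hy => (c.lit i _ (V_half hy)).1.symm)
    (fun a y hy => ((c.lit i _ (V_half hy)).2 a).symm) hx a
  rw [Gm56.cn_cyl] at h1
  exact h1.symm

theorem A_ψ {n : ℕ} (ct : Fin n → Cut X.M κ (μ ⊕ μ)) (h : 3 / 2 ≤ β.v t i) (a : Option κ)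
    {x : (τ.nb i).e.A.Y.M × ℝ} (hx : x ∈ ((τ.nb i).ψ (β.v t i)).source) :
    (c.bg t (β.v t) ct).A a ((τ.nb i).ψ (β.v t i) x) = (c.ty i).en.cyl.A a x := by
  have h1 : c.al (β.v t) a ((τ.nb i).ψ (β.v t i) x) = _ := sum_ψ _ h hx
  have h2 : c.m.re.p ((τ.nb i).ψ (β.v t i) x) = ((c.ec i).m (c.cl i)).p x.1 :=
    (c.lit i _ (V_half hx)).1
  have h3 : c.m.re.J = ((c.ec i).m (c.cl i)).J := (c.std i).J.symm
  refine Eq.trans ?_ (congrArg (fun A => Nd18.ca A a x) (c.std i).tw.2.2.symm)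
  show Gm56.cn _ _ a _ + c.al _ a _ • (c.m.re.J * c.m.re.p _) = _
  rw [cn_ψ c (by linarith) a hx, h1, h2, h3]
  cases a with
  | none => exact (congrArg (0 + ·) (zero_smul ℝ _)).trans (add_zero _)
  | some a => rfl

theorem ms_ψ (h : 3 / 2 ≤ β.v t i) {x : (τ.nb i).e.A.Y.M × ℝ}
    (hx : x ∈ ((τ.nb i).ψ (β.v t i)).source) :
    c.ms (β.v t) ((τ.nb i).ψ (β.v t i) x) + c.mc t ((τ.nb i).ψ (β.v t i) x) = (c.ty i).en.cyl.ms x := by
  rw [c.m0 t i (by linarith) _ (ψ_U hx), add_zero]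
  exact sum_ψ (fun j y => (c.ty j).en.cyl.ms (y, 0)) h hx

theorem om_zero {n : ℕ} (ct : Fin n → Cut X.M κ (μ ⊕ μ)) (v : τ.N → ℝ) {x : X.M} (h : c.fo t x = 0) :
    (c.bg t v ct).om x = 0 := (congrArg ((β.bg0 c.m).p2 x) (cmp_zero h)).trans (map_zero _)

/-- **the neck of an active band** -/
def nk {n : ℕ} (ct : Fin n → Cut X.M κ (μ ⊕ μ)) (h : 3 / 2 < β.v t i) :
    Nk (X := X.X) (c.ty i).en (c.bg t (β.v t) ct) :=
  have h1 : 1 < β.v t i := by linarith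
  have N := nckF h1
  { p := pa (τ.nb i).s
    q := qa (β.v t i) (τ.nb i).s
    ψ := (τ.nb i).ψ (β.v t i)
    tm := (τ.nb i).tm (β.v t i)
    len := by
      have := len_ge (β.v t i)
      rcases (τ.nb i).s with _ | _ | _ <;> simp [pa, qa]
      linarith
    src := N.src
    tgt := N.tgt
    cont := N.cont
    tm_ψ := N.tm_ψ
    iso := N.iso
    P := fun a b x hx => ((B_lit h1 (V_half hx)).1 a b).trans (by cases a <;> cases b <;> rfl)
    o := fun a b c d x hx => (B_lit h1 (V_half hx)).2 a b c d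
    l := fun x _ => ((τ.std i).l x.1).symm
    il := (τ.std i).il.symm
    a := fun a x _ => by
      show 0 = Nd18.ca (τ.nb i).e.D.a a x
      rw [(τ.std i).a]
      cases a <;> rfl
    hJ := (c.std i).J.symm
    hw := rfl
    hp := fun x hx => (c.lit i _ (V_half hx)).1
    hρ := fun a x hx => (c.lit i _ (V_half hx)).2 a
    hA := fun a _ hx => A_ψ c ct h.le a hx
    hms := fun _ hx => ms_ψ c h.le hx
    hom := fun x hx => (om_zero c ct _ (c.f0 t i h1 _ (ψ_U hx))).trans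
      (congrFun (c.std i).om x.1).symm }

theorem nk_some {n : ℕ} (ct : Fin n → Cut X.M κ (μ ⊕ μ)) (h : 3 / 2 < β.v t i) :
    ∃ K ∈ (c.pz t (β.v t) ct).nk i, K.ng = (τ.nb i).ng (β.v t i) := by
  have h' : 3 / 2 < β.v t i ∧ ∃ K : Nk (X := X.X) (c.ty i).en (c.bg t (β.v t) ct),
      K.ng = (τ.nb i).ng (β.v t i) := ⟨h, nk c ct h, rfl⟩
  exact ⟨h'.2.choose, dif_pos h', h'.2.choose_spec⟩

theorem nk_spec {n : ℕ} {ct : Fin n → Cut X.M κ (μ ⊕ μ)} {v : τ.N → ℝ} {K}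
    (h : K ∈ (c.pz t v ct).nk i) : 3 / 2 < v i ∧ K.ng = (τ.nb i).ng (v i) := by
  simp only [MC.pz] at h
  split_ifs at h with h'
  · exact ⟨h'.1, Option.some.inj h ▸ h'.2.choose_spec⟩
  · cases h

end Crest.Agent.X212.Rob53.Pz
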