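import Crest.Agent.X212.Rob53.Ori
import Crest.Agent.X212.Sw87.Base
import Crest.Agent.X212.Lab56.Cf
import Crest.Agent.X212.Lab9.Main
import Crest.Agent.X212.Lu3.Main
import Crest.Agent.X212.Wd38.Ctx

/-!
# X212 / Rob53, part Th (helper53): the objects of the seam

* `h1Stmt`, `difStmt`, `obStmt`; `exists_lb`, `Nc` (good exteriors), `xK` (the exterior of a knot).
-/

set_option autoImplicit false
set_option linter.unusedSectionVars false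
set_option linter.style.haveILetI false

open Set Filter Topology Function Module
open scoped ContDiff Manifold
open Crest.Agent.R208 Crest.Agent.R208.F
open Crest.Agent.X212.Dr59 (HZ hz_sphere)
open Crest.Agent.X212.Int54 (Ori)
open Crest.Agent.X212.Orx52 hiding sigmaCompact
open Crest.Agent.X212.Rod53 Crest.Agent.X212.Bor5.T Crest.Agent.X212.Sw87
open Crest.Agent.X212.Lab56 (Cls Good Pic0 Lb thM thK)
open Crest.Agent.X212.Line51 (dot)
open Crest.Agent.X212.Ext52 (KD)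
open Crest.GeometryTopology.DehnSurgery (FillingData)
open Crest.Agent.X212.Rw22 (Vx Ln vK vL δL SL)
open Crest.Agent.X212.M (Mf)

noncomputable section

namespace Crest.Agent.X212.Rob53

theorem fo_e {τ : Tub} {A : O3} {a : Z2} (f : Fo τ A a) : Pos τ.N.I A.Y.I f.F.e τ.T.Ex τ.o A.o :=
  (pos_ie_iff f.F τ.ori).1 f.pos

/-- **R-H1** -/
theorem h1Stmt : H1Stmt := fun _ A _ f _ _ h => hz1_X f.F f.hu A.h1 h

theorem uniq (τ : Tub) (A B : O3) (a b : Z2) (f : Fo τ A a) (g : Fo τ B b) (h : PM a b) : Nonempty (PD A B) :=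
  let ⟨Φ, k, _⟩ := exists_dif f.F g.F f.hu g.hu h A.ori B.ori (fo_e f) (fo_e g); ⟨⟨Φ, k⟩⟩

section std

variable {N Y : Type} [TopologicalSpace N] [ChartedSpace E3 N] [IsManifold (𝓡 3) ∞ N] [T2Space N]
  [SecondCountableTopology N] [CompactSpace N]
  [TopologicalSpace Y] [ChartedSpace E3 Y] [IsManifold (𝓡 3) ∞ Y] [T2Space Y]
  [SecondCountableTopology Y] [CompactSpace Y] [ConnectedSpace Y]
  {T : Tb (𝓡 3) N} {θ : N → Circle} {δ a b : Z2} {o : N → Ext E3} {c : Y → Ext E3}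

/-- an oriented manifold with the standard model -/
def o3 (hc : Ori (𝓡 3) c) : O3 where
  Y := Mf.ofB 3 (𝓡 3) Y (by simp)
  cpt := (inferInstance : CompactSpace Y)
  con := (inferInstance : ConnectedSpace Y)
  o := c
  ori := hc

/-- a negative tube with the standard model -/
def tub (ho : OriOn (𝓡 3) T.Ex o) (h : Pos IT (𝓡 3) T.τ {z | z.2 ≠ 0} (((-1 : ℤ) : ℝ) • oT) o) : Tub where
  N := Mf.ofB 3 (𝓡 3) N (by simp)
  cpt := (inferInstance : CompactSpace N)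
  T := T
  o := o
  ori := ho
  σ := -1
  hσ := .inr rfl
  pos := h

/-- a good exterior -/
structure Nc (T : Tb (𝓡 3) N) (θ : N → Circle) (δ : Z2) : Prop where
  gd : Good T θ δ
  dr : DR T δ
  cl : Nonempty (Cls ((𝓡 3).prod 𝓘(ℝ, ℝ)) (univ : Set (N × ℝ)))

theorem exists_lb (h : Good T θ δ) (k : Nonempty (Cls ((𝓡 3).prod 𝓘(ℝ, ℝ)) (univ : Set (N × ℝ)))) :
    Nonempty (Lb T θ δ) := by
  obtain ⟨⟨D⟩⟩ := k
  haveI := Orx52.sigmaCompact (𝓡 3) N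
  have p : Pic0 ((𝓡 3).prod 𝓘(ℝ, ℝ)) (univ : Set (N × ℝ)) (T.Ex ×ˢ {0}) :=
    h.pic.comp (f := Prod.fst) (g := fun x => (x, 0)) (fun _ _ => contMDiffAt_fst) (fun _ h => h.1)
      (fun _ _ => contMDiffAt_id.prodMk contMDiffAt_const) (mapsTo_univ _ _) fun _ h => Prod.ext rfl h.2.symm
  obtain ⟨j, hj⟩ := p.dfm (Lab56.dfm_cyl T.Ex ordConnected_univ trivial rfl) (T.isOpen_Ex.prod isOpen_univ)
    (subset_univ _) _ _ D.ok.det
  exact ⟨⟨_, _, ⟨D.d, j, D.ok.mono (subset_univ _), hj⟩, D.ok, h.ang, h.h1, fun _ hv =>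
    Lab56.pic_off hv fun hu => Lab9.pStmt.fill _ hu h.pic⟩⟩

/-- the filling as a rational homology sphere -/
def Nc.q3 (h : Nc T θ δ) (F : Fl T a b (𝓡 3) Y) (hu : Uni a b) (h0 : dot δ a ≠ 0) (hc : Ori (𝓡 3) c) : Q3 where
  toO3 := o3 hc
  h1 := h.dr.fill1 F hu h0
  h2 := h.dr.fill2 F hu h0
  fin := let ⟨L⟩ := exists_lb h.gd h.cl; L.finite F hu h0

theorem Nc.mer (h : Nc T θ (0, 1)) (F : Fl T a b (𝓡 3) Y) (hu : Uni a b) (h0 : a.2 ≠ 0) (hc : Ori (𝓡 3) c) :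
    Nc F.mer (thM F θ) (-a.1, a.2) :=
  have k : dot (0, 1) a ≠ 0 := by simpa [dot] using h0
  have g := Lab56.good_mer Lu3.uStmt Lab9.pStmt F hu h0 h.gd
  ⟨g, dr_of hc (h.dr.fill1 F hu k) (h.dr.fill2 F hu k) g.ang h0,
    let ⟨L⟩ := exists_lb h.gd h.cl; ⟨L.cl F hu 0⟩⟩

end std

theorem nc_KD (k : KD) : Nc (ofTube k.toTube) (thK k) (0, 1) :=
  have g := Lab56.good_KD Lu3.uStmt Lab9.pStmt k
  ⟨g, dr_of (ori_oS k.toTube) (hz_sphere (d := 3) (k := 0) (by simp)) (hz_sphere (d := 3) (k := 1) (by simp)) g.ang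
    one_ne_zero, ⟨Lab56.on_sphD.cls⟩⟩

/-- the exterior of a knot -/
def xK (k : KD) : Xt (0, 1) := ⟨tK k, rfl, thK k, (nc_KD k).gd, (nc_KD k).cl⟩

/-- the Dehn filling -/
def oK (k : KD) (a : Z2) : O3 := o3 (oriOn (ori_oF k.toTube (Wd38.fd a)) univ).neg.ori

/-- the Dehn filling as a filling -/
def foK (k : KD) {a : Z2} (h : Wd38.Pr a) : Fo (tK k) (oK k a) a where
  a' := _
  hu := by simpa only [Wd38.sa_fd h] using uni_s (Wd38.fd a)
  F := (ofFill k.toTube (Wd38.fd a)).cast (Wd38.sa_fd h) rfl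
  pos := (pos_ie_iff _ (tK k).ori).2 ((pos_ie_iff _ (oriOn (ori_oS _) _)).1 (pos_ie k.toTube _)).neg

theorem cop {q p : ℤ} {b : Z2} (h : Uni (q, p) b) : IsCoprime p q :=
  ⟨-(dt (q, p) b * b.1), dt (q, p) b * b.2, by have := h.sq; simp only [dt] at this ⊢; linear_combination this⟩

/-- **R-DIF** -/
theorem difStmt : DifStmt where
  uniq := uniq
  cos k _ _ p q q' f g h :=
    let ⟨φ⟩ := uniq _ _ _ _ _ f (foK k ⟨_, f.hu⟩) (PM.refl _)
    let ⟨ψ⟩ := uniq _ _ _ _ _ (foK k ⟨_, g.hu⟩) g (PM.refl _)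
    let ⟨χ, e⟩ := Wd38.exists_gf h (cop f.hu) (cop g.hu)
    ⟨φ.trans (PD.trans (A := oK k (q, p)) (B := oK k (q', p)) ⟨χ, e.neg⟩ ψ)⟩
  cab k _ _ f g :=
    let ⟨φ⟩ := uniq _ _ _ _ _ f (foK _ ⟨_, f.hu⟩) (PM.refl _)
    let ⟨ψ⟩ := uniq _ _ _ _ _ (foK k ⟨_, g.hu⟩) g (PM.refl _)
    let ⟨χ, e⟩ := Wd38.exists_gc k
    ⟨φ.trans (PD.trans (A := oK _ (1, 1)) (B := oK k (4, 1)) ⟨χ, e.neg⟩ ψ)⟩

/-- the sphere -/
def sphOf {A : O3} (Φ : S3' ≃ₘ^∞⟮𝓡 3, A.Y.I⟯ A.Y.M) : Sph A :=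
  ⟨Φ, Φ.isLocalDiffeomorph, Φ.surjective, fun _ _ e => ⟨.refl ℝ _, Φ.injective e, fun _ => rfl⟩⟩

/-- a lens space -/
def lensOf {A : O3} {a b : Z2} {h : LH a b} (Φ : Lens h ≃ₘ^∞⟮𝓡 3, A.Y.I⟯ A.Y.M) : Sph A :=
  ⟨Φ ∘ cov h, fun y => (ld_cov h y).comp _ _ (Φ.isLocalDiffeomorph _), Φ.surjective.comp (cov_surj h), fun _ _ e =>
    let ⟨α, β, k, e⟩ := (cov_eq_iff h).1 (Φ.injective e)
    ⟨rot α β, e.symm, fun z => congrArg Φ (cov_rot h k z)⟩⟩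

/-- the vertex `r / q` of a line -/
def lv (l : Ln) : Vx :=
  ⟨(l.1.2, l.1.1), fun e => by
    have := l.2.2.2.2
    rw [show l.1.2 = 0 from e, isCoprime_zero_left, Int.isUnit_iff] at this
    have := l.2.1
    omega, by have := l.2.1; omega, l.2.2.2.2⟩

theorem lv_ac {l : Ln} {i : Vx} (h : some i ∈ SL l) : ac (0, 1) (1, i.1.1 / l.1.1) (vK (lv l)) = vK i := by
  obtain ⟨h1, h2⟩ := h i rfl
  have := Int.emod_add_mul_ediv i.1.1 l.1.1
  simp [ac, vK, lv, h1, ← h2, this]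

/-- **R-OB** -/
theorem obStmt : ObStmt := fun k => by
  let T := ofTube k.toTube
  have n := nc_KD k
  have ho : OriOn (𝓡 3) T.Ex (-oS k.toTube) := (tK k).ori
  have hτ : Pos IT (𝓡 3) T.τ {z | z.2 ≠ 0} (((-1 : ℤ) : ℝ) • oT) (-oS k.toTube) := (tK k).pos
  choose b hu using fun i : Vx => Wd38.pr_of i.2.2.2
  choose c hc hF using fun i => exists_ori_fl (T.fl (hu i)) (hu i) ho
  have nl := fun l => n.mer (T.fl (hu (lv l))) (hu _) (lv l).2.1 (hc _)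
  choose d hd hG using fun l => exists_ori_fl ((T.fl (hu (lv l))).mer.fl Fl.uni_th) Fl.uni_th (oriOn (hc (lv l)) _)
  choose G hG' using fun l i (h : some i ∈ SL l) => (T.fl (hu i)).exists_chg (hu i)
    ((show Uni (0, 1) (1, i.1.1 / l.1.1) from .inr (by simp [dt])).ac (hu (lv l))) (.inl (lv_ac h))
  obtain ⟨Φ, -⟩ := exists_dif T.triv (T.fl (hu ⟨(1, 0), sl10⟩)) uni_std (hu _) (PM.refl _)
    (oriOn (ori_oS k.toTube) univ).neg.ori (hc _) ((pos_id.2 ho.same).congr T.isOpen_Ex fun _ => T.triv_e) (hF _)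
  exact ⟨{
    ob := fun i => n.q3 (T.fl (hu i)) (hu i) (by simpa [dot] using i.2.1) (hc i)
    f := fun i => ⟨_, hu i, T.fl (hu i), (pos_ie_iff _ ho).2 (hF i)⟩
    pic := fun i => Lab9.pStmt.fill (T.fl (hu i)) (hu i) n.gd.pic
    s0 := sphOf Φ
    inj := Φ.injective
    Λ := fun l => (nl l).q3 ((T.fl (hu (lv l))).mer.fl Fl.uni_th) Fl.uni_th (by have := l.2.1; simp [dot, lv]; omega) (hd l)
    lam := fun l => (third_lens (T.fl (hu (lv l))) ((T.fl (hu (lv l))).mer.fl Fl.uni_th) (hu _)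
      (by have := l.2.1; simp [lv]; omega)).map lensOf
    X := fun l => ⟨tub (oriOn (hc (lv l)) _) ((pos_mer _ (hF _) (by simp) hτ).mono (subset_univ _)), rfl, _,
      (nl l).gd, (nl l).cl⟩
    g := fun l i h => ⟨_, Fl.uni_rolf _, (T.fl (hu (lv l))).rolf (G l i h) rfl rfl, (pos_ie_iff _ (oriOn (hc _) _)).2
      (pos_rolf _ _ rfl rfl (hc _) (hc i) (hF _) ((hF i).congr T.isOpen_Ex (hG' l i h)))⟩
    g0 := fun l => ⟨_, Fl.uni_th, (T.fl (hu (lv l))).mer.fl Fl.uni_th, (pos_ie_iff _ (oriOn (hc _) _)).2 (hG l)⟩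
    picg := fun l i h => Lab9.pStmt.fill ((T.fl (hu (lv l))).rolf (G l i h) rfl rfl) (Fl.uni_rolf _) (nl l).gd.pic
    pic0 := fun l => Lab9.pStmt.fill ((T.fl (hu (lv l))).mer.fl Fl.uni_th) Fl.uni_th (nl l).gd.pic
    mer := fun l i h w => (Fl.rolf_it _ (G l i h) rfl rfl w).trans (hG' l i h _ (T.mer_mem w)) }⟩

end Crest.Agent.X212.Rob53
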