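import Crest.Agent.X212.Rob53.Psh
import Crest.Agent.X212.Nvg56.Cn
import Crest.Agent.X212.Geo28.Lv

/-!
# X212 / Rob53, part Ag (helper53): moves along the ends of a piece

* `mv_nc`, `ec_out`, `ec_in` : changes of the neck coordinate;
* `agStmt : Geo28.AgStmt`,  `pinStmt : Geo28.PinStmt`.
-/

set_option autoImplicit false
set_option linter.unusedSectionVars false

open Set Filter Topology Function Metric Module
open scoped ContDiff Manifold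
open Crest.Agent.R208 Crest.Agent.R208.FI
open Crest.Agent.R208.F hiding wd
open Crest.Agent.X212.Orx52 Crest.Agent.X212.Dr59
open Crest.Agent.X212.Bor5.T (O3 Pb Cur)
open Crest.Agent.X212.Geo28

noncomputable section

namespace Crest.Agent.X212.Rob53

/-! ### forms -/

section frm

variable {X X' : M4} {S : Set X.M} {ψ : X.M ≃ₘ^∞⟮X.I, X.I⟯ X.M} {c e η : X.Fm} {d : X.L}

theorem ip_m4 (φ : M4.Dif X X') (c e : X'.Fm) :
    X.ip (pm X.I X'.I φ.φ c) (pm X.I X'.I φ.φ e) = X'.ip c e :=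
  (Int54.integ_eq_of_map (f := φ.φ) (s := univ) (a := c * e) (X'.X.dim.trans X.X.dim.symm) X'.ori X.ori .univ
    (fun w _ => φ.φ.contMDiff w) φ.φ.injective.injOn (fun x hx => (φ.pos x hx).trans_eq (mul_comm _ _))
    (fun x hx => absurd ⟨_, trivial, φ.φ.apply_symm_apply x⟩ hx)
    (fun _ hx => absurd trivial hx) fun _ _ => by rw [pm_mul]).symm

theorem cs_m4 (φ : X.M ≃ₘ^∞⟮X.I, X'.I⟯ X'.M) {k : ℕ} {K : Set X'.M} {e : X'.Fm} (h : Cs X'.I k K e) :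
    Cs X.I k (φ ⁻¹' K) (pm X.I X'.I φ e) :=
  have z : ∀ x, x ∉ φ ⁻¹' tsupport e → pm X.I X'.I φ e x = 0 := fun x hx => by
    rw [pm_apply, show e (φ x) = 0 from image_eq_zero_of_notMem_tsupport hx, map_zero]
  ⟨h.cl.pm (Mp.of_contMDiff φ.contMDiff (mapsTo_univ _ _)),
    .intro (φ.toHomeomorph.isCompact_preimage.2 h.hc.isCompact) z,
    (closure_minimal (s := support _) (fun x hx => by_contra fun k => hx (z x k))
      ((isClosed_tsupport e).preimage φ.continuous)).trans (preimage_mono h.sub)⟩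

theorem ps_m4 (φ : M4.Dif X X') {d' : X'.L} {η : X'.Fm} (hd : Pb φ.φ univ d' d) (h : X'.Ps d' η) :
    X.Ps d (pm X.I X'.I φ.φ η) :=
  let ⟨_, a, b, k⟩ := h
  ⟨_, cs_m4 φ.φ a, Nvg56.cur_dif hd b, by rwa [← pm_sub, ip_m4]⟩

/-- the positive diffeomorphism of a move -/
def Mv.m4 (h : Mv X.I S ψ) : M4.Dif X X := ⟨ψ, h.pos _ X.ori⟩

theorem Mv.pm_fix (h : Mv X.I S ψ) (hS : IsClosed S) (hz : ∀ x ∈ S, η x = 0) : pm X.I X.I ψ η = η :=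
  funext fun x => (em (x ∈ S)).elim (fun k => by rw [pm_apply, hz _ (h.maps subset_rfl k), hz x k, map_zero])
    fun k => pm_of_eventually_id (eventually_of_mem (hS.isOpen_compl.mem_nhds k) h.off) η

theorem Mv.ip_cl (h : Mv X.I S ψ) {k l : ℕ} (hc : Cl X.I (k + 1) univ c) (he : Cs X.I l univ e) :
    X.ip c (pm X.I X.I ψ e) = X.ip c e :=
  let ⟨b, b1, _, _, b4⟩ := h.frm k c hc
  ((cs_m4 ψ he).ip_coh X.ori (cl_dif ψ hc).sm hc.sm ⟨b, b1, fun y _ => b4 y⟩).symm.trans (ip_m4 h.m4 c e)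

end frm

/-! ### necks -/

section nc

variable {A : O3} {X X' : M4} {J T T' : Set ℝ} {a : Option O3} {a₀ r : ℝ} {l : Filter ℝ}

theorem nc_src (k : Nc A X J) : k.k.source = Prod.snd ⁻¹' J := k.src.trans univ_prod

theorem nc_tm (k : Nc A X J) (y : A.Y.M) {t : ℝ} (ht : t ∈ J) : k.tm (k.k (y, t)) = t :=
  k.tmk (y, t) ((nc_src k).ge ht)

theorem nc_mem (k : Nc A X J) (y : A.Y.M) {t : ℝ} (ht : t ∈ J) : k.tm (k.k (y, t)) ∈ J := by rwa [nc_tm k y ht]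

theorem nc_surj (k : Nc A X J) {x : X.M} (h : k.tm x ∈ J) : ∃ y, k.k (y, k.tm x) = x :=
  have j : x ∈ k.k.target := k.tgt.ge h
  ⟨(k.k.symm x).1, (congrArg (fun t => k.k ((k.k.symm x).1, t)) ((congrArg k.tm (k.k.right_inv j)).symm.trans
    (k.tmk _ (k.k.map_target j)))).trans (k.k.right_inv j)⟩

theorem img_nc (k : Nc A X J) (h : T ⊆ J) : k.k '' (Prod.snd ⁻¹' T) = k.tm ⁻¹' T := by
  refine Subset.antisymm ?_ fun x hx => ?_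
  · rintro _ ⟨z, hz, rfl⟩
    exact show k.tm (k.k z) ∈ T from (nc_tm k z.1 (h hz)).symm ▸ hz
  · exact let ⟨y, e⟩ := nc_surj k (h hx); ⟨_, hx, e⟩

theorem mv_nc (k : Nc A X J) (hJ : OrdConnected J) (hT : T ⊆ J) (cT : IsClosed T) (hT' : T' ⊆ J)
    (cT' : IsClosed T') {p : ℝ} (hp : p ∈ J) {ρ : ℝ → ℝ} (cρ : Continuous ρ) (h1 : ∀ u ∈ J, ρ u ∈ J ∧ ρ u ∉ T)
    (h2 : ∀ u, u ∉ T' → ρ u = u) (σ : ℝ ≃ₘ^∞⟮𝓘(ℝ, ℝ), 𝓘(ℝ, ℝ)⟯ ℝ) (h : ∀ u, u ∉ T → σ u = u) :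
    ∃ ψ, Mv X.I (k.tm ⁻¹' T) ψ ∧ (∀ y, ∀ t ∈ J, ψ (k.k (y, t)) = k.k (y, σ t)) ∧
      ∀ x, k.tm (ψ x) = σ (k.tm x) := by
  have := Manifold.locallyCompact_of_finiteDimensional (M := X.M) X.I
  obtain ⟨ψ, h3, h4⟩ := mv_col (φ := k.k) (nc_src k) hJ hT (img_nc k hT ▸ cT.preimage k.cont) (h1 p hp).1 (h1 p hp).2
    (dfm_col (nc_src k) hJ cρ h1 h2 hT hT' (img_nc k hT' ▸ cT'.preimage k.cont)) σ h
  replace h3 := h3.mono (img_nc k hT).le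
  refine ⟨ψ, h3, h4, fun x => ?_⟩
  by_cases e : k.tm x ∈ T
  · obtain ⟨y, j⟩ := nc_surj k (hT e)
    exact (congrArg k.tm ((congrArg ψ j).symm.trans (h4 y _ (hT e)))).trans (nc_tm k y
      ((em (σ (k.tm x) ∈ T)).elim (hT ·) fun l => (σ.injective (h _ l)).symm ▸ hT e))
  · rw [h3.off x e, h _ e]

/-- `ψ` is the change `σ` of the neck coordinate -/
def Sh (ψ : X.M → X.M) (σ : ℝ → ℝ) : ∀ {a : Option O3}, Ec a X J → Prop
  | none, _ => True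
  | some _, k => ∀ y, ∀ t ∈ J, ψ (Nc.k k (y, t)) = Nc.k k (y, σ t)

theorem ec_cont : ∀ {a : Option O3} (k : Ec a X J), Continuous k.tm
  | none, _ => continuous_const
  | some _, k => Nc.cont k

/-- an outgoing end -/
theorem ec_out (k : Ec a X (Ioi 0)) (h0 : 0 < a₀) (σ : ℝ ≃ₘ^∞⟮𝓘(ℝ, ℝ), 𝓘(ℝ, ℝ)⟯ ℝ) (h : ∀ u < a₀, σ u = u) :
    ∃ ψ, Mv X.I (k.tm ⁻¹' Ici a₀) ψ ∧ Sh ψ σ k ∧ ∀ x, k.tm (ψ x) = σ (k.tm x) := by
  cases a with
  | none => exact ⟨_, .refl _, trivial, fun _ => (h 0 h0).symm⟩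
  | some A =>
    obtain ⟨c, c1, c2⟩ := exists_between h0
    exact mv_nc (A := A) k ordConnected_Ioi (Ici_subset_Ioi.2 h0) isClosed_Ici (Ici_subset_Ioi.2 c1) isClosed_Ici h0
      (ρ := (min · c)) (by fun_prop)
      (fun _ hu => ⟨lt_min hu c1, fun e => ((min_le_right _ _).trans_lt c2).not_ge e⟩)
      (fun _ hu => min_eq_left (not_le.1 hu).le) σ fun u hu => h u (not_le.1 hu)

/-- an incoming end -/
theorem ec_in (k : Ec a X (Iio 0)) (h0 : a₀ < 0) (σ : ℝ ≃ₘ^∞⟮𝓘(ℝ, ℝ), 𝓘(ℝ, ℝ)⟯ ℝ) (h : ∀ u, a₀ < u → σ u = u) :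
    ∃ ψ, Mv X.I (k.tm ⁻¹' Iic a₀) ψ ∧ Sh ψ σ k ∧ ∀ x, k.tm (ψ x) = σ (k.tm x) := by
  cases a with
  | none => exact ⟨_, .refl _, trivial, fun _ => (h 0 h0).symm⟩
  | some A =>
    obtain ⟨c, c1, c2⟩ := exists_between h0
    exact mv_nc (A := A) k ordConnected_Iio (Iic_subset_Iio.2 h0) isClosed_Iic (Iic_subset_Iio.2 c2) isClosed_Iic h0
      (ρ := (max · c)) (by fun_prop)
      (fun _ hu => ⟨max_lt hu c2, fun e => (c1.trans_le (le_max_right _ _)).not_ge e⟩)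
      (fun _ hu => max_eq_left (not_le.1 hu).le) σ fun u hu => h u (not_le.1 hu)

/-- translation of an outgoing end -/
theorem sh_out (k : Ec a X (Ioi 0)) {D : ℝ} (hD : 0 ≤ D) : ∃ ψ σ, Mv X.I (k.tm ⁻¹' Ici (1 / 4)) ψ ∧ Sh ψ σ k ∧
    (∀ x, k.tm (ψ x) = σ (k.tm x)) ∧ ∀ u, 1 / 2 ≤ u → σ u = u + D := by
  obtain ⟨σ, -, s2, s3⟩ := Cyl58.exists_diffeo_shift (a := 1 / 4) (b := 1 / 2) (c := 0) (d := D) (by norm_num)
    (by linarith)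
  obtain ⟨ψ, p1, p2, p3⟩ := ec_out k (a₀ := 1 / 4) (by norm_num) σ fun u hu => (s2 u hu.le).trans (add_zero u)
  exact ⟨ψ, σ, p1, p2, p3, s3⟩

/-- translation of an incoming end -/
theorem sh_in (k : Ec a X (Iio 0)) {D : ℝ} (hD : D ≤ 0) : ∃ ψ σ, Mv X.I (k.tm ⁻¹' Iic (-(1 / 4))) ψ ∧ Sh ψ σ k ∧
    (∀ x, k.tm (ψ x) = σ (k.tm x)) ∧ ∀ u, u ≤ -(1 / 2) → σ u = u + D := by
  obtain ⟨σ, -, s2, s3⟩ := Cyl58.exists_diffeo_shift (a := -(1 / 2)) (b := -(1 / 4)) (c := D) (d := 0)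
    (by norm_num) (by linarith)
  obtain ⟨ψ, p1, p2, p3⟩ := ec_in k (a₀ := -(1 / 4)) (by norm_num) σ fun u hu => (s3 u hu.le).trans (add_zero u)
  exact ⟨ψ, σ, p1, p2, p3, s2⟩

variable {k : Ec a X J} {k' : Ec a X' J} {f : X.M → X'.M} {χ : X.M → X.M} {χ' : X'.M → X'.M}

theorem mt_fix (h : Ec.Mt r f k k') (e : ∀ p, k.tm p ∈ J → χ p = p) (e' : ∀ p, k'.tm p ∈ J → χ' p = p) :
    Ec.Mt r (χ' ∘ f ∘ χ) k k' := by
  cases a with
  | none => trivial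
  | some A =>
    intro y t ht j
    exact (congrArg (χ' ∘ f) (e _ (nc_mem (A := A) k y ht))).trans ((congrArg χ' (h y t ht j)).trans
      (e' _ (nc_mem (A := A) k' y ht)))

theorem ag_fix (hl : Rfl19.Nd l) (hJ : ∀ᶠ t in l, t ∈ J) (h : Ec.Ag l f k k') (e : ∀ p, k.tm p ∈ J → χ p = p)
    (e' : ∀ p, k'.tm p ∈ J → χ' p = p) : Ec.Ag l (χ' ∘ f ∘ χ) k k' := by
  cases a with
  | none => trivial
  | some A =>
    obtain ⟨δ, h⟩ := h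
    refine ⟨δ, ?_⟩
    filter_upwards [h, hJ, (hl δ).eventually hJ] with t h1 h2 h3 y
    exact (congrArg (χ' ∘ f) (e _ (nc_mem (A := A) k y h2))).trans ((congrArg χ' (h1 y)).trans
      (e' _ (nc_mem (A := A) k' y h3)))

theorem ag_out {k : Ec a X (Ioi 0)} {k' : Ec a X' (Ioi 0)} (h : Ec.Ag atTop f k k') :
    ∃ χ χ', Mv X.I (k.tm ⁻¹' Ici (1 / 4)) χ ∧ Mv X'.I (k'.tm ⁻¹' Ici (1 / 4)) χ' ∧
      Ec.Mt (1 / 2) (χ' ∘ f ∘ χ) k k' := by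
  cases a with
  | none => exact ⟨_, _, .refl _, .refl _, trivial⟩
  | some A =>
    obtain ⟨δ, h⟩ := h
    obtain ⟨B, hB⟩ := eventually_atTop.1 h
    obtain ⟨χ, σ, p1, p2, -, p4⟩ := sh_out k (D := |B| + |δ|) (by positivity)
    obtain ⟨χ', σ', q1, q2, -, q4⟩ := sh_out k' (D := |B| + |δ| + δ) (by linarith [abs_nonneg B, neg_abs_le δ])
    refine ⟨χ, χ'.symm, p1, q1.symm, fun y t ht j => χ'.injective ((χ'.apply_symm_apply _).trans ?_)⟩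
    rw [abs_of_pos ht] at j
    refine (congrArg f (p2 y t ht)).trans (Eq.trans ?_ (q2 y t ht).symm)
    rw [p4 t j.le, q4 t j.le, ← add_assoc t _ δ]
    exact hB _ (by linarith [le_abs_self B, abs_nonneg δ]) y

theorem ag_in {k : Ec a X (Iio 0)} {k' : Ec a X' (Iio 0)} (h : Ec.Ag atBot f k k') :
    ∃ χ χ', Mv X.I (k.tm ⁻¹' Iic (-(1 / 4))) χ ∧ Mv X'.I (k'.tm ⁻¹' Iic (-(1 / 4))) χ' ∧
      Ec.Mt (1 / 2) (χ' ∘ f ∘ χ) k k' := by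
  cases a with
  | none => exact ⟨_, _, .refl _, .refl _, trivial⟩
  | some A =>
    obtain ⟨δ, h⟩ := h
    obtain ⟨B, hB⟩ := eventually_atBot.1 h
    obtain ⟨χ, σ, p1, p2, -, p4⟩ := sh_in k (D := -|B| - |δ|) (by linarith [abs_nonneg B, abs_nonneg δ])
    obtain ⟨χ', σ', q1, q2, -, q4⟩ := sh_in k' (D := -|B| - |δ| + δ) (by linarith [abs_nonneg B, le_abs_self δ])
    refine ⟨χ, χ'.symm, p1, q1.symm, fun y t ht j => χ'.injective ((χ'.apply_symm_apply _).trans ?_)⟩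
    rw [abs_of_neg ht, lt_neg] at j
    refine (congrArg f (p2 y t ht)).trans (Eq.trans ?_ (q2 y t ht).symm)
    rw [p4 t j.le, q4 t j.le, ← add_assoc t _ δ]
    exact hB _ (by linarith [neg_abs_le B, abs_nonneg δ]) y

end nc

/-! ### the leaves -/

theorem pm_three {X X' : M4} (χ : X.M ≃ₘ^∞⟮X.I, X.I⟯ X.M) (φ : X.M ≃ₘ^∞⟮X.I, X'.I⟯ X'.M)
    (χ' : X'.M ≃ₘ^∞⟮X'.I, X'.I⟯ X'.M) (η : X'.Fm) : pm X.I X'.I ((χ.trans φ).trans χ') η =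
      pm X.I X.I χ (pm X.I X'.I φ (pm X'.I X'.I χ' η)) := funext fun _ =>
  (pm_comp_ld (f := χ') (g := χ.trans φ) (χ'.isLocalDiffeomorph _) (Diffeomorph.isLocalDiffeomorph _ _)).trans
    (pm_comp_ld (f := φ) (g := χ) (φ.isLocalDiffeomorph _) (χ.isLocalDiffeomorph _))

/-- a weak isomorphism is corrected by moves off the cores -/
theorem ag_core {a b : Option O3} {T T' : Pm a b none} (φ : T.Wk T') : ∃ (ψ : T.Iso T') (S : Set T.M) (S' : Set T'.M),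
    ∃ χ χ', Mv T.X.I S χ ∧ Mv T'.X.I S' χ' ∧ IsClosed S ∧ IsClosed S' ∧ (∀ x ∈ S, x ∉ T.Core) ∧
      (∀ x ∈ S', x ∉ T'.Core) ∧ ψ.φ = (χ.trans φ.φ).trans χ' := by
  obtain ⟨χ, χ', p, p', h⟩ := ag_in φ.ki
  have i : ∀ (T : Pm a b none) {χ}, Mv T.X.I (T.ki.tm ⁻¹' Iic (-(1 / 4))) χ → ∀ x, T.ko.tm x ∈ Ioi 0 → χ x = x :=
    fun T _ p x hx => p.off x fun e => (T.io x (lt_of_le_of_lt e (by norm_num))).not_gt hx
  have j : ∀ (T : Pm a b none) {χ}, Mv T.X.I (T.ko.tm ⁻¹' Ici (1 / 4)) χ → ∀ x, T.ki.tm x ∈ Iio 0 → χ x = x :=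
    fun T _ p x hx => p.off x fun e => (T.io x hx).not_gt (lt_of_lt_of_le (by norm_num) e)
  obtain ⟨κ, κ', q, q', k⟩ := ag_out (ag_fix Rfl19.nd_top (eventually_gt_atTop 0) φ.ko (i T p) (i T' p'))
  have m := q.trans p
  have m' := p'.trans q'
  have c : ∀ (T : Pm a b none), ∀ x ∈ T.ko.tm ⁻¹' Ici (1 / 4) ∪ T.ki.tm ⁻¹' Iic (-(1 / 4)), x ∉ T.Core :=
    fun T x e hx => e.elim (fun e => hx.2.1.not_gt (lt_of_lt_of_le (by norm_num) e))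
      fun e => hx.1.not_gt (lt_of_le_of_lt e (by norm_num))
  exact ⟨⟨⟨((κ.trans χ).trans φ.φ).trans (χ'.trans κ'), (m'.pos _ T'.X.ori).comp (g := (κ.trans χ).trans φ.φ)
    (φ.pos.comp (m.pos _ T.X.ori) (fun y _ => φ.φ.isLocalDiffeomorph y)
      (fun y _ => (κ.trans χ).isLocalDiffeomorph y) (mapsTo_univ _ _))
    (fun y _ => (χ'.trans κ').isLocalDiffeomorph y) (fun y _ => Diffeomorph.isLocalDiffeomorph _ y)
    (mapsTo_univ _ _)⟩, mt_fix h (j T q) (j T' q'), k, trivial, φ.nb, fun n y =>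
      (congrArg (fun x => (χ'.trans κ') (φ.φ x)) (m.off _ fun e => c T _ e (T.core n y))).trans
        ((congrArg _ (φ.bx n y)).trans (m'.off _ fun e => c T' _ e.symm (T'.core _ y)))⟩, _, _, _, _, m, m',
    (isClosed_Ici.preimage (ec_cont _)).union (isClosed_Iic.preimage (ec_cont _)),
    (isClosed_Iic.preimage (ec_cont _)).union (isClosed_Ici.preimage (ec_cont _)), c T,
    fun x e => c T' x e.symm, rfl⟩

theorem pb_three {X X' : M4} {S : Set X.M} {S' : Set X'.M} {χ χ'} (m : Mv X.I S χ) (m' : Mv X'.I S' χ')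
    {φ : X.M ≃ₘ^∞⟮X.I, X'.I⟯ X'.M} {d : X.L} {d' : X'.L} (e : Pb φ univ d' d) :
    Pb ((χ.trans φ).trans χ') univ d' d :=
  Rfl19.pb_comp (g := χ.trans φ) (m'.cls d') (Rfl19.pb_comp (g := χ) e (m.cls d) (mapsTo_univ _ _))
    (mapsTo_univ _ _)

theorem ip_three {X X' : M4} {S : Set X.M} {S' : Set X'.M} {χ χ'} (m : Mv X.I S χ) (m' : Mv X'.I S' χ')
    (φ : M4.Dif X X') {k l : ℕ} {y : X.Fm} {η : X'.Fm} (hy : Cl X.I (k + 1) univ y) (hη : Cs X'.I l univ η) :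
    X.ip y (pm X.I X'.I ((χ.trans φ.φ).trans χ') η) = X.ip y (pm X.I X'.I φ.φ η) := by
  have e : pm X.I X'.I φ.φ (pm X'.I X.I φ.φ.symm y) = y := funext fun x =>
    pm_pm_inv (φ.φ.isLocalDiffeomorph x) (.of_forall φ.φ.symm_apply_apply) y
  rw [pm_three, m.ip_cl hy (cs_m4 φ.φ (cs_m4 χ' hη)), ← e, ip_m4, ip_m4,
    m'.ip_cl (hy.pm (Mp.of_contMDiff φ.φ.symm.contMDiff (mapsTo_univ _ _))) hη]

/-- **GEO-AG** -/
theorem agStmt : AgStmt := fun a b T T' φ => by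
  obtain ⟨ψ, S, S', χ, χ', m, m', c, c', k, k', e⟩ := ag_core φ
  refine ⟨ψ, fun d d' h => e ▸ pb_three m m' h, fun d η η' z z' h s hs => ?_⟩
  have := ps_m4 m.m4 (m.cls d) (h s hs)
  rw [pm_add, pm_smul, pm_smul, show pm _ _ m.m4.φ η = η from m.pm_fix c fun x hx => z.eq_zero (k x hx)] at this
  rwa [e, pm_three, m'.pm_fix c' fun x hx => z'.eq_zero (k' x hx)]

/-- **GEO-PIN** -/
theorem pinStmt : PinStmt := fun a b x T e he => by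
  obtain ⟨B, hB⟩ := he.hc.isCompact.bddAbove_image (f := fun p => |T.ki.tm p| + |T.ko.tm p| + |T.k3.tm p|)
    (((ec_cont _).abs.add (ec_cont _).abs).add (ec_cont _).abs).continuousOn
  obtain ⟨χ₁, σ₁, p1, -, p2, p3⟩ := sh_in T.ki (D := -|B|) (by simp)
  obtain ⟨χ₂, σ₂, q1, -, q2, q3⟩ := sh_out T.ko (abs_nonneg B)
  obtain ⟨χ₃, σ₃, r1, -, r2, r3⟩ := sh_out T.k3 (abs_nonneg B)
  have m := (r1.trans q1).trans p1
  refine ⟨_, (cs_m4 ((χ₃.trans χ₂).trans χ₁) ⟨he.cl, he.hc, subset_rfl⟩).mono fun p hp => ?_,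
    let ⟨b, b1, _, _, b4⟩ := m.frm 1 e he.cl; ⟨b, b1, fun y _ => b4 y⟩, fun c hc => m.ip_cl hc he⟩
  have k : |T.ki.tm (χ₁ (χ₂ (χ₃ p)))| + |T.ko.tm (χ₁ (χ₂ (χ₃ p)))| + |T.k3.tm (χ₁ (χ₂ (χ₃ p)))| ≤ |B| :=
    (hB ⟨_, hp, rfl⟩).trans (le_abs_self B)
  have f1 : ∀ y, 0 ≤ T.ki.tm y → χ₁ y = y := fun y h => p1.off y fun e => h.not_gt (lt_of_le_of_lt e (by norm_num))
  have f2 : ∀ y, T.ko.tm y ≤ 0 → χ₂ y = y := fun y h => q1.off y fun e => h.not_gt (lt_of_lt_of_le (by norm_num) e)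
  have f3 : ∀ y, T.k3.tm y ≤ 0 → χ₃ y = y := fun y h => r1.off y fun e => h.not_gt (lt_of_lt_of_le (by norm_num) e)
  refine ⟨not_lt.1 fun h => ?_, not_lt.1 fun h => ?_, not_lt.1 fun h => ?_⟩
  · rw [f3 p (T.i3 p (by linarith)), f2 p (T.io p (by linarith)), p2, p3 _ (by linarith)] at k
    linarith [neg_abs_le (T.ki.tm p + -|B|), abs_nonneg (T.ko.tm (χ₁ p)), abs_nonneg (T.k3.tm (χ₁ p))]
  · have j : T.ko.tm (χ₂ p) = T.ko.tm p + |B| := (q2 p).trans (q3 _ (by linarith))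
    rw [f3 p (T.o3 p (by linarith)), f1 _ (not_lt.1 fun l => by linarith [T.io _ l, abs_nonneg B]), j] at k
    linarith [le_abs_self (T.ko.tm p + |B|), abs_nonneg (T.ki.tm (χ₂ p)), abs_nonneg (T.k3.tm (χ₂ p))]
  · have j : T.k3.tm (χ₃ p) = T.k3.tm p + |B| := (r2 p).trans (r3 _ (by linarith))
    rw [f2 _ (not_lt.1 fun l => by linarith [T.o3 _ l, abs_nonneg B]),
      f1 _ (not_lt.1 fun l => by linarith [T.i3 _ l, abs_nonneg B]), j] at k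
    linarith [le_abs_self (T.k3.tm p + |B|), abs_nonneg (T.ki.tm (χ₃ p)), abs_nonneg (T.ko.tm (χ₃ p))]

end Crest.Agent.X212.Rob53
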