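import Crest.Agent.X212.Rob53.Ag
import Crest.Agent.X212.Pen22.Defs

/-!
# X212 / Rob53, part AgP (helper53): `penAg : Pen22.AgStmt`
-/

set_option autoImplicit false

namespace Crest.Agent.X212.Rob53

/-- **PEN-AG** -/
theorem penAg : Pen22.AgStmt := fun _ _ _ _ φ =>
  let ⟨ψ, _, _, _, _, m, m', _, _, _, _, e⟩ := ag_core φ
  ⟨ψ, fun _ _ h => e ▸ pb_three m m' h, fun _ _ hη hy => e ▸ ip_three m m' φ.toDif hy hη⟩

end Crest.Agent.X212.Rob53
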