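import Crest.Agent.X212.Rob53.Hz
import Crest.Agent.X212.Hz56.Rod
import Crest.Agent.X212.Rod53.Unk
import Crest.Agent.X212.Orx52.Sw
import Crest.Agent.X212.Grm47.Disc

/-!
# X212 / Rob53, part Ori (helper53): `b₁` of rod manifolds, orientations of fillings

* `ex_of_nsep`, `hz1_X` : a rod manifold with a rational homology sphere as a slice has `H¹ = 0`;
* `pos_ie_iff`, `exists_ori_fl`, `pos_dif`, `pos_mer`, `pos_rolf`; `disc`, `third_lens`.
-/

set_option autoImplicit false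
set_option linter.unusedSectionVars false
set_option linter.style.haveILetI false

open Set Filter Topology Function Module
open scoped ContDiff Manifold
open Crest.Agent.R208 Crest.Agent.R208.F
open Crest.Agent.X212.Dr59 hiding IT
open Crest.Agent.X212.Int54 (Ori SameOn tp)
open Crest.Agent.X212.Orx52 hiding sigmaCompact
open Crest.Agent.X212.Hz56 (NSep)
open Crest.Agent.X212.Rod53 Crest.Agent.X212.Glue52

noncomputable section

namespace Crest.Agent.X212.Rob53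

section gen

variable {E : Type*} [NormedAddCommGroup E] [NormedSpace ℝ E] [FiniteDimensional ℝ E]
  {H : Type*} [TopologicalSpace H] {I : ModelWithCorners ℝ E H} [I.Boundaryless]
  {M : Type*} [TopologicalSpace M] [ChartedSpace H M] [IsManifold I ∞ M]

theorem exists_hz (x : M) : ∃ V : Set M, IsOpen V ∧ x ∈ V ∧ ∀ k, HZ I (k + 1) V := by
  let φ := (chE I x).symm
  have hc : extChartAt I x x ∈ φ.source := mem_extChartAt_target x
  obtain ⟨ε, hε, hs⟩ := Metric.isOpen_iff.1 φ.open_source _ hc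
  exact ⟨_, pd_open φ Metric.isOpen_ball hs, ⟨_, Metric.mem_ball_self hε, extChartAt_to_inv x⟩, fun _ =>
    (hz_pd φ Metric.isOpen_ball hs).2 (hz_star Metric.isOpen_ball (Metric.mem_ball_self hε)
      ((convex_ball _ _).starConvex (Metric.mem_ball_self hε)))⟩

/-- primitives of closed one-forms extend over sets of codimension two -/
theorem ex_of_nsep {U : Set M} (hU : IsOpen U) (hD : Dense U) (hn : ∀ z ∉ U, NSep U z) {α : M → Ext E}
    (h : Cl I 1 univ α) (k : Ex I U α) : Ex I univ α := by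
  obtain ⟨p, p1, p2, p3⟩ := k.deg (k := 0) (h.dg.mono (subset_univ _))
  obtain ⟨q, q1, -, q3⟩ := Line51.exists_ext_form (I := I) hD isOpen_univ (k := 0) (α := p) fun z _ => by
    by_cases e : z ∈ U
    · exact ⟨p, ⟨p1 z e, p2 z e⟩, Eventually.of_forall fun _ _ => rfl⟩
    obtain ⟨V, v1, v2, v3⟩ := exists_hz (I := I) z
    obtain ⟨g, g1, g2, g3⟩ := (v3 0 α (h.mono (subset_univ _))).deg (k := 0) (h.dg.mono (subset_univ _))
    obtain ⟨W, w1, w2, w3, w4⟩ := hn z e V (v1.mem_nhds v2)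
    obtain ⟨r, hr⟩ := Cl.const_of_preconnected (I := I) (a := p - g) (w1.inter hU) w4
      ⟨(p1.mono inter_subset_right).sub (g1.mono (inter_subset_left.trans w3)),
        (p2.mono inter_subset_right).sub (g2.mono (inter_subset_left.trans w3)), fun x hx => by
          rw [dM_sub ne0 (p1 x hx.2) (g1 x (w3 hx.1)), p3 x hx.2, g3 x (w3 hx.1), sub_self]⟩
    have c := cl_const (I := I) (U := (univ : Set M)) r
    exact ⟨g + fun _ => algebraMap ℝ (Ext E) r, ⟨(g1 z v2).add (c.sm z trivial), (g2 z v2).add (c.dg z trivial)⟩,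
      eventually_of_mem (w1.mem_nhds w2) fun y h1 h2 => sub_eq_iff_eq_add'.1 (hr y ⟨h1, h2⟩)⟩
  exact ⟨q, q1, fun x _ => Line51.form_eq_of_dense hD ((q1.dM x trivial).of_le (by simp))
    ((h.sm x trivial).of_le (by simp)) (Eventually.of_forall fun y hy =>
      (dM_eqOn hU (fun z hz => q3 z trivial hz) hy).trans (p3 y hy))⟩

end gen

variable {EN HN : Type} [NormedAddCommGroup EN] [NormedSpace ℝ EN] [FiniteDimensional ℝ EN]
  [TopologicalSpace HN] {IN : ModelWithCorners ℝ EN HN} [IN.Boundaryless]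
  {N : Type} [TopologicalSpace N] [ChartedSpace HN N] [IsManifold IN ∞ N] [T2Space N]
  {EY HY : Type} [NormedAddCommGroup EY] [NormedSpace ℝ EY] [FiniteDimensional ℝ EY]
  [TopologicalSpace HY] {IY : ModelWithCorners ℝ EY HY} [IY.Boundaryless]
  {Y : Type} [TopologicalSpace Y] [ChartedSpace HY Y] [IsManifold IY ∞ Y] [T2Space Y]
  {EZ HZ' : Type} [NormedAddCommGroup EZ] [NormedSpace ℝ EZ] [FiniteDimensional ℝ EZ]
  [TopologicalSpace HZ'] {IZ : ModelWithCorners ℝ EZ HZ'} [IZ.Boundaryless]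
  {Z : Type} [TopologicalSpace Z] [ChartedSpace HZ' Z] [IsManifold IZ ∞ Z] [T2Space Z]
  {T : Tb IN N} {v : ℝ → Z2} {a b a' b' : Z2} {o : N → Ext EN} {c : Y → Ext EY} {d : Z → Ext EZ}

/-- `b₁ = 0` for rod manifolds -/
theorem hz1_X (F : Fl T a b IY Y) (hu : Uni a b) (h : HZ IY 1 (univ : Set Y)) (hJ : (Jr v a).Nonempty) :
    HZ (𝓡 4) 1 (univ : Set (X T v)) := fun α hα => by
  obtain ⟨t, ht⟩ := hJ
  have m := pd_mp (T.ext v) (W := T.Ex ×ˢ univ) Subset.rfl
  have m1 : Mp IY (𝓡 4) univ univ fun y => F.cyf v hu (y, t) :=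
    ⟨fun y _ => (F.ld_cyf hu y ht).contMDiffAt.comp y (contMDiffAt_id.prodMk contMDiffAt_const), mapsTo_univ _ _⟩
  have m2 : Mp IN IY T.Ex univ F.e := ⟨fun _ hp => (F.ld_e hp).contMDiffAt, mapsTo_univ _ _⟩
  have e1 : (mp_inl T.Ex (mem_univ t)).st 1 (m.st 1 (res (subset_univ _) hα.cls)) = 0 :=
    (congrArg _ (Mp.st_res m (subset_univ _) hα.cls)).trans ((Mp.st_comp _ _ _).trans
      ((Mp.st_congr T.isOpen_Ex _ (m1.comp m2) (fun p hp => (F.cyf_e v hu hp t).symm) _).trans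
        ((Mp.st_comp m1 m2 _).symm.trans ((congrArg _ (h.eq _)).trans (map_zero _)))))
  have e2 : m.st 1 (res (subset_univ _) hα.cls) = 0 :=
    (st_fst_inl T.isOpen_Ex isOpen_univ (mem_univ t) (starConvex_univ t) _).symm.trans
      ((congrArg _ e1).trans (map_zero _))
  exact ex_of_nsep (Hz56.isOpen_off T) (Hz56.dense_off T) (Hz56.nsep_off T) hα ((cls_eq_zero
    (h := hα.mono (subset_univ _))).1 ((pd_st_bij (T.ext v) (W := T.Ex ×ˢ univ) (T.isOpen_Ex.prod isOpen_univ)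
      Subset.rfl).1 (e2.trans (map_zero _).symm)))

/-! ### orientations -/

theorem pos_ie_iff (F : Fl T a b IY Y) (ho : OriOn IN T.Ex o) :
    Pos IN IY F.ie univ (pm IN IN Subtype.val o) c ↔ Pos IN IY F.e T.Ex o c := by
  have k := pos_pm ho (s := univ) (fun y _ => ld_val F.W y) fun y _ => (F.hW _).1 y.2
  have e : F.e ∘ Subtype.val = F.ie := funext F.e_ie
  refine ⟨fun h => ((e ▸ h).of_comp k (fun y _ => F.ld_e ((F.hW _).1 y.2)) fun y _ => ld_val F.W y).mono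
    fun p hp => ⟨⟨p, (F.hW p).2 hp⟩, trivial, rfl⟩, fun h => e ▸ ?_⟩
  exact h.comp k (fun _ => F.ld_e) (fun y _ => ld_val F.W y) fun y _ => (F.hW _).1 y.2

/-- fillings of an oriented exterior are oriented -/
theorem exists_ori_fl [SecondCountableTopology N] (F : Fl T a b IY Y) (hu : Uni a b) (ho : OriOn IN T.Ex o) :
    ∃ c, Ori IY c ∧ Pos IN IY F.e T.Ex o c := by
  haveI := F.sc hu
  haveI := Orx52.sigmaCompact IY Y
  have h2 := ho.push F.pe subset_rfl
  obtain ⟨O, k1, -, k3⟩ := exists_ori_open F.dense_e (F.pe.image_source_eq_target.symm ▸ F.pe.open_target) h2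
    fun y hy => by
      obtain ⟨u, rfl⟩ := (F.surj' y).resolve_left hy
      refine ok_of_conn h2 isOpen_univ (fun z _ => F.oeT.loc z) (oriOn ori_oT _) ?_ (mem_univ _)
      convert isPreconnected_cz
      ext w
      exact ⟨fun ⟨_, p, hp, e⟩ => ((F.e_eq_it hp).1 e).1, fun h => ⟨trivial, _, T.τ_mem.2 (gl_ne.2 h), F.e_τ h⟩⟩
  exact ⟨O, k1, (pos_push F.pe ho subset_rfl).right (fun _ => ldp F.pe) (mapsTo_image _ _) k3⟩

/-- a map out of a filling is positive if it is so on the exterior -/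
theorem pos_of_e (F : Fl T a b IY Y) (hc : Ori IY c) (hd : Ori IZ d) (hF : Pos IN IY F.e T.Ex o c) {f : Y → Z}
    {s : Set Y} (hs : IsOpen s) (hf : ∀ y ∈ s, IsLocalDiffeomorphAt IY IZ ∞ f y)
    (k : Pos IN IZ (f ∘ F.e) (T.Ex ∩ F.e ⁻¹' s) o d) : Pos IY IZ f s c d := by
  refine Pos.dense F.dense_e hs ?_ (oriOn hc _) (oriOn hd univ) hf (mapsTo_univ _ _)
  refine (k.of_comp (hF.mono inter_subset_left) (fun z hz => hf _ hz.2) fun z hz => F.ld_e hz.1).mono ?_
  rintro _ ⟨h1, q, hq, rfl⟩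
  exact ⟨q, ⟨hq, h1⟩, rfl⟩

/-- two oriented fillings of the same slope -/
theorem exists_dif (F : Fl T a b IY Y) (G : Fl T a' b' IZ Z) (hu : Uni a b) (hu' : Uni a' b') (h : PM a a')
    (hc : Ori IY c) (hd : Ori IZ d) (hF : Pos IN IY F.e T.Ex o c) (hG : Pos IN IZ G.e T.Ex o d) :
    ∃ Φ : Y ≃ₘ^∞⟮IY, IZ⟯ Z, Pos IY IZ Φ univ c d ∧ ∀ p ∈ T.Ex, Φ (F.e p) = G.e p := by
  obtain ⟨G', hG'⟩ := G.exists_chg hu' hu h
  obtain ⟨Φ, h1, -⟩ := F.exists_diffeo G'
  have e : ∀ p ∈ T.Ex, Φ (F.e p) = G.e p := fun p hp => (h1 p hp).trans (hG' p hp)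
  exact ⟨Φ, pos_of_e F hc hd hF isOpen_univ (fun y _ => Φ.isLocalDiffeomorph y)
    ((hG.congr T.isOpen_Ex e).mono inter_subset_left), e⟩

theorem pos_mtb : Pos IT IT mtb univ oT oT := by
  have k := (Cyl58.IsOE.id (IA := 𝓡 1) (A := Circle)).prodMap ((isOE_affC (-1)).comp isOE_sh)
  have k1 : Pos 𝓘(ℝ, ℂ) 𝓘(ℝ, ℂ) ((fun w : ℂ => -1 - w) ∘ sh) univ oZ oZ := by
    refine pos_of_pt isPreconnected_univ (oriOn ori_oZ _) (oriOn ori_oZ univ)
      (fun z _ => ((isOE_affC (-1)).comp isOE_sh).loc z) (mapsTo_univ _ _) (mem_univ 0) ?_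
    refine Pos.congr' (f := fun w : ℂ => -1 - w) (pos_of_eq (oriOn ori_oZ _) (c := fun _ => 1) (fun _ _ => one_pos)
      fun y _ => ?_) ?_
    · simpa using pm_oZ_hol ((hasDerivAt_id y).const_sub (-1))
    · rintro _ rfl
      filter_upwards [Metric.closedBall_mem_nhds 0 (show (0 : ℝ) < 1 / 4 by norm_num)] with w hw
      rw [comp_apply, sh_of (mem_closedBall_zero_iff.1 hw)]
  have k2 := ((pos_id.2 (oriOn ori_oC univ).same).prodMap k1 (fun z _ => (Cyl58.IsOE.id (IA := 𝓡 1)).loc z)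
    fun z _ => ((isOE_affC (-1)).comp isOE_sh).loc z).mono (s' := univ) fun _ _ => ⟨trivial, trivial⟩
  have k3 := pos_gl uni_sw
  rw [show -((dt (-1, 0) (0, 1) : ℤ) : ℝ) = 1 by simp [dt], one_smul] at k3
  exact k3.comp k2 (fun _ h => ld_gl uni_sw h) (fun z _ => k.loc z) fun z _ => mer_ne z.2

/-- the meridian tube has the sign of the tube -/
theorem pos_mer₀ {σ : ℝ} (hσ : σ ≠ 0) (hτ : Pos IT IN T.τ {z | z.2 ≠ 0} (σ • oT) o) :
    Pos IT IN T.mer.τ univ (σ • oT) o :=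
  hτ.comp (pos_mtb.smul hσ) (fun z _ => T.ld z) (fun z _ => isOE_mtb.loc z) fun z _ => mtb_ne z

theorem pos_mer (F : Fl T a b IY Y) (hF : Pos IN IY F.e T.Ex o c) {σ : ℝ} (hσ : σ ≠ 0)
    (hτ : Pos IT IN T.τ {z | z.2 ≠ 0} (σ • oT) o) : Pos IT IY F.mer.τ univ (σ • oT) c :=
  hF.comp (pos_mer₀ hσ hτ) (fun _ => F.ld_e) (fun z _ => T.mer.ld z) fun z _ => T.mer_mem z

theorem far_mem (T : Tb IN N) : T.τ (1, 4) ∉ T.τ '' {z | ‖z.2‖ ≤ 3} := fun h => by
  have := T.inj.mem_set_image.1 h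
  norm_num at this

/-- the Rolfsen identification is positive -/
theorem pos_rolf [PreconnectedSpace Y] (F : Fl T a b IY Y) (G : Fl T a' b' IZ Z) {i : ℤ}
    (ha : a' = ac (0, 1) (1, i) a) (hb : b' = ac (0, 1) (1, i) b) (hc : Ori IY c) (hd : Ori IZ d)
    (hF : Pos IN IY F.e T.Ex o c) (hG : Pos IN IZ G.e T.Ex o d) :
    Pos IY IZ (F.rolf G ha hb).e F.mer.Ex c d := by
  have m : T.τ (1, 4) ∈ T.Ex := T.τ_mem.2 (by norm_num)
  have m' : T.τ (1, 4) ∈ T.mer.Ex := T.τ_mem_mer.2 (an_ne_of (by norm_num))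
  have m2 := (F.e_mem_mer m).2 m'
  refine pos_of_pt F.mer.isPreconnected_Ex (oriOn hc _) (oriOn hd univ) (fun _ => (F.rolf G ha hb).ld_e)
    (mapsTo_univ _ _) m2 ?_
  rw [← image_singleton]
  refine Pos.of_comp ((hG.mono (singleton_subset_iff.2 m)).congr' ?_) (hF.mono (singleton_subset_iff.2 m))
    (fun _ e => e ▸ (F.rolf G ha hb).ld_e m2) fun _ e => e ▸ F.ld_e m
  rintro _ rfl
  filter_upwards [T.isOpen_Ex.mem_nhds m, T.mer.isOpen_Ex.mem_nhds m',
    (T.isClosed_tube 3).isOpen_compl.mem_nhds (far_mem T)] with p h1 h2 h3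
  rw [comp_apply, F.rolf_e G ha hb h1 h2, T.rolf_out i h3]

theorem disc : Disc := fun _ _ h1 h2 R => Grm47.disc h1 h2 R

/-- the third filling is a lens space -/
theorem third_lens {T : Tb (𝓡 3) S3'} (F : Fl T a b IY Y) (G : Fl F.mer (1, 0) (0, -1) IZ Z) (hu : Uni a b)
    (h : a.1 ≠ 0) : Nonempty (Lens (lh_third hu h) ≃ₘ^∞⟮𝓡 3, IZ⟯ Z) := F.third_lens disc G hu h

end Crest.Agent.X212.Rob53
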