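import Crest.Agent.X212.Rob53.Th
import Crest.Agent.X212.Sw87.In

/-!
# X212 / Rob53, part Df2 (helper53): `dif2 : Sw87.Dif2`
-/

set_option autoImplicit false

open Set
open scoped ContDiff Manifold
open Crest.Agent.X212.Orx52 Crest.Agent.X212.Rod53 Crest.Agent.X212.Bor5.T Crest.Agent.X212.Sw87
open Crest.Agent.X212.Ext52 (KD)
open Crest.Agent.X212.Cab39 (cable)

noncomputable section

namespace Crest.Agent.X212.Rob53

theorem chg (τ : Tub) (A : O3) (a a' : Z2) (f : Fo τ A a) (h : PM a' a) : Nonempty (Fo τ A a') :=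
  let ⟨G, e⟩ := f.F.exists_chg f.hu (h.uni f.hu) h
  ⟨⟨_, h.uni f.hu, G, (pos_ie_iff _ τ.ori).2 ((fo_e f).congr τ.T.isOpen_Ex e)⟩⟩

/-- the sphere -/
def oT3 (k : KD) : O3 := o3 (oriOn (ori_oS k.toTube) univ).neg.ori

/-- the trivial filling -/
def foT (k : KD) : Fo (tK k) (oT3 k) (0, 1) :=
  ⟨_, uni_std, (ofTube k.toTube).triv, (pos_ie_iff _ (tK k).ori).2
    (((pos_id (I := 𝓡 3)).2 (oriOn (ori_oS k.toTube) _).neg.same).congr (ofTube k.toTube).isOpen_Ex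
      fun _ => (ofTube k.toTube).triv_e)⟩

theorem pos_cab (k : KD) : Pos (𝓡 3) (𝓡 3) (Diffeomorph.refl (𝓡 3) S3' ∞) univ (-oS (cable k).toTube) (-oS k.toTube) :=
  ((pos_id (I := 𝓡 3)).2 (same_symm (Wd38.same_cab k.toTube))).neg

/-- the identity of the sphere -/
def pdT (k : KD) : PD (oT3 (cable k)) (oT3 k) := ⟨Diffeomorph.refl (𝓡 3) S3' ∞, pos_cab k⟩

/-- **R-DIF**, second part -/
theorem dif2 : Dif2 where
  chg := chg
  csp k _ _ f g :=
    let ⟨φ⟩ := uniq _ _ _ _ _ f (foT _) (PM.refl _)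
    let ⟨ψ⟩ := uniq _ _ _ _ _ (foT k) g (PM.refl _)
    ⟨φ.trans ((pdT k).trans ψ)⟩

end Crest.Agent.X212.Rob53
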