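import Crest.Agent.X212.Grm47.Disc

/-!
# X212 / Rob53, part Ger (helper53): germs with positive determinant extend with compact support

* `Ge A` : the germ of `A` at `0` extends;  `ge_path`, `exists_polar`, `ge_det`;
* `str_det` : a germ with positive Jacobian extends with support in a small ball.
-/

set_option autoImplicit false

open Set Filter Topology Function Metric Module
open scoped ContDiff Manifold InnerProductSpace
open Crest.Agent.X212.Grm47

noncomputable section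

namespace Crest.Agent.X212.Rob53

variable {V : Type*} [NormedAddCommGroup V] [InnerProductSpace ℝ V] [FiniteDimensional ℝ V] {f g : V → V}

/-- the germ at `0` extends to a diffeomorphism with compact support -/
def Ge (f : V → V) : Prop := f 0 = 0 ∧ ∃ G : V ≃ₘ^∞⟮𝓘(ℝ, V), 𝓘(ℝ, V)⟯ V, Cs G ∧ G =ᶠ[𝓝 0] f

omit [FiniteDimensional ℝ V] in
theorem Ge.comp (h : Ge f) (h' : Ge g) : Ge (f ∘ g) := by
  obtain ⟨f0, F, f1, f2⟩ := h
  obtain ⟨g0, G, g1, g2⟩ := h'
  refine ⟨by simp [g0, f0], G.trans F, f1.comp g1, ?_⟩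
  filter_upwards [g2, (G.continuous.tendsto' 0 0 (g2.self_of_nhds.trans g0)).eventually f2] with x a b
  exact b.trans (congrArg f a)

omit [FiniteDimensional ℝ V] in
theorem Ge.of_comp (h : Ge (f ∘ g)) (h' : Ge g) : Ge f := by
  obtain ⟨f0, F, ⟨R, f1⟩, f2⟩ := h
  obtain ⟨g0, G, ⟨R', g1⟩, g2⟩ := h'
  have e : G.symm 0 = 0 := G.injective ((G.apply_symm_apply 0).trans (g2.self_of_nhds.trans g0).symm)
  refine ⟨by rwa [comp_apply, g0] at f0, G.symm.trans F, Cs.comp (F := F) (G := G.symm) ⟨R, f1⟩ ⟨R', fun y hy =>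
    G.injective ((G.apply_symm_apply y).trans (g1 y hy).symm)⟩, ?_⟩
  filter_upwards [(G.symm.continuous.tendsto' 0 0 e).eventually (f2.and g2)] with x a
  exact a.1.trans (congrArg f (a.2.symm.trans (G.apply_symm_apply x)))

theorem ge_ps {A : V →L[ℝ] V} (h : Ps A) : Ge A :=
  let ⟨F, a, b⟩ := str0 univ_mem A.contDiff.contDiffOn (map_zero A) (by rwa [A.fderiv]) one_pos
  ⟨map_zero A, F, ⟨1, b⟩, a⟩

omit [FiniteDimensional ℝ V] in
theorem ps_near {A : V →L[ℝ] V} (h : ‖A - 1‖ < 1) : Ps A := fun v hv => by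
  have h1 : |⟪(A - 1) v, v⟫_ℝ| ≤ ‖A - 1‖ * ‖v‖ * ‖v‖ :=
    (abs_real_inner_le_norm _ _).trans (mul_le_mul_of_nonneg_right ((A - 1).le_opNorm v) (norm_nonneg v))
  rw [show (A - 1) v = A v - v from rfl, inner_sub_left, real_inner_self_eq_norm_mul_norm] at h1
  have h2 := mul_pos (sub_pos.2 h) (mul_self_pos.2 (norm_ne_zero_iff.2 hv))
  nlinarith [(abs_le.1 h1).1]

/-- the property is constant along connected families -/
theorem ge_path {X : Type*} [TopologicalSpace X] {s : Set X} (hs : IsPreconnected s) {A : X → V ≃L[ℝ] V}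
    (hA : ContinuousOn (fun x => (A x : V →L[ℝ] V)) s) {x y : X} (hx : x ∈ s) (hy : y ∈ s) (h : Ge (A x)) :
    Ge (A y) := by
  refine (hs.induction₂ (fun x y => Ge (A x) ↔ Ge (A y)) (fun x hx => ?_) (fun _ _ _ _ _ _ => .trans)
    (fun _ _ _ _ => .symm) hx hy).1 h
  have c : ContinuousWithinAt (fun y => ‖((A x).symm : V →L[ℝ] V) ∘L (A y : V →L[ℝ] V) - 1‖) s x :=
    ((continuousWithinAt_const.clm_comp (hA x hx)).sub continuousWithinAt_const).norm
  filter_upwards [c.eventually (gt_mem_nhds (a := 1) (by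
    beta_reduce
    rw [(A x).coe_symm_comp_coe]
    exact (congrArg norm (sub_self _)).trans_lt (by simp)))] with y hy
  have k := ge_ps (ps_near hy)
  have e : A x ∘ (((A x).symm : V →L[ℝ] V) ∘L (A y : V →L[ℝ] V)) = A y := funext fun v => by simp
  exact ⟨fun h => e ▸ h.comp k, fun h => Ge.of_comp (e ▸ h) k⟩

/-- the reflection in the hyperplane orthogonal to `v` -/
abbrev rf (v : V) : V ≃ₗᵢ[ℝ] V := (ℝ ∙ v)ᗮ.reflection

theorem ge_rf (h2 : 1 < finrank ℝ V) {v w : V} (hv : v ≠ 0) (hw : w ≠ 0) : Ge (rf v * rf w) := by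
  refine ge_path (A := fun w => (rf v * rf w).toContinuousLinearEquiv)
    (isConnected_compl_singleton_of_one_lt_rank (by rw [← finrank_eq_rank]; exact_mod_cast h2)
      (0 : V)).isPreconnected (continuousOn_clm_apply.2 fun y => ?_) hv hw ?_
  · refine (rf v).continuous.comp_continuousOn (f := fun w => rf w y) ?_
    have c : ContinuousOn (fun w : V => ⟪w, y⟫_ℝ / ‖w‖ ^ 2) {0}ᶜ :=
      ContinuousOn.div (by fun_prop) (by fun_prop) fun w hw => pow_ne_zero _ (norm_ne_zero_iff.2 hw)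
    refine (((c.smul continuousOn_id).const_smul (2 : ℕ)).sub (continuousOn_const (c := y))).neg.congr
      fun w _ => ?_
    simp only [Submodule.reflection_orthogonal_apply, Submodule.reflection_singleton_apply]
    rfl
  · rw [Submodule.reflection_mul_reflection]
    exact ge_ps ps_id

theorem ge_iso (h2 : 1 < finrank ℝ V) (U : V ≃ₗᵢ[ℝ] V) (hU : 0 < LinearMap.det (U.toLinearEquiv : V →ₗ[ℝ] V)) :
    Ge U := by
  obtain ⟨l, -, rfl⟩ := U.reflections_generate_dim
  have key : ∀ l : List V, (LinearMap.det ((l.map rf).prod.toLinearEquiv : V →ₗ[ℝ] V) = 1 ∧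
      Ge ⇑(l.map rf).prod) ∨ (LinearMap.det ((l.map rf).prod.toLinearEquiv : V →ₗ[ℝ] V) = -1 ∧
        ∀ v, v ≠ 0 → Ge (rf v * (l.map rf).prod : V ≃ₗᵢ[ℝ] V)) := fun l => by
    induction l with
    | nil => exact .inl ⟨LinearMap.det_id, ge_ps ps_id⟩
    | cons w l ih =>
      rw [List.map_cons, List.prod_cons]
      by_cases hw : w = 0
      · rwa [show rf w = 1 from LinearIsometryEquiv.ext fun x =>
          Submodule.reflection_mem_subspace_eq_self (by simp [hw]), one_mul]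
      have d : ∀ U : V ≃ₗᵢ[ℝ] V, LinearMap.det ((rf w * U).toLinearEquiv : V →ₗ[ℝ] V) =
          -LinearMap.det (U.toLinearEquiv : V →ₗ[ℝ] V) := fun U => by
        have := (ℝ ∙ w)ᗮ.det_reflection
        rw [Submodule.orthogonal_orthogonal, finrank_span_singleton hw, pow_one] at this
        rw [← neg_one_mul, ← this, ← LinearMap.det_comp]
        rfl
      rw [d]
      rcases ih with ⟨a, b⟩ | ⟨a, b⟩
      · exact .inr ⟨by rw [a], fun v hv => by rw [← mul_assoc]; exact (ge_rf h2 hv hw).comp b⟩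
      · exact .inl ⟨by rw [a, neg_neg], b w hw⟩
  exact (key l).elim (·.2) fun k => absurd (k.1 ▸ hU) (by norm_num)

/-- polar decomposition -/
theorem exists_polar (A : V ≃L[ℝ] V) : ∃ (U : V ≃ₗᵢ[ℝ] V) (P : V →L[ℝ] V), Ps P ∧
    0 < LinearMap.det (P : V →ₗ[ℝ] V) ∧ ∀ v, A v = U (P v) := by
  have hT := LinearMap.isSymmetric_adjoint_mul_self (A : V →ₗ[ℝ] V)
  let b := hT.eigenvectorBasis rfl
  have n : ∀ i, 0 < ‖A (b i)‖ := fun i => norm_pos_iff.2 (A.map_ne_zero_iff.2 (b.orthonormal.ne_zero i))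
  have o : Orthonormal ℝ fun i => ‖A (b i)‖⁻¹ • A (b i) := by
    refine ⟨fun i => by simp [norm_smul, (n i).ne'], fun i j hij => ?_⟩
    have := congrArg (⟪b i, ·⟫_ℝ) (hT.apply_eigenvectorBasis rfl j)
    simp only [Module.End.mul_apply, LinearMap.adjoint_inner_right, inner_smul_right] at this
    rw [b.orthonormal.2 hij, mul_zero] at this
    simp only [inner_smul_left, inner_smul_right]
    exact mul_eq_zero_of_right _ (mul_eq_zero_of_right _ this)
  let U := b.equiv (.mk o (o.linearIndependent.span_eq_top_of_card_eq_finrank' (by simp)).ge) (.refl _)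
  let P : V →L[ℝ] V := (U.symm.toContinuousLinearEquiv : V →L[ℝ] V) ∘L A
  have e0 : ∀ i, U (b i) = ‖A (b i)‖⁻¹ • A (b i) := fun i => by simp [U]
  have e1 : ∀ v, A v = U (P v) := fun v => (U.apply_symm_apply _).symm
  have e : ∀ i, P (b i) = ‖A (b i)‖ • b i := fun i => U.injective (by
    rw [← e1, map_smul, e0, smul_inv_smul₀ (n i).ne'])
  refine ⟨U, P, fun v hv => ?_, ?_, e1⟩
  · conv_rhs => rw [← b.sum_repr' v, map_sum, b.sum_repr' v, sum_inner]
    simp only [map_smul, e, inner_smul_left, conj_trivial]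
    obtain ⟨i, hi⟩ : ∃ i, ⟪b i, v⟫_ℝ ≠ 0 := by
      by_contra! k
      exact hv (by rw [← b.sum_repr' v]; simp [k])
    refine Finset.sum_pos' (fun j _ => ?_) ⟨i, Finset.mem_univ _, ?_⟩ <;> rw [mul_left_comm]
    exacts [mul_nonneg (n j).le (mul_self_nonneg _), mul_pos (n i) (mul_self_pos.2 hi)]
  · rw [← LinearMap.det_toMatrix b.toBasis, show LinearMap.toMatrix b.toBasis b.toBasis (P : V →ₗ[ℝ] V) =
      Matrix.diagonal fun i => ‖A (b i)‖ from Matrix.ext fun i j => ?_, Matrix.det_diagonal]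
    · exact Finset.prod_pos fun i _ => n i
    · rw [LinearMap.toMatrix_apply, Matrix.diagonal_apply]
      simp only [OrthonormalBasis.coe_toBasis, ContinuousLinearMap.coe_coe, e, map_smul,
        OrthonormalBasis.coe_toBasis_repr_apply, Finsupp.smul_apply, OrthonormalBasis.repr_self]
      split_ifs with k <;> simp [k]

theorem ge_det (h2 : 1 < finrank ℝ V) (A : V ≃L[ℝ] V) (hA : 0 < (A : V →L[ℝ] V).det) : Ge A := by
  obtain ⟨U, P, p1, p2, p3⟩ := exists_polar A
  have e : ((A : V →L[ℝ] V) : V →ₗ[ℝ] V) = (U.toLinearEquiv : V →ₗ[ℝ] V) ∘ₗ P := LinearMap.ext p3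
  rw [ContinuousLinearMap.det, e, LinearMap.det_comp] at hA
  rw [show (A : V → V) = U ∘ P from funext p3]
  exact (ge_iso h2 U ((mul_pos_iff_of_pos_right p2).1 hA)).comp (ge_ps p1)

/-- **a germ with positive Jacobian extends with support in a small ball** -/
theorem str_det (h2 : 1 < finrank ℝ V) {φ : V → V} {U : Set V} (hU : U ∈ 𝓝 (0 : V)) (hφ : ContDiffOn ℝ ∞ φ U)
    (h0 : φ 0 = 0) (hd : 0 < (fderiv ℝ φ 0).det) {δ : ℝ} (hδ : 0 < δ) :
    ∃ F : V ≃ₘ^∞⟮𝓘(ℝ, V), 𝓘(ℝ, V)⟯ V, F =ᶠ[𝓝 0] φ ∧ ∀ y, δ ≤ ‖y‖ → F y = y := by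
  let A := (fderiv ℝ φ 0).toContinuousLinearEquivOfDetNeZero hd.ne'
  obtain ⟨-, G, ⟨R, g1⟩, g2⟩ := ge_det h2 A hd
  have d := ((hφ.contDiffAt hU).differentiableAt (by simp)).hasFDerivAt
  obtain ⟨F, f1, f2⟩ := str0 (φ := A.symm ∘ φ) hU (A.symm.contDiff.comp_contDiffOn hφ) (by simp [h0])
    (fun v hv => by
      rw [(A.symm.hasFDerivAt.comp 0 d).fderiv]
      exact (real_inner_self_pos.2 hv).trans_eq (congrArg (⟪·, v⟫_ℝ) (A.symm_apply_apply v).symm)) hδ
  have c0 : 0 < δ / (|R| + 1) := by positivity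
  have t : Tendsto (fun x => (δ / (|R| + 1))⁻¹ • (F x - 0)) (𝓝 0) (𝓝 0) :=
    Continuous.tendsto' (by fun_prop) _ _ (by simp [f1.self_of_nhds, h0])
  refine ⟨F.trans (cj (hom V c0.ne') 0 G), ?_, fun y hy => ?_⟩
  · filter_upwards [f1, t.eventually g2] with x a b
    show cj _ 0 G (F x) = _
    rw [cj_hom, b, map_smul, smul_inv_smul₀ c0.ne', zero_add, sub_zero, a]
    exact A.apply_symm_apply _
  · show cj _ 0 G (F y) = _
    rw [f2 y hy, cj_hom, g1, smul_inv_smul₀ c0.ne', zero_add, sub_zero]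
    rw [sub_zero, norm_smul, norm_inv, Real.norm_of_nonneg c0.le, le_inv_mul_iff₀ c0, div_mul_eq_mul_div,
      div_le_iff₀ (by positivity)]
    nlinarith [le_abs_self R, abs_nonneg R]

end Crest.Agent.X212.Rob53
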