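import Crest.Agent.X212.Rob53.Fix
import Crest.Agent.X212.Rob53.Ger
import Crest.Agent.X212.Geo28.Lv

/-!
# X212 / Rob53, part Dsc (helper53): the disc theorem

* `exists_oe`, `mc_pt` : points are moved;  `mc_germ` : positive germs are moved;
* `mc_disc` : positive discs are moved;  `dscStmt : Geo28.DscStmt`.
-/

set_option autoImplicit false
set_option linter.unusedSectionVars false

open Set Filter Topology Function Metric Module
open scoped ContDiff Manifold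
open Crest.Agent.R208 Crest.Agent.R208.FI
open Crest.Agent.R208.F hiding wd
open Crest.Agent.X212.Orx52 Crest.Agent.X212.Dr59
open Crest.Agent.X212.Cyl58 (IsOE)
open OpenPartialHomeomorph (univBall)

noncomputable section

namespace Crest.Agent.X212.Rob53

variable {E : Type} [NormedAddCommGroup E] [NormedSpace ℝ E] [FiniteDimensional ℝ E]
  {H : Type} [TopologicalSpace H] {I : ModelWithCorners ℝ E H} [I.Boundaryless]
  {M : Type} [TopologicalSpace M] [ChartedSpace H M] [IsManifold I ∞ M] [T2Space M] [SigmaCompactSpace M]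
  {V : Type} [NormedAddCommGroup V] [InnerProductSpace ℝ V] [FiniteDimensional ℝ V]
  {O : Set M} {p q : M} {Ξ Ξ' : V → M} {v : V → Ext V} {o : M → Ext E}

theorem range_ub (a : V) {r : ℝ} (hr : 0 < r) (x : V) : univBall a r x ∈ ball a r :=
  OpenPartialHomeomorph.univBall_target a hr ▸ (univBall a r).map_source
    (OpenPartialHomeomorph.univBall_source a r ▸ mem_univ x)

theorem isOE_ub (a : V) {r : ℝ} (hr : 0 < r) : IsOE 𝓘(ℝ, V) 𝓘(ℝ, V) (univBall a r) :=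
  have s : ∀ x, x ∈ (univBall a r).source := fun x => OpenPartialHomeomorph.univBall_source a r ▸ mem_univ x
  have t := OpenPartialHomeomorph.univBall_target a hr
  ⟨fun x y => (univBall a r).injOn (s x) (s y), fun x => Cyl58.ld_of_inverse isOpen_univ isOpen_ball
    OpenPartialHomeomorph.contDiff_univBall.contMDiff.contMDiffOn
    OpenPartialHomeomorph.contDiffOn_univBall_symm.contMDiffOn (fun x _ => range_ub a hr x) (mapsTo_univ _ _)
    (fun x _ => (univBall a r).left_inv (s x)) (fun _ hy => (univBall a r).right_inv (t ▸ hy)) (mem_univ x)⟩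

/-- a small disc round a point -/
theorem exists_oe (L : V ≃L[ℝ] E) (hO : O ∈ 𝓝 p) :
    ∃ s : V → M, IsOE 𝓘(ℝ, V) I s ∧ s 0 = p ∧ range s ⊆ O := by
  let e := Glue52.chE I p
  have h0 : p ∈ e.source := mem_extChartAt_source p
  have e0 : e.symm (L (L.symm (e p))) = p := by rw [L.apply_symm_apply]; exact e.left_inv h0
  have t0 : L (L.symm (e p)) ∈ e.target := by rw [L.apply_symm_apply]; exact e.map_source h0
  obtain ⟨r, hr, hb⟩ := Metric.mem_nhds_iff.1 (inter_mem (L.continuous.continuousAt.preimage_mem_nhds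
    (e.open_target.mem_nhds t0)) (((ldp e.symm t0).contMDiffAt.continuousAt.comp
      L.continuous.continuousAt).preimage_mem_nhds (t := O) (by rw [comp_apply, e0]; exact hO)))
  refine ⟨_, IsOE.of_pd e.symm ((IsOE.of_diffeo L.toDiffeomorph).comp (isOE_ub _ hr))
    fun x => (hb (range_ub _ hr x)).1, ?_, ?_⟩
  · exact (congrArg (fun x => e.symm (L x)) (OpenPartialHomeomorph.univBall_apply_zero _ _)).trans e0
  · rintro _ ⟨x, rfl⟩
    exact (hb (range_ub _ hr x)).2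

/-- points are moved -/
theorem mc_pt (L : V ≃L[ℝ] E) (h3 : 2 < finrank ℝ V) (hO : IsOpen O) (hc : IsPreconnected O) (hp : p ∈ O)
    (hq : q ∈ O) : ∃ ψ, Mc I O ψ ∧ ψ p = q := by
  refine hc.induction₂ (fun x y => ∃ ψ, Mc I O ψ ∧ ψ x = y) (fun x hx => ?_)
    (fun _ _ _ _ _ _ ⟨_, a, b⟩ ⟨ψ, c, d⟩ => ⟨_, a.trans c, (congrArg ψ b).trans d⟩)
    (fun x _ _ _ ⟨ψ, a, b⟩ => ⟨_, a.symm, b ▸ ψ.symm_apply_apply x⟩) hp hq
  obtain ⟨s, s1, rfl, s3⟩ := exists_oe (I := I) L (hO.mem_nhds hx)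
  filter_upwards [nhdsWithin_le_nhds (s1.isOpen_range.mem_nhds (mem_range_self 0))]
  rintro _ ⟨w, rfl⟩
  obtain ⟨F, ⟨R, f1⟩, f2⟩ := Grm47.exists_transl 0 w
  obtain ⟨ψ, a, b⟩ := mc_push s1 h3 F f1 ((image_subset_range _ _).trans s3)
  exact ⟨ψ, a, by rw [b, f2.self_of_nhds, zero_add]⟩

/-- positive germs are moved -/
theorem mc_germ (h3 : 2 < finrank ℝ V) (hO : IsOpen O) (hc : IsPreconnected O) (h : IsOE 𝓘(ℝ, V) I Ξ)
    (h' : IsOE 𝓘(ℝ, V) I Ξ') (ho : Int54.Ori I o) (k : Pos 𝓘(ℝ, V) I Ξ {0} v o) (k' : Pos 𝓘(ℝ, V) I Ξ' {0} v o)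
    (hp : Ξ 0 ∈ O) (hq : Ξ' 0 ∈ O) : ∃ ψ, Mc I O ψ ∧ ∀ᶠ y in 𝓝 0, ψ (Ξ y) = Ξ' y := by
  obtain ⟨ψ, a, b⟩ := mc_pt (I := I) (V := V) ((h.loc 0).mfderivToContinuousLinearEquiv ne0 :) h3 hO hc hp hq
  have j := (IsOE.of_diffeo ψ).comp h
  have hU : IsOpen ((ψ ∘ Ξ) ⁻¹' range Ξ') := h'.isOpen_range.preimage j.continuous
  have h0 : (0 : V) ∈ (ψ ∘ Ξ) ⁻¹' range Ξ' := ⟨0, b.symm⟩
  let φ : V → V := h'.pd.symm ∘ ψ ∘ Ξ
  have ld : ∀ y ∈ (ψ ∘ Ξ) ⁻¹' range Ξ', IsLocalDiffeomorphAt 𝓘(ℝ, V) 𝓘(ℝ, V) ∞ φ y := fun y hy =>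
    Cyl58.ld_comp (ldp h'.pd.symm hy) (j.loc y)
  have e : ∀ᶠ y in 𝓝 0, Ξ' (φ y) = ψ (Ξ y) := eventually_of_mem (hU.mem_nhds h0) fun y hy => h'.pd.right_inv hy
  have φ0 : φ 0 = 0 := h'.inj (e.self_of_nhds.trans b)
  have d := ((((a.mv.pos o ho).comp k (fun y _ => ψ.isLocalDiffeomorph y) (fun y _ => h.loc y)
    (mapsTo_univ _ _)).congr' (f' := Ξ' ∘ φ) (by rintro _ rfl; exact e)).of_comp_left k' (fun y _ => h'.loc y)
    (by rintro _ rfl; exact ld 0 h0) (by rintro _ rfl; exact φ0)) 0 rfl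
  rw [pm_apply, Int54.tp_pb_self, φ0, mul_assoc, mf_eq_fderiv] at d
  obtain ⟨δ, hδ, hb⟩ := Metric.nhds_basis_closedBall.mem_iff.1
    (h'.continuous.continuousAt.preimage_mem_nhds (hO.mem_nhds hq))
  obtain ⟨F, f1, f2⟩ := str_det (by omega) (hU.mem_nhds h0)
    (fun y hy => (ld y hy).contMDiffAt.contDiffAt.contDiffWithinAt) φ0
    (pos_of_mul_pos_left d (mul_self_nonneg _)) hδ
  obtain ⟨χ, c1, c2⟩ := mc_push h' h3 F f2 (image_subset_iff.2 hb)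
  refine ⟨_, a.trans c1.symm, ?_⟩
  filter_upwards [e, f1] with y y1 y2
  exact χ.injective ((χ.apply_symm_apply _).trans (y1.symm.trans ((c2 y).trans (congrArg Ξ' y2)).symm))

/-- **the disc theorem** -/
theorem mc_disc (h3 : 2 < finrank ℝ V) (hO : IsOpen O) (hc : IsPreconnected O) (h : IsOE 𝓘(ℝ, V) I Ξ)
    (h' : IsOE 𝓘(ℝ, V) I Ξ') (ho : Int54.Ori I o) (k : Pos 𝓘(ℝ, V) I Ξ {0} v o) (k' : Pos 𝓘(ℝ, V) I Ξ' {0} v o)
    (hp : range Ξ ⊆ O) (hq : range Ξ' ⊆ O) (R : ℝ) : ∃ ψ, Mc I O ψ ∧ ∀ y, ‖y‖ ≤ R → ψ (Ξ y) = Ξ' y := by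
  obtain ⟨ψ, a, b⟩ := mc_germ h3 hO hc h h' ho k k' (hp ⟨0, rfl⟩) (hq ⟨0, rfl⟩)
  obtain ⟨r, hr, hb⟩ := Metric.eventually_nhds_iff_ball.1 b
  have c0 : 0 < r / (|R| + 1) := by positivity
  obtain ⟨G, ⟨R', g1⟩, g2⟩ := Grm47.exists_homothety (E := V) c0 R
  obtain ⟨χ, c1, c2⟩ := mc_push h h3 G g1 ((image_subset_range _ _).trans hp)
  obtain ⟨χ', c3, c4⟩ := mc_push h' h3 G g1 ((image_subset_range _ _).trans hq)
  refine ⟨_, (c1.trans a).trans c3.symm, fun y hy => χ'.injective ((χ'.apply_symm_apply _).trans ?_)⟩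
  show ψ (χ (Ξ y)) = χ' (Ξ' y)
  rw [c4, c2, hb]
  rw [g2 y hy, mem_ball_zero_iff, norm_smul, Real.norm_of_nonneg c0.le, div_mul_eq_mul_div,
    div_lt_iff₀ (by positivity)]
  exact mul_lt_mul_of_pos_left (by linarith [le_abs_self R]) hr

/-- **GEO-DSC** -/
theorem dscStmt : Geo28.DscStmt := fun X f f' h h' k k' => by
  have := Manifold.locallyCompact_of_finiteDimensional (M := X.M) X.I
  obtain ⟨ψ, ⟨K, a, -, b⟩, c⟩ := mc_disc (by simp) isOpen_univ isPreconnected_univ h h' X.ori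
    (k.mono (subset_univ _)) (k'.mono (subset_univ _)) (subset_univ _) (subset_univ _) 1
  exact ⟨⟨ψ, b.pos _ X.ori⟩, K, a, b.off, b.cls, fun y hy => c y (mem_closedBall_zero_iff.1 hy)⟩

end Crest.Agent.X212.Rob53
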