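import Crest.Agent.X212.Rfl19.Th
import Crest.Agent.X212.Grm47.Disc

/-!
# X212 / Rob53, part Fix (helper53): diffeomorphisms that fix orientations, classes and closed forms

* `Mv I S ψ` : `ψ` is the identity off `S`, positive, fixes all classes, and moves closed forms by the
  differential of a form that vanishes off `S`;  `Mv.refl`, `Mv.trans`, `Mv.symm`, `Mv.mono`;
* `mv_of_ht` : from a smooth homotopy;  `eqv_ball` : isomorphisms extend over a ball;
* `mv_push` : a compactly supported diffeomorphism of a disc;  `Mc I O ψ` : compact support in `O`.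
-/

set_option autoImplicit false
set_option linter.unusedSectionVars false

open Set Filter Topology Function Metric Module
open scoped ContDiff Manifold
open Crest.Agent.R208 Crest.Agent.R208.FI
open Crest.Agent.R208.F hiding wd
open Crest.Agent.X212.Orx52 Crest.Agent.X212.Dr59 Crest.Agent.X212.Rfl19
open Crest.Agent.X212.Lab56 (Cls Dat Sc Eqv LOn Dfm)
open Crest.Agent.X212.Bor5.T (Pb)
open Crest.Agent.X212.Cyl58 (IsOE)
open Crest.Agent.X212.Pic56 (IsLine IsFrame HasLog clm)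

noncomputable section

namespace Crest.Agent.X212.Rob53

variable {E : Type} [NormedAddCommGroup E] [NormedSpace ℝ E] [FiniteDimensional ℝ E]
  {H : Type} [TopologicalSpace H] {I : ModelWithCorners ℝ E H} [I.Boundaryless]
  {M : Type} [TopologicalSpace M] [ChartedSpace H M] [IsManifold I ∞ M]
  {S S' W O O' : Set M} {ψ ψ' : M ≃ₘ^∞⟮I, I⟯ M}

variable (I) in
/-- a move with support in `S` -/
structure Mv (S : Set M) (ψ : M ≃ₘ^∞⟮I, I⟯ M) : Prop where
  off : ∀ x, x ∉ S → ψ x = x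
  pos : ∀ o, Int54.Ori I o → Pos I I ψ univ o o
  cls : ∀ d : Cls I (univ : Set M), Pb ψ univ d d
  frm : ∀ k a, Cl I (k + 1) univ a → ∃ b, Sm I univ b ∧ Dg k univ b ∧ (∀ x, x ∉ S → b x = 0) ∧
    ∀ x, dM I b x = pm I I ψ a x - a x

theorem Mv.mono (h : Mv I S ψ) (k : S ⊆ S') : Mv I S' ψ :=
  ⟨fun x hx => h.off x fun e => hx (k e), h.pos, h.cls, fun n a ha =>
    let ⟨b, b1, b2, b3, b4⟩ := h.frm n a ha; ⟨b, b1, b2, fun x hx => b3 x fun e => hx (k e), b4⟩⟩

theorem Mv.refl (S : Set M) : Mv I S (.refl I M ∞) :=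
  ⟨fun _ _ => rfl, fun _ ho => pos_id.2 (oriOn ho _).same, fun _ => pb_id, fun _ a _ =>
    ⟨0, Sm.zero, Dg.zero, fun _ _ => rfl, fun x => by
      rw [dM_zero, show pm I I (Diffeomorph.refl I M ∞) a = a from pm_id a, sub_self]; rfl⟩⟩

theorem cl_dif (ψ : M ≃ₘ^∞⟮I, I⟯ M) {k : ℕ} {a : M → Ext E} (h : Cl I k univ a) : Cl I k univ (pm I I ψ a) :=
  h.pm (Mp.of_contMDiff ψ.contMDiff (mapsTo_univ _ _))

theorem pm_trans (ψ ψ' : M ≃ₘ^∞⟮I, I⟯ M) (a : M → Ext E) (x : M) :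
    pm I I (ψ.trans ψ') a x = pm I I ψ (pm I I ψ' a) x :=
  pm_comp_ld (f := ψ') (g := ψ) (ψ'.isLocalDiffeomorph _) (ψ.isLocalDiffeomorph x)

theorem Mv.trans (h : Mv I S ψ) (h' : Mv I S' ψ') : Mv I (S ∪ S') (ψ.trans ψ') := by
  refine ⟨fun x hx => (congrArg ψ' (h.off x fun e => hx (.inl e))).trans (h'.off x fun e => hx (.inr e)),
    fun o ho => (h'.pos o ho).comp (h.pos o ho) (fun y _ => ψ'.isLocalDiffeomorph y)
      (fun y _ => ψ.isLocalDiffeomorph y) (mapsTo_univ _ _),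
    fun d => Rfl19.pb_comp (f := ψ') (g := ψ) (h'.cls d) (h.cls d) (mapsTo_univ _ _), fun k a ha => ?_⟩
  obtain ⟨b, b1, b2, b3, b4⟩ := h.frm k _ (cl_dif ψ' ha)
  obtain ⟨c, c1, c2, c3, c4⟩ := h'.frm k a ha
  refine ⟨b + c, b1.add c1, b2.add c2, fun x hx => ?_, fun x => ?_⟩
  · rw [Pi.add_apply, b3 x fun e => hx (.inl e), c3 x fun e => hx (.inr e), add_zero]
  · rw [dM_add ne0 (b1 x trivial) (c1 x trivial), b4, c4, pm_trans, sub_add_sub_cancel]

theorem Mv.symm (h : Mv I S ψ) : Mv I S ψ.symm := by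
  refine ⟨fun x hx => ψ.injective ((ψ.apply_symm_apply x).trans (h.off x hx).symm), fun o ho => ?_,
    fun d => pb_symm (h.cls d), fun k a ha => ?_⟩
  · exact (Pos.symm (φ := ψ.toPartialDiffeomorph) (h.pos o ho) subset_rfl).mono
      fun y _ => ⟨ψ.symm y, trivial, ψ.apply_symm_apply y⟩
  · obtain ⟨b, b1, b2, b3, b4⟩ := h.frm k _ (cl_dif ψ.symm ha)
    refine ⟨-b, b1.neg, b2.neg, fun x hx => by rw [Pi.neg_apply, b3 x hx, neg_zero], fun x => ?_⟩
    rw [dM_neg, Pi.neg_apply, b4, neg_sub, ← pm_trans,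
      pm_of_eventually_id (f := ψ.trans ψ.symm) (.of_forall fun y => ψ.symm_apply_apply y)]

theorem Mv.maps (h : Mv I S ψ) (k : S ⊆ O) : MapsTo ψ O O := fun y hy => by
  by_cases e : ψ y ∈ S
  · exact k e
  · exact (ψ.injective (h.off _ e)).symm ▸ hy

theorem Mv.image (h : Mv I S ψ) (k : S ⊆ O) : ψ '' O = O :=
  (h.maps k).image_subset.antisymm fun y hy => ⟨_, h.symm.maps k hy, ψ.apply_symm_apply y⟩

theorem hk_fst {F : M × ℝ → M} {y : M} (h : ∀ t, F =ᶠ[𝓝 (y, t)] Prod.fst) (a : M → Ext E) :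
    hk I I F a y = 0 := by
  refine (intervalIntegral.integral_congr fun t _ => ?_).trans intervalIntegral.integral_zero
  rw [pm_congr (h t) rfl, pm_apply, Dr59.mf_fst, hopL_apply, ii_pb]
  simp

/-- a diffeomorphism that is homotopic to the identity with support in `S` -/
theorem mv_of_ht (hW : IsOpen W) (hc : IsPreconnected W) (hS : IsClosed S) (hSW : S ⊆ W) {p : M}
    (hp : p ∈ W) (hp' : p ∉ S) {F : M × ℝ → M} (h : Ht I I W univ F) (e0 : ∀ y ∈ W, F (y, 0) = y)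
    (e1 : ∀ y ∈ W, F (y, 1) = ψ y) (e : ∀ y ∈ W, y ∉ S → ∀ t, F (y, t) = y) (off : ∀ y, y ∉ S → ψ y = y)
    (inj : ∀ a b : Dat I (univ : Set M), Eqv a.d b.d Sᶜ → Eqv a.d b.d univ) : Mv I S ψ := by
  have ev : ∀ y, y ∉ S → ψ =ᶠ[𝓝 y] id := fun y hy => eventually_of_mem (hS.isOpen_compl.mem_nhds hy) off
  have ld := fun y (_ : y ∈ univ) => ψ.isLocalDiffeomorph y
  have cs : ∀ y, y ∈ W ∪ Sᶜ := fun y => (em (y ∈ S)).imp_left (hSW ·)
  refine ⟨off, fun o ho => ?_, ?_, fun k a ha => ?_⟩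
  · have k : Pos I I ψ Sᶜ o o := (pos_id.2 (oriOn ho _).same).congr' ev
    exact ((pos_of_pt hc (oriOn ho _) (oriOn ho univ) (fun y _ => ld y trivial) (mapsTo_univ _ _) hp
      (k.mono (singleton_subset_iff.2 hp'))).union k).mono fun y _ => cs y
  · rintro ⟨a⟩
    exact ⟨ld, Quot.sound (inj ⟨_, _, _, a.ok.pull ld (mapsTo_univ _ _)⟩ a
      (((Lab56.pull_id a.d _).trans (Lab56.pull_congr a.d ev)).symm.eqv
        ((a.ok.pull ld (mapsTo_univ _ _)).mono (subset_univ _))))⟩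
  · have z : ∀ y, y ∉ S → W.indicator (hk I I F a) y = 0 := fun y hy => by
      by_cases k : y ∈ W
      · rw [indicator_of_mem k]
        refine hk_fst (fun t => ?_) a
        filter_upwards [((hW.sdiff hS).preimage continuous_fst).mem_nhds (x := (y, t)) ⟨k, hy⟩] with z hz
          using e _ hz.1 hz.2 _
      · exact indicator_of_notMem k _
    have z' : ∀ y, y ∉ S → W.indicator (hk I I F a) =ᶠ[𝓝 y] 0 := fun y hy =>
      eventually_of_mem (hS.isOpen_compl.mem_nhds hy) z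
    have w : EqOn (W.indicator (hk I I F a)) (hk I I F a) W := fun _ => (indicator_of_mem · _)
    refine ⟨_, fun y _ => (cs y).elim ((h.sm_hk hW ha.sm).congr hW w y) fun k => cAt_zero.congr (z' y k),
      fun y _ => (cs y).elim ((h.dg_hk ha.dg).congr w y) fun k => (z y k).symm ▸ IsDeg.zero, z, fun y => ?_⟩
    rcases cs y with k | k
    · have := h.d_hk hW ha.sm k
      rw [h.hk_eq_zero ha.cl k, add_zero, pm_congr (eventually_of_mem (hW.mem_nhds k) e1) rfl,
        pm_of_eventually_id (eventually_of_mem (hW.mem_nhds k) e0)] at this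
      exact (dM_eqOn hW w k).trans this
    · rw [dM_congr (z' y k), dM_zero, pm_of_eventually_id (ev y k), sub_self]; rfl

variable [T2Space M] [SigmaCompactSpace M]
  {V : Type} [NormedAddCommGroup V] [InnerProductSpace ℝ V] [FiniteDimensional ℝ V] {s : V → M} {R : ℝ}

/-- a line that is trivial off a ball is trivial -/
theorem fr_ball (hs : IsOE 𝓘(ℝ, V) I s) (h3 : 2 < finrank ℝ V) (hR : 0 < R) {n : Type} [Fintype n]
    [DecidableEq n] {q : M → Matrix n n ℂ} (hq : LOn I q univ) {a : M → n → ℂ}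
    (ha : IsFrame (fun x => clm (q x)) a (s '' ball 0 R)ᶜ) :
    ∃ u : M → Matrix n Unit ℂ, Line51.Uni I (fun _ => 1) q u univ := by
  have := Manifold.metrizableSpace I M
  let _ := TopologicalSpace.metrizableSpaceMetric M
  have c := hs.continuous
  have cσ : ContinuousOn hs.pd.symm (range s) := hs.pd.symm.contMDiffOn_toFun.continuousOn
  obtain ⟨v, v1, v2, -⟩ := hq.isLine.rank (s 0) trivial
  obtain ⟨b, hb, -⟩ := Lab56.frame_htpy (X := V) (Q := fun z => clm (q (s (z.1 • z.2)))) (s := fun _ => v)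
    (hq.isLine.comp (by fun_prop) (mapsTo_univ _ _))
    ⟨continuousOn_const, fun _ _ => by rwa [zero_smul], fun _ _ => v1⟩
  have sub : s '' closedBall 0 R ⊆ range s := image_subset_range _ _
  obtain ⟨t, ht, -⟩ := IsLine.patch (hs.isOpen_image isOpen_ball).isClosed_compl
    ((isCompact_closedBall 0 R).image c).isClosed (hq.isLine.mono (subset_univ _)) ha
    (((hb.comp cσ (mapsTo_univ _ _)).mono sub).congr (by
      rintro _ ⟨x, -, rfl⟩
      rw [hs.pd_symm_apply, one_smul]) fun _ _ => rfl) fun φ h1 h2 _ => by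
      have m : MapsTo (fun x => s (R • x)) (sphere 0 1) ((s '' ball 0 R)ᶜ ∩ s '' closedBall 0 R) := fun x hx => by
        have e : ‖R • x‖ = R := by rw [norm_smul, mem_sphere_zero_iff_norm.1 hx, mul_one, Real.norm_of_nonneg hR.le]
        exact ⟨fun ⟨y, hy, k⟩ => (mem_ball_zero_iff.1 hy).ne (hs.inj k ▸ e), _, mem_closedBall_zero_iff.2 e.le, rfl⟩
      have l := Pic56.hasLog_sph (W := (⊤ : Submodule ℝ V)) (φ := fun x => φ (s (R • x))) (by simpa using h3)
        (Pic56.sph_top (E := V) ▸ h1.comp (by fun_prop) m) (Pic56.sph_top (E := V) ▸ fun x hx => h2 _ (m hx))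
      rw [Pic56.sph_top] at l
      refine (l.comp (g := fun y => R⁻¹ • hs.pd.symm y) ((cσ.mono fun _ k => sub k.2).const_smul _) ?_).congr ?_
      · rintro _ ⟨k, x, hx, rfl⟩
        have e : ‖x‖ = R := (mem_closedBall_zero_iff.1 hx).antisymm
          (not_lt.1 fun l => k ⟨x, mem_ball_zero_iff.2 l, rfl⟩)
        rw [mem_sphere_zero_iff_norm]
        beta_reduce
        rw [hs.pd_symm_apply, norm_smul, e, norm_inv, Real.norm_of_nonneg hR.le, inv_mul_cancel₀ hR.ne']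
      · rintro _ ⟨-, x, -, rfl⟩
        rw [hs.pd_symm_apply, smul_inv_smul₀ hR.ne']
  exact Lab56.exists_fr_of_frame isOpen_univ hq (ht.comp continuous_subtype_val.continuousOn fun y _ =>
    (em (y.1 ∈ s '' ball 0 R)).symm.imp_right (image_mono ball_subset_closedBall ·))

/-- **isomorphisms extend over a ball** -/
theorem eqv_ball (hs : IsOE 𝓘(ℝ, V) I s) (h3 : 2 < finrank ℝ V) {ι ι' κ l : Type} [Fintype ι] [Fintype ι']
    [Fintype κ] [Fintype l] [DecidableEq ι] [DecidableEq ι'] [DecidableEq κ] [DecidableEq l] {d : Sc I M ι κ}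
    {d' : Sc I M ι' l} (h : d.On univ) (h' : d'.On univ) (i : Eqv d d' (s '' closedBall 0 R)ᶜ) :
    Eqv d d' univ :=
  let ⟨_, a⟩ := (Lab56.eqv_iff (h.mono (subset_univ _)) (h'.mono (subset_univ _))).1 i
  (Lab56.eqv_iff h h').2 (fr_ball hs h3 (R := |R| + 1) (by positivity) (h.hl h') ((Lab56.frame_of_uni a).mono
    (compl_subset_compl.2 (image_mono (closedBall_subset_ball (by linarith [le_abs_self R]))))))

/-- **a compactly supported diffeomorphism of a disc is a move** -/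
theorem mv_push (hs : IsOE 𝓘(ℝ, V) I s) (h3 : 2 < finrank ℝ V) (G : V ≃ₘ^∞⟮𝓘(ℝ, V), 𝓘(ℝ, V)⟯ V)
    (hG : ∀ x, x ∉ closedBall 0 R → G x = x) :
    ∃ ψ, Mv I (s '' closedBall 0 R) ψ ∧ ∀ x, ψ (s x) = s (G x) := by
  obtain ⟨ψ, h1, h2⟩ := Grm47.exists_push hs G (isCompact_closedBall 0 R) hG
  have : Nontrivial V := Module.nontrivial_of_finrank_pos (R := ℝ) (by omega)
  obtain ⟨p, hp⟩ := NormedSpace.exists_lt_norm ℝ V R
  refine ⟨ψ, mv_of_ht hs.isOpen_range (isPreconnected_range hs.continuous)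
    ((isCompact_closedBall 0 R).image hs.continuous).isClosed (image_subset_range _ _) (mem_range_self p)
    (fun ⟨y, hy, k⟩ => (mem_closedBall_zero_iff.1 hy).not_gt (hs.inj k ▸ hp))
    (F := fun z => s ((1 - z.2) • hs.pd.symm z.1 + z.2 • G (hs.pd.symm z.1))) ⟨fun y hy t _ => ?_,
      fun _ _ _ _ => trivial⟩ ?_ ?_ ?_ h2 fun a b => eqv_ball hs h3 a.ok b.ok, h1⟩
  · have k : ContMDiffAt (I.prod 𝓘(ℝ, ℝ)) 𝓘(ℝ, V) ∞ (fun z : M × ℝ => hs.pd.symm z.1) (y, t) :=
      (ldp hs.pd.symm hy).contMDiffAt.comp (y, t) contMDiffAt_fst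
    exact (hs.contMDiff _).comp (y, t) (((contMDiffAt_const.sub contMDiffAt_snd).smul k).add
      (contMDiffAt_snd.smul ((G.contMDiff _).comp (y, t) k)))
  · rintro _ ⟨x, rfl⟩
    simp only [hs.pd_symm_apply, sub_zero, one_smul, zero_smul, add_zero]
  · rintro _ ⟨x, rfl⟩
    simp only [hs.pd_symm_apply, sub_self, one_smul, zero_smul, zero_add, h1]
  · rintro _ ⟨x, rfl⟩ hx t
    simp only [hs.pd_symm_apply, hG x fun k => hx ⟨x, k, rfl⟩, ← add_smul, sub_add_cancel, one_smul]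

/-! ### compact support -/

variable (I) in
/-- a move with compact support in `O` -/
def Mc (O : Set M) (ψ : M ≃ₘ^∞⟮I, I⟯ M) : Prop := ∃ K, IsCompact K ∧ K ⊆ O ∧ Mv I K ψ

theorem Mc.mono (h : Mc I O ψ) (k : O ⊆ O') : Mc I O' ψ := let ⟨K, a, b, c⟩ := h; ⟨K, a, b.trans k, c⟩

theorem Mc.refl (O : Set M) : Mc I O (.refl I M ∞) := ⟨∅, isCompact_empty, empty_subset _, .refl _⟩

theorem Mc.trans (h : Mc I O ψ) (h' : Mc I O ψ') : Mc I O (ψ.trans ψ') :=
  let ⟨_, a, b, c⟩ := h; let ⟨_, a', b', c'⟩ := h'; ⟨_, a.union a', union_subset b b', c.trans c'⟩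

theorem Mc.symm (h : Mc I O ψ) : Mc I O ψ.symm := let ⟨K, a, b, c⟩ := h; ⟨K, a, b, c.symm⟩

theorem Mc.mv (h : Mc I O ψ) : Mv I O ψ := let ⟨_, _, b, c⟩ := h; c.mono b

theorem mc_push (hs : IsOE 𝓘(ℝ, V) I s) (h3 : 2 < finrank ℝ V) (G : V ≃ₘ^∞⟮𝓘(ℝ, V), 𝓘(ℝ, V)⟯ V)
    (hG : ∀ x, R ≤ ‖x‖ → G x = x) (hO : s '' closedBall 0 R ⊆ O) : ∃ ψ, Mc I O ψ ∧ ∀ x, ψ (s x) = s (G x) :=
  let ⟨ψ, a, b⟩ := mv_push hs h3 G fun x hx => hG x (not_le.1 (mt mem_closedBall_zero_iff.2 hx)).le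
  ⟨ψ, ⟨_, (isCompact_closedBall 0 R).image hs.continuous, hO, a⟩, b⟩

/-- the difference of a closed form and its pull-back pairs to zero with closed forms -/
theorem Mc.ip [MeasurableSpace E] [BorelSpace E] [MeasurableSpace M] [BorelSpace M] [SecondCountableTopology M]
    (h : Mc I O ψ) {o c x : M → Ext E} (ho : Int54.Ori I o) {k l : ℕ} (hc : Cl I (k + 1) univ c)
    (hx : Cs I l univ x) : ip I o (pm I I ψ c) x = ip I o c x :=
  let ⟨b, b1, _, _, b4⟩ := h.mv.frm k c hc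
  hx.ip_coh ho (cl_dif ψ hc).sm hc.sm ⟨b, b1, fun y _ => b4 y⟩

end Crest.Agent.X212.Rob53
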