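import Crest.Agent.X212.Rob53.Ori
import Crest.Agent.X212.Nv5.Stm

/-!
# X212 / Rob53, part Fo (helper53): `foStmt : Nv5.FoStmt`
-/

set_option autoImplicit false

open Set
open scoped ContDiff Manifold
open Crest.Agent.X212.Orx52 Crest.Agent.X212.Rod53
open Crest.Agent.X212.Cab39 (cable cabT σ0)

noncomputable section

namespace Crest.Agent.X212.Rob53

/-- **NV-FO** -/
theorem foStmt : Nv5.FoStmt := fun k =>
  ⟨(ofFill (cabT k.toTube) σ0).conn, -oF (cabT k.toTube) σ0, (oriOn (ori_oF _ _) univ).neg.ori,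
    ⟨⟨_, uni_s σ0, ofFill (cabT k.toTube) σ0, (pos_ie_iff _ (oriOn (ori_oS _) _).neg).2
      ((pos_ie_iff _ (oriOn (ori_oS _) _)).1 (pos_ie (cabT k.toTube) σ0)).neg⟩⟩⟩

end Crest.Agent.X212.Rob53
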