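import Crest.Agent.X212.Rob53.Rfl

/-!
# X212 / Rob53, part Iso (helper53): compactly supported classes of the word `a | b | e`

* `not_surj` : the angle does not extend over the first vertex;  `kb_wZ` : the relative `H²` has rank one;
* `isoStmt : Nv5.IsoStmt`.
-/

set_option autoImplicit false
set_option linter.unusedSectionVars false

open Set Filter Topology Function
open scoped ContDiff Manifold Real
open Crest.Agent.R208 Crest.Agent.R208.FI
open Crest.Agent.R208.F hiding wd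
open Crest.Agent.X212.Line51 hiding tp Uni
open Crest.Agent.X212.Orx52 Crest.Agent.X212.Rod53 Crest.Agent.X212.Dr59
open Crest.Agent.X212.Nv5 (wZ isZ mE mG nG)
open Crest.Agent.X212.Bor5.T (W4)

noncomputable section

namespace Crest.Agent.X212.Rob53

theorem jr_lo : Iio (((-2 : ℤ) : ℝ) + 1) ⊆ Jr (wd wZ) (wZ (-2)) :=
  Iio_subset_Jr fun _ hk => .inl (if_pos (by omega))

theorem jv_lo {t : ℝ} (h : t < 0) : t ∈ Jv (wd wZ) (wZ (-1 - 1)) (wZ (-1)) (-1 : ℤ) := by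
  rcases lt_or_ge t (-1) with e | e
  · exact Jv.of_left (jr_lo (show t < _ by push_cast; linarith)) (by simpa using e)
  · exact Ioo_subset_Jv uZ ⟨by push_cast; linarith, by simpa using h⟩

variable {EN HN : Type} [NormedAddCommGroup EN] [NormedSpace ℝ EN] [FiniteDimensional ℝ EN]
  [TopologicalSpace HN] {IN : ModelWithCorners ℝ EN HN} [IN.Boundaryless]
  {N : Type} [TopologicalSpace N] [ChartedSpace HN N] [IsManifold IN ∞ N] [T2Space N] {T : Tb IN N}
  {θ : N → Circle} {β : ℝ}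

theorem csm_lo (hθ : Ang T θ (0, 1)) (hβ : β ≤ -1) :
    ∀ x ∈ T.time (wd wZ) ⁻¹' Iio β, CSm (𝓡 4) (thx T (wd wZ) θ (0, 1)) x := fun x hx =>
  hθ.csm fun _ => (mem_Jr.1 (jr_lo (show T.time _ x < _ by push_cast; linarith [show T.time _ x < β from hx]))).mono
    fun t ht => by rcases ht with e | e <;> rw [e] <;> rfl

/-- the angle does not extend over the first vertex -/
theorem not_surj [SigmaCompactSpace (X T (wd wZ))] (hθ : Ang T θ (0, 1)) (hβ : β ≤ -1) :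
    ¬Surjective (res (I := 𝓡 4) (k := 1) (subset_univ (T.time (wd wZ) ⁻¹' Iio β))) := fun h => by
  obtain ⟨y, hy⟩ := h (cl_ang (csm_lo hθ hβ)).cls
  obtain ⟨A, hA, rfl⟩ := exists_cls y
  have b := acy_ov (T := T) (O := Iio 0 ×ˢ univ) uZ (isOpen_Iio.prod isOpen_univ) ⟨by simp, trivial⟩
    (((convex_Iio _).prod convex_univ) ⟨by simp, trivial⟩) fun t ht => jv_lo ht.1
  have n : ∀ t : ℝ, (((1 : Circle), ((Circle.exp t : Circle) : ℂ)), β - 1) ∈ Ur (wd wZ) (0, 1) := fun t =>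
    .inl (Circle.exp t).coe_ne_zero
  have k := ang_period (ι := Unit) (U := T.ov (wd wZ) (Iio 0 ×ˢ univ) ∩ T.time _ ⁻¹' Iio β) (c := fun _ => 1)
    (fun _ x hx => csm_lo hθ hβ x hx.2) (by
      simpa using ((b.hz 0 A (hA.mono (subset_univ _))).mono inter_subset_left).sub
        ((cls_eq.1 hy).mono inter_subset_right))
    (γ := fun t => T.rod _ uni_std ((1, Circle.exp t), β - 1))
    ⟨fun t _ => (ld_pd _ (n t)).contMDiffAt.comp t ((contMDiffAt_const.prodMk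
      ((contMDiff_coe _).comp t (contMDiff_circleExp t))).prodMk contMDiffAt_const), fun t _ => by
        have := T.time_rod uni_std (n t)
        exact ⟨⟨T.rod_mem_tor _ (n t), this.trans_lt (by linarith), trivial⟩, this.trans_lt (by linarith)⟩⟩
    (by simp) (d := fun _ => 1) (u := fun _ => 1) fun _ t => by
      rw [hθ.thx_eq (T.rod_mem_tor _ (n t)), chi_rod _ (Circle.exp t).coe_ne_zero]
      simpa [dot] using dir_coe (Circle.exp t)
  simp at k

/-- the relative `H²` has rank at most one -/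
theorem kb_wZ [SigmaCompactSpace (X T (wd wZ))] (hθ : Ang T θ (0, 1)) (hβ : β ≤ -1) :
    Kb (𝓡 4) 2 (subset_univ (T.time (wd wZ) ⁻¹' Iio β)) 1 := by
  have k := (rg_of_time (T := T) (v := wd wZ) isOpen_univ convex_univ).hd isZ one_pos (fun _ _ _ => univ_nonempty)
    (i := -2) (j := 0) (by omega) (β' := β - 1) (β := β) (γ := 1) (by linarith) (by push_cast; linarith)
    (Ioo_subset_Iio_self.trans jr_lo) (by linarith) (by simp) (subset_univ _) isOpen_univ convex_univ (subset_univ _)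
    fun x _ _ e => Ioi_subset_Jr (fun l a => .inl ((if_neg (by omega)).trans (if_neg (by omega)))) e
  rw [← rg_time, preimage_univ, univ_inter, univ_inter, nv_wZ] at k
  obtain ⟨p, q, e, l⟩ := k.hn
  refine Rk.mono l.kb (by_contra fun a => not_surj hθ hβ fun y => ?_)
  obtain rfl : q = 0 := by omega
  exact (Submodule.Quotient.mk_eq_zero _).1 (rk_zero.1 l.cb (Submodule.Quotient.mk y))

variable [CompactSpace N] [SecondCountableTopology (X T (wd wZ))] {o : N → Ext EN}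
  {O e g : X T (wd wZ) → Ext E4} {σ : ℤ}

section ms

variable [MeasurableSpace E4] [BorelSpace E4] [MeasurableSpace (X T (wd wZ))] [BorelSpace (X T (wd wZ))]

theorem cs_g (hθ : Ang T θ (0, 1)) (hg : WF T wZ (1 / 10) (ang IN θ) mG nG g) :
    Cs (𝓡 4) 2 (T.time _ ⁻¹' Ioi (-2)) g :=
  (hg.cs_time (i := -1) (j := 1) (s := 1) (s' := 0) (xa_ang hθ 1) (by norm_num) isZ
    (fun n hn => ⟨by rw [mG, if_pos (by omega)]; simp, if_pos (by omega)⟩)
    fun n hn => ⟨by rw [mG, if_neg (by omega), if_neg (by omega), zero_smul], if_neg (by omega)⟩).mono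
    fun p hp => by have := hp.1; push_cast at this; exact lt_of_lt_of_le (by norm_num) this

theorem cs_e (he : WF T wZ (1 / 10) 0 mE (fun _ => 0) e) : Cs (𝓡 4) 2 (T.time _ ⁻¹' Ioi (-2)) e :=
  (cs_UZ he).mono fun p hp => by
    have := (abs_lt.1 ((T.abs_time_le _ p).trans_lt hp.2)).1
    push_cast at this
    exact show -2 < T.time _ p by linarith

theorem ip_eg (hO : OX T (wd wZ) o O) (hσ : σ = 1 ∨ σ = -1)
    (hτ : Pos Rod53.IT IN T.τ {z | z.2 ≠ 0} ((σ : ℝ) • oT) o) (he : WF T wZ (1 / 10) 0 mE (fun _ => 0) e)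
    (hθ : Ang T θ (0, 1)) (hg : WF T wZ (1 / 10) (ang IN θ) mG nG g) : ip (𝓡 4) O e g = 1 * (σ * (2 * π) ^ 2) := by
  have hS : ∀ l, l ∉ ({-1, 0} : Finset ℤ) → mG (l + 1) = mG l := fun l a => by
    simp only [Finset.mem_insert, Finset.mem_singleton] at a
    unfold mG
    split_ifs <;> first | omega | rfl
  have k : ∑ j ∈ ({-1, 0} : Finset ℤ), det2 (mE j) (mG (j + 1) - mG j) = -1 := by simp [mE, mG, det2]
  have c := (cs_g hθ hg).mono (subset_univ _)
  rcases hσ with rfl | rfl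
  · rw [(he.wc _).ip_eq hO (by simpa using hτ) isZ isOpen_univ hg c hS, k]
    push_cast; ring
  · rw [← neg_neg O, ip_neg_ori, (he.wc _).ip_eq hO.neg (pos_neg_left.1 (by simpa using hτ)) isZ isOpen_univ hg c hS, k]
    push_cast; ring

theorem iso_rod (hO : OX T (wd wZ) o O) (hσ : σ = 1 ∨ σ = -1)
    (hτ : Pos Rod53.IT IN T.τ {z | z.2 ≠ 0} ((σ : ℝ) • oT) o) (he : WF T wZ (1 / 10) 0 mE (fun _ => 0) e)
    (hθ : Ang T θ (0, 1)) (hg : WF T wZ (1 / 10) (ang IN θ) mG nG g) (hβ : β ≤ -2) {z : X T (wd wZ) → Ext E4}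
    (hz : Cs (𝓡 4) 2 (T.time _ ⁻¹' Ioi β) z) : ip (𝓡 4) O z z = (σ * (2 * π) ^ 2)⁻¹ * ip (𝓡 4) O z e ^ 2 ∧
      ip (𝓡 4) O z e = ip (𝓡 4) O z g := by
  have := Orx52.sigmaCompact (𝓡 4) (X T (wd wZ))
  have ce := (cs_e he).mono (subset_univ _)
  have ee := ip_mE hO hσ hτ he isOpen_univ ce (s := 1) ((one_smul ℝ mE).symm ▸ he.wc _)
  have g0 : (σ : ℝ) * (2 * π) ^ 2 ≠ 0 := by
    rcases hσ with rfl | rfl <;> simp [Real.pi_ne_zero]
  have m : ∀ {a}, (h : Cs (𝓡 4) 2 (T.time (wd wZ) ⁻¹' Ioi β) a) →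
      h.cl.cls ∈ LinearMap.ker (res (I := 𝓡 4) (k := 2) (subset_univ (T.time (wd wZ) ⁻¹' Iio β))) := fun h =>
    cls_eq_zero.2 (ex_of_zero fun x hx => h.eq_zero fun k => lt_asymm (show T.time _ x < β from hx) k)
  obtain ⟨l, hl⟩ := Rk.surj_of_ne (kb_wZ hθ (hβ.trans (by norm_num)))
    (f := LinearMap.toSpanSingleton ℝ _ ⟨_, m ((cs_e he).mono (preimage_mono (Ioi_subset_Ioi hβ)))⟩) (x := 1)
    (fun a => g0 (by
      rw [← one_mul (_ * _), ← ee]
      exact ce.ip_ex hO.ori (cls_eq_zero.1 ((one_smul ℝ _).symm.trans (congrArg Subtype.val a))))) ⟨_, m hz⟩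
  have x := cls_eq.1 ((cls_smul l ce.cl).trans (congrArg Subtype.val hl)).symm
  have k : ∀ {a}, Cs (𝓡 4) 2 univ a → ip (𝓡 4) O z a = l * ip (𝓡 4) O e a := fun h => by
    rw [h.ip_coh hO.ori hz.cl.sm (ce.cl.smul l).sm x, ip_smul]
  rw [k (hz.mono (subset_univ _)), ip_comm ce.cl.dg, k ce, k ((cs_g hθ hg).mono (subset_univ _)), ee,
    ip_eg hO hσ hτ he hθ hg]
  exact ⟨by field_simp, rfl⟩

end ms

theorem iso_of {Z : W4} (φ : PartialDiffeomorph (𝓡 4) Z.X.P.I (X T (wd wZ)) Z.M ∞) (hO : OX T (wd wZ) o O)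
    (hσ : σ = 1 ∨ σ = -1) (hτ : Pos Rod53.IT IN T.τ {z | z.2 ≠ 0} ((σ : ℝ) • oT) o)
    (he : WF T wZ (1 / 10) 0 mE (fun _ => 0) e) (hθ : Ang T θ (0, 1)) (hg : WF T wZ (1 / 10) (ang IN θ) mG nG g)
    (hβ : β ≤ -2) (hp : Pos (𝓡 4) Z.X.P.I φ φ.source O Z.o) (hs : φ.source = T.time _ ⁻¹' Ioi β) {z : Z.Fm}
    (hz : Cs Z.X.P.I 2 φ.target z) : Z.sq z = (σ * (2 * π) ^ 2)⁻¹ * ip Z.X.P.I Z.o z (psh φ e) ^ 2 ∧
      ip Z.X.P.I Z.o z (psh φ e) = ip Z.X.P.I Z.o z (psh φ g) := by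
  borelize E4 (X T (wd wZ))
  have c : Cs (𝓡 4) 2 φ.source (psh φ.symm z) := (hz.psh φ.symm subset_rfl).mono
    (by rintro _ ⟨x, hx, rfl⟩; exact φ.map_target hx)
  have k : ∀ {a}, Cs (𝓡 4) 2 φ.source a → ip Z.X.P.I Z.o z (psh φ a) = ip (𝓡 4) O (psh φ.symm z) a := fun h =>
    (h.ip_psh φ subset_rfl Z.ori hO.ori (same_symm hp) _).trans
      (h.ip_congr fun y hy => (indicator_of_mem hy _).symm)
  have s : T.time _ ⁻¹' Ioi (-2) ⊆ φ.source := hs ▸ preimage_mono (Ioi_subset_Ioi hβ)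
  have u : psh φ (psh φ.symm z) = z := funext fun x => by
    by_cases hx : x ∈ φ.target
    · exact (indicator_of_mem hx _).trans (pm_psh φ.symm hx z)
    · exact (indicator_of_notMem hx _).trans (hz.eq_zero hx).symm
  rw [k ((cs_e he).mono s), k ((cs_g hθ hg).mono s), show Z.sq z = _ from
    (congrArg (ip Z.X.P.I Z.o z) u).symm.trans (k c)]
  exact iso_rod hO hσ hτ he hθ hg hβ (hs ▸ c)

/-- **NV-ISO** -/
theorem isoStmt : Nv5.IsoStmt := by
  rintro τ Y f N Z J ϑ _ _ hϑ ⟨e, he, rfl⟩ ⟨g, hg, rfl⟩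
  have := τ.T.secondCountable isZ.loc
  exact ⟨_, fun z hz => iso_of J.r.φ (oX_spec isZ.loc τ.ori) τ.hσ τ.pos he hϑ hg (N.lt.le.trans N.hb)
    (J.pr.mono J.r.src.le) J.r.src (hz.mono J.r.tgt.ge)⟩

end Crest.Agent.X212.Rob53
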