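import Crest.Agent.X212.Rob53.Pz
import Crest.Agent.X212.Rad94.Defs

/-!
# Row 212, GEO engine (helper53): `b₁ = 0` and `b⁺ ≤ 1` in components
-/

set_option autoImplicit false
set_option linter.unusedSectionVars false
noncomputable section
open scoped Manifold ContDiff Topology InnerProductSpace
open MeasureTheory Set Function Filter

namespace Crest.Agent.X212.Rob53.Mb
open An Cyf70 Sw Flo2 Geo28 Met55 Sw87.Mo
open Crest.Agent.R208 Crest.Agent.R208.F Crest.Agent.R208.FI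
open Int54 (oc volF rat tp)
open Dr59 (HZ Cs Cl Dg dM ne0)
open Num57 (k1 k2 fm1 fm2 th tl e1 e3 e4)
open Rad94 (S1 d1 wd Cc)

/-- a three-form in dimension four is seen by one-forms -/
theorem zero3 {E : Type} [NormedAddCommGroup E] [NormedSpace ℝ E] [FiniteDimensional ℝ E]
    (h4 : Module.finrank ℝ E = 4) {c : Ext E} (hc : IsDeg 3 c)
    (h : ∀ l : Module.Dual ℝ E, tp E (io l * c) = 0) : c = 0 := by
  refine T.ext_evA fun q => ?_
  by_cases hq : q = 3
  · subst hq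
    ext v
    obtain ⟨l, l0, hl⟩ := (Submodule.span ℝ (range v)).exists_le_ker_of_lt_top
      (Submodule.lt_top_of_finrank_lt_finrank ((finrank_range_le_card v).trans_lt (by simp [h4])))
    obtain ⟨s, hs⟩ := DFunLike.ne_iff.1 l0
    have k : ∀ i, l (v i) = 0 := fun i => hl (Submodule.subset_span ⟨i, rfl⟩)
    obtain ⟨r, hr⟩ := Num57.e4_tp h4 s (v 0) (v 1) (v 2)
    have := hr (io l * c)
    rw [h, Num57.e4_io_mul, k, k, k] at this
    have e : v = ![v 0, v 1, v 2] := by funext j; fin_cases j <;> rfl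
    rw [e, map_zero]
    exact (mul_eq_zero.1 (show l s * e3 c (v 0) (v 1) (v 2) = 0 by simpa using this)).resolve_left hs
  · rw [hc q hq, map_zero]

section frm
variable {X : M4} {ι : Type} [Fintype ι] (F : Fr X.I X.M ι)

/-- weakly closed forms are closed -/
theorem cl_of_weak {y : X.Fm} (hs : Dr59.Sm X.I univ y) (hd : Dg 2 univ y) (hc : HasCompactSupport y)
    (h : ∀ a : ι → X.M → ℝ, (∀ i, Sm X.I (a i)) → (∀ i, HasCompactSupport (a i)) →
      X.ip (dM X.I (fm1 F a)) y = 0) : Cs X.I 2 univ y := by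
  refine ⟨⟨hs, hd, fun x _ => ?_⟩, hc, subset_univ _⟩
  have s1 : ∀ i, Sm X.I (rat X.o (th F i * dM X.I y)) := fun i =>
    X.ori.contMDiff_rat fun x => (Num57.smAt_th F i x).mul (hs.dM x trivial)
  have c0 : HasCompactSupport (dM X.I y) := HasCompactSupport.intro hc fun _ => Int54.dM_eq_zero
  have c1 : ∀ i, HasCompactSupport (rat X.o (th F i * dM X.I y)) := fun i => Int54.hcs_rat c0.mul_left
  have k := h _ s1 c1
  set a := fm1 F fun i => rat X.o (th F i * dM X.I y) with ha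
  have sa : ∀ x, Dr59.SmAt X.I a x := fun x => Num57.smAt_fm1 F fun i => s1 i x
  have e : dM X.I a * y = dM X.I (a * y) + a * dM X.I y := funext fun x => by
    rw [Pi.add_apply, Dr59.dM_mul ne0 (sa x) (hs x trivial), Dr59.inv_of_deg (show IsDeg 1 (a x) from Num57.deg_fm1 F _ x)]
    simp
  have i : ∀ {f : X.Fm}, (∀ x, Dr59.SmAt X.I f x) → HasCompactSupport f → Int54.IntOn X.I X.o f univ :=
    fun h h' => X.ori.intOn_of_hcs (fun x => (h x).of_le (by simp)) h' univ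
  have sm : ∀ x, Dr59.SmAt X.I (a * y) x := fun x => (sa x).mul (hs x trivial)
  rw [M4.ip, Dr59.ip, e, Int54.integ_add (i (fun x => (sm x).dM) (HasCompactSupport.intro hc.mul_left
    fun _ => Int54.dM_eq_zero)) (i (fun x => (sa x).mul (hs.dM x trivial)) c0.mul_left),
    Int54.stokes_sm X.ori sm hc.mul_left, zero_add, Int54.integ] at k
  have e' : rat X.o (a * dM X.I y) = fun x => ∑ i, rat X.o (th F i * dM X.I y) x ^ 2 := by
    rw [ha, fm1, Finset.sum_mul, Int54.rat_sum]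
    funext x
    simp only [smul_mul_assoc, Int54.rat_fsmul, Finset.sum_apply, Pi.mul_apply, _root_.sq]
  have := X.ori.openPos
  have := X.ori.finCpt
  have cn : Continuous fun x => ∑ i, rat X.o (th F i * dM X.I y) x ^ 2 :=
    continuous_finsetSum _ fun i _ => (s1 i).continuous.pow 2
  have z := congrFun ((cn.ae_eq_iff_eq _ continuous_zero).1 ((integral_eq_zero_iff_of_nonneg
    (fun x => Finset.sum_nonneg fun _ _ => sq_nonneg _) (e' ▸ (i (fun x => (sa x).mul
      (hs.dM x trivial)) c0.mul_left).integrable)).1 (e' ▸ k))) x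
  refine zero3 X.X.dim (hd.dM isOpen_univ x trivial) fun l => ?_
  rw [(Num57.cf F x).eq1 (Dr59.isDeg_io l), Finset.sum_mul, map_sum]
  refine Finset.sum_eq_zero fun i _ => ?_
  have := (Finset.sum_eq_zero_iff_of_nonneg fun _ _ => sq_nonneg _).1 z i (Finset.mem_univ _)
  rw [smul_mul_assoc, map_smul, show tp _ (io (tl F x i) * dM X.I y x) = 0 from
    (div_eq_zero_iff.1 (pow_eq_zero_iff two_ne_zero |>.1 this)).resolve_right (X.ori.ne x), smul_zero]

end frm

theorem quad0 {n : ℕ} {g : Fin n → ℝ} (h : Nat.card {a // 0 < g a} = 0) (v : Fin n → ℝ) :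
    ∑ i, v i * v i / g i ≤ 0 := Finset.sum_nonpos fun i _ => div_nonpos_of_nonneg_of_nonpos
  (mul_self_nonneg _) (not_lt.1 fun k => (Nat.card_eq_zero.1 h).elim (fun e => e.false ⟨i, k⟩)
    fun _ => not_finite {a // 0 < g a})

theorem quad1 {n : ℕ} {g : Fin n → ℝ} (h : Nat.card {a // 0 < g a} = 1) {u v : Fin n → ℝ}
    (hu : 0 < ∑ i, u i * u i / g i) (huv : ∑ i, v i * u i / g i = 0) : ∑ i, v i * v i / g i ≤ 0 := by
  obtain ⟨⟨p, hp⟩, e⟩ := Nat.card_eq_one_iff_exists.1 h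
  have k : ∀ w : Fin n → ℝ, w p = 0 → ∑ i, w i * w i / g i ≤ 0 := fun w hw =>
    Finset.sum_nonpos fun i _ => by
      by_cases k : 0 < g i
      · rw [show i = p from congrArg Subtype.val (e ⟨i, k⟩), hw]; simp
      · exact div_nonpos_of_nonneg_of_nonpos (mul_self_nonneg _) (not_lt.1 k)
  have h0 : u p ≠ 0 := fun e => (k u e).not_gt hu
  have h1 := k (fun i => u p * v i - v p * u i) (by ring)
  have h2 : ∑ i, (u p * v i - v p * u i) * (u p * v i - v p * u i) / g i = u p ^ 2 * ∑ i, v i * v i / g i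
      - 2 * u p * v p * ∑ i, v i * u i / g i + v p ^ 2 * ∑ i, u i * u i / g i := by
    simp only [Finset.mul_sum, ← Finset.sum_sub_distrib, ← Finset.sum_add_distrib]
    exact Finset.sum_congr rfl fun i _ => by ring
  rw [h2, huv] at h1
  exact le_of_mul_le_mul_left (a := u p ^ 2) (by nlinarith [mul_nonneg (sq_nonneg (v p)) hu.le])
    (by positivity)

theorem ip_neg0 {X : M4} (h : X.Bp 0) {v : X.Fm} (hv : Cs X.I 2 univ v) : X.ip v v ≤ 0 := by
  obtain ⟨n, e, g, Z, k, h⟩ := h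
  exact (k.diag hv.cl hv).trans_le (quad0 h _)

theorem ip_neg1 {X : M4} (h : X.Bp 1) {u v : X.Fm} (hu : Cs X.I 2 univ u) (hv : Cs X.I 2 univ v)
    (h1 : 0 < X.ip u u) (h2 : X.ip v u = 0) : X.ip v v ≤ 0 := by
  obtain ⟨n, e, g, Z, k, h⟩ := h
  exact (k.diag hv.cl hv).trans_le (quad1 h (h1.trans_eq (k.diag hu.cl hu))
    ((k.diag hv.cl hu).symm.trans h2))

section bg
variable {κ lam ν : Type} [Fintype κ] [Fintype lam] [Fintype ν] [DecidableEq ν] {X : M4} {nc : ℕ}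
  {b : Bg X.I X.M κ lam ν nc}

variable (b) in
/-- the frame is adapted to the orientation -/
structure Ad : Prop where
  vol : b.F.IsVol
  o : b.B.o = oc b.F.e (volF X.o b.F.e)
  P : b.F.P = b.B.P

variable (b) in
/-- the two-form with given components -/
def fo (η : X.M → F2 κ) : X.Fm := fm2 b.F fun i j x => η x (i, j)

theorem cmp_k (f : X.Fm) (x : X.M) (s : Option κ × Option κ) :
    Sw87.Mo.cmp b.F.e f x s = k2 b.F f s.1 s.2 x :=
  congrArg (evA _ 2 (f x)) (funext fun i => by fin_cases i <;> rfl)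

theorem k1_fm (h : Ad b) {a : Rad94.Fo X.X κ} (ha : S1 b a) : k1 b.F (fm1 b.F a) = a :=
  funext₂ fun k y => (Num57.k1_fm1 b.F a k y).trans (h.P ▸ ha.2 k y)

theorem d1_eq (h : Ad b) {a : Rad94.Fo X.X κ} (ha : S1 b a) :
    d1 b a = Sw87.Mo.cmp b.F.e (dM X.I (fm1 b.F a)) := funext fun x => PiLp.ext fun s => by
  rw [cmp_k, Num57.k2_dM_fm1 b.F fun k => ha.1 k x, k1_fm h ha]
  rfl

/-- **B2** -/
theorem h1_ex (h : Ad b) (hz : HZ X.I 1 (univ : Set X.M)) (γ : Rad94.Fo X.X κ) (hγ : S1 b γ)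
    (h0 : d1 b γ = 0) : ∃ f, Sm X.I f ∧ ∀ i, γ i = b.F.D i f := by
  have d : Dg 1 univ (fm1 b.F γ) := fun y _ => Num57.deg_fm1 b.F γ y
  obtain ⟨p, h1, h2, h3⟩ := (hz _ ⟨fun y _ => Num57.smAt_fm1 b.F fun k => hγ.1 k y, d, fun y _ => by
    rw [← Num57.fm2_k2 b.F (d.dM isOpen_univ y trivial), Num57.fm2_apply]
    refine Finset.sum_eq_zero fun i _ => Finset.sum_eq_zero fun j _ => ?_
    rw [← cmp_k (b := b) _ y (i, j), ← d1_eq h hγ, h0]
    simp⟩).deg (k := 0) d
  have s : Sm X.I fun y => evA X.X.E 0 (p y) ![] := fun y => Num57.sa_e0 (h1 y trivial)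
  refine ⟨_, s, fun k => funext fun y => ?_⟩
  rw [← Num57.k1_df, ← k1_fm h hγ, k1, k1, ← h3 y trivial, ← Dr59.dM_fn ((s y).mdifferentiableAt ne0)]
  exact congrArg (fun b => e1 (dM X.I b y) _) (funext fun x =>
    (Dr59.eq_alg_of_deg (h2 x trivial)).trans (congrArg
      (fun v => algebraMap ℝ _ (evA X.X.E 0 (p x) v)) (Subsingleton.elim _ _)))

/-- the pairing in components -/
theorem wd_cmp (h : Ad b) {y : X.Fm} (hy : Dg 2 univ y) (f : X.Fm) :
    wd b (Sw87.Mo.cmp b.F.e y) (Sw87.Mo.cmp b.F.e f) = 2 * X.ip y f := by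
  rw [M4.ip, Dr59.ip, X.ori.integ_vol (F := b.F.toPre) h.vol, ← integral_const_mul]
  refine integral_congr_ae (.of_forall fun x => ?_)
  have hv := X.ori.unit_vol b.F.toPre
  have vo : Num57.Vo (fun i j => b.F.P i j x) fun i j k l => oc b.F.e (volF X.o b.F.e) i j k l x :=
    ⟨fun _ _ _ _ => Int54.oc_12 _ _ _ _ x, fun _ _ _ _ => Int54.oc_23 _ _ _ _ x,
      fun _ _ _ _ => Int54.oc_34 _ _ _ _ x, fun a b c d => Int54.oc_P a b c d x, hv.oc_nm x X.X.dim⟩
  have k := vo.ph_mul (Num57.cf b.F x) (hy x trivial) (f x)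
  have e : rat (volF X.o b.F.e) (y * f) x = _ := (hv.rat_oc x X.X.dim _).trans (by
    simp only [Int54.oc_apply (v := y * f)]; exact k)
  show ⟪_, idx (b.B.st x) _ _⟫_ℝ = 2 * rat (volF X.o b.F.e) (y * f) x
  simp only [e, PiLp.inner_apply, Wz78.idx_apply, Base.st, h.o, cmp_k, Fintype.sum_prod_type,
    ContinuousLinearMap.id_apply, smul_eq_mul, Finset.mul_sum, k2, RCLike.inner_apply, conj_trivial,
    Finset.sum_mul]
  refine Finset.sum_congr rfl fun a _ => Finset.sum_congr rfl fun b _ =>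
    Finset.sum_congr rfl fun c _ => Finset.sum_congr rfl fun d _ => by ring

theorem a2_cmp (h : Ad b) (f : X.Fm) (x : X.M) : idx (b.B.a2 x) (ContinuousLinearMap.id ℝ ℝ)
    (Sw87.Mo.cmp b.F.e f x) = Sw87.Mo.cmp b.F.e f x := PiLp.ext fun s => by
  have k : ∀ i j, ∑ a, ∑ c, b.F.P i a x * b.F.P j c x * k2 b.F f a c x = k2 b.F f i j x := fun i j => by
    rw [← Num57.k2_P b.F f i j x]
    refine Finset.sum_congr rfl fun a _ => ?_
    rw [show k2 b.F f a j x = _ from ((Num57.cf b.F x).p2' _ _ _).symm, Finset.mul_sum]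
    exact Finset.sum_congr rfl fun c _ => mul_assoc _ _ _
  have := k s.2 s.1
  rw [Num57.k2_swap, ← k] at this
  simp only [Wz78.idx_apply, Base.a2, cmp_k, Fintype.sum_prod_type, ContinuousLinearMap.id_apply,
    smul_eq_mul, ← h.P, sub_div, sub_mul, Finset.sum_sub_distrib, div_mul_eq_mul_div,
    ← Finset.sum_div, mul_comm (b.F.P s.1 _ x) (b.F.P s.2 _ x), this]
  simp only [mul_comm (b.F.P s.2 _ x) (b.F.P s.1 _ x), k]
  ring

theorem cmp_fo (h : Ad b) {η : X.M → F2 κ}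
    (hη : ∀ x, idx (b.B.a2 x) (ContinuousLinearMap.id ℝ ℝ) (η x) = η x) :
    Sw87.Mo.cmp b.F.e (fo b η) = η := funext fun x => PiLp.ext fun s => by
  have k : ∀ i j, η x (i, j) = ∑ t : Option κ × Option κ,
      (b.F.P i t.1 x * b.F.P j t.2 x - b.F.P i t.2 x * b.F.P j t.1 x) / 2 * η x t := fun i j => by
    rw [← hη x, Wz78.idx_apply, hη x, h.P]
    rfl
  rw [cmp_k, fo, Num57.k2_fm2 b.F (fun i j => ?_) fun i j => ?_]
  · rw [k i j, k j i, ← Finset.sum_neg_distrib]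
    exact Finset.sum_congr rfl fun t _ => by ring
  · simp only [fun a => k a j, Finset.mul_sum]
    rw [Finset.sum_comm]
    refine Finset.sum_congr rfl fun t _ => ?_
    rw [← (Wz78.frPr b.F x).idem i t.1, ← (Wz78.frPr b.F x).idem i t.2, Finset.sum_mul, Finset.sum_mul,
      ← Finset.sum_sub_distrib, Finset.sum_div, Finset.sum_mul]
    exact Finset.sum_congr rfl fun a _ => by ring

/-- weakly closed components are those of a closed form -/
theorem cs_fo (h : Ad b) {η : X.M → F2 κ} (hη : Cc b η) : Cs X.I 2 univ (fo b η) := by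
  refine cl_of_weak b.F (fun x _ => Num57.smAt_fm2 b.F fun i j =>
      (PiLp.proj (𝕜 := ℝ) 2 (fun _ => ℝ) (i, j)).contDiff.contMDiff.contMDiffAt.comp x (hη.sm x))
    (fun x _ => Num57.deg_fm2 _ _ x) (hη.cpt.mono fun x hx e => hx ?_) fun a h1 h2 => ?_
  · simp [fo, Num57.fm2_apply, e]
  have s : ∀ x, Dr59.SmAt X.I (fm1 b.F a) x := fun x => Num57.smAt_fm1 b.F fun i => h1 i x
  have d : Dg 1 univ (fm1 b.F a) := fun y _ => Num57.deg_fm1 b.F a y
  have k : S1 b (k1 b.F (fm1 b.F a)) :=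
    ⟨fun i x => Num57.sa_k1 b.F (s x) i, fun i x => h.P ▸ Num57.k1_P b.F _ i x⟩
  have := hη.cl _ k fun i => by
    rw [show k1 b.F (fm1 b.F a) i = ∑ j, b.F.P i j * a j from funext fun x => by
      simp [Num57.k1_fm1]]
    exact HasCompactSupport.finset_sum fun j _ => (h2 j).mul_left
  rw [d1_eq h k, show fm1 b.F (k1 b.F (fm1 b.F a)) = fm1 b.F a from
    funext fun x => Num57.fm1_k1 _ (d x trivial), ← cmp_fo h hη.a2, wd_cmp h (d.dM isOpen_univ)] at this
  linarith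

theorem wd_fo (h : Ad b) {η η' : X.M → F2 κ} (hη : Cc b η) (hη' : Cc b η') :
    wd b η η' = 2 * X.ip (fo b η) (fo b η') := by
  rw [← wd_cmp h (cs_fo h hη).cl.dg, cmp_fo h hη.a2, cmp_fo h hη'.a2]

/-- closed forms have weakly closed components -/
theorem cc_cmp (h : Ad b) {y : X.Fm} (hy : Cs X.I 2 univ y) : Cc b (Sw87.Mo.cmp b.F.e y) := by
  refine ⟨fun x => (PiLp.continuousLinearEquiv 2 ℝ fun _ : Option κ × Option κ =>
    ℝ).symm.contDiff.contMDiff.contMDiffAt.comp x (f := fun z s => Sw87.Mo.cmp b.F.e y z s)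
      (contMDiffAt_pi_space.2 fun s => ?_), hy.hc.mono fun x hx e => hx (PiLp.ext fun s => ?_),
    a2_cmp h y, fun a h1 _ => ?_⟩
  · simpa only [cmp_k] using Num57.sa_k2 b.F (hy.cl.sm x trivial) s.1 s.2
  · rw [cmp_k, k2, e, Num57.e2_zero]; rfl
  · have d : Dg 1 univ (fm1 b.F a) := fun y _ => Num57.deg_fm1 b.F a y
    rw [d1_eq h h1, wd_cmp h (d.dM isOpen_univ), M4.ip, hy.ip_ex X.ori
      (Dr59.ex_dM fun x _ => Num57.smAt_fm1 b.F fun i => h1.1 i x), mul_zero]

/-- **B3** -/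
theorem neg0 (h : Ad b) (hb : X.Bp 0) {η : X.M → F2 κ} (hη : Cc b η) : wd b η η ≤ 0 := by
  rw [wd_fo h hη hη]
  linarith [ip_neg0 hb (cs_fo h hη)]

/-- **B3'** -/
theorem neg1 (h : Ad b) (hb : X.Bp 1) {u v : X.M → F2 κ} (hu : Cc b u) (hv : Cc b v)
    (h1 : 0 < wd b u u) (h2 : wd b v u = 0) : wd b v v ≤ 0 := by
  rw [wd_fo h hu hu] at h1
  rw [wd_fo h hv hu] at h2
  rw [wd_fo h hv hv]
  linarith [ip_neg1 hb (cs_fo h hu) (cs_fo h hv) (by linarith) (by linarith)]

end bg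

/-- the backgrounds of a model are adapted -/
theorem ad_bg {κ : Type} [Fintype κ] [DecidableEq κ] {μ : Type} [Fintype μ] [DecidableEq μ] {X : M4}
    {k n : ℕ} {τ : MT κ X} {β : MB τ k} (c : MC μ β) (t : Tk k) (v : τ.N → ℝ)
    (ct : Fin n → Cut X.M κ (μ ⊕ μ)) : Ad (c.bg t v ct) := ⟨rFr_vol _ _, (β.o t).symm, Pz.F_P⟩

end Crest.Agent.X212.Rob53.Mb
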