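import Crest.Agent.X212.Rob53.Mb
import Crest.Agent.X212.Sw87.MoE
import Crest.Agent.X212.Num57.Cnn
import Crest.Agent.X212.Nvg56.Cn

/-!
# Row 212, GEO engine, leaf M-TP (helper53): the topological degree of a model
-/

set_option autoImplicit false
set_option linter.unusedSectionVars false
noncomputable section
open scoped Manifold ContDiff Topology InnerProductSpace
open MeasureTheory Set Function Filter

namespace Crest.Agent.X212.Rob53.Mb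
open An Cyf70 Sw Flo2 Geo28 Met55 Sw87.Mo
open Int54 (oc volF SameOn)
open Bor5.T (Cur)
open Dr59 (HZ Lat Cs Ex)

section bg
variable {κ lam ν : Type} [Fintype κ] [Fintype lam] [Fintype ν] [DecidableEq ν] {X : M4} {nc : ℕ}
  {b : Bg X.I X.M κ lam ν nc}

theorem ov_ori (h : Ad b) : Int54.Ori X.I (Num57.vol b.F b.B.o) := h.o ▸ Num57.ori_vol b.F X.X.dim
  (fun a c d e => Int54.oc_sm a c d e b.F.toPre (X.ori.vol b.F.toPre).sm)
  (Num57.vo_oc b.F X.X.dim (X.ori.unit_vol b.F.toPre))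

theorem ov_same (h : Ad b) : SameOn (Num57.vol b.F b.B.o) X.o univ := h.o ▸
  (Num57.sameOn_vol_oc b.F X.X.dim (X.ori.unit_vol b.F.toPre)).trans
    (X.ori.sameOn_volF (pre_sp b.F.toPre) _).symm

variable (b) in
/-- the degree read off from the background -/
def Dgr (x : ℚ) : Prop := ∃ (n : ℕ) (e : Fin n → X.Fm) (g : Fin n → ℝ) (c : X.Fm),
  Lat X.I (Num57.vol b.F b.B.o) univ univ e (Matrix.diagonal g) ∧ Cs X.I 2 univ c ∧
    Ex X.I univ (c - Num57.fm2 b.F fun i j x => 2 * b.fc ⟨0, 0⟩ x (i, j)) ∧ 4 * (x : ℝ) =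
      Dr59.ip X.I (Num57.vol b.F b.B.o) c c / (4 * Real.pi ^ 2) - 2 * n -
        3 * ∑ a, (SignType.sign (g a) : ℝ)

theorem dgr_of (h : Ad b) {d : X.L} (hc : Cur d (Num57.fm2 b.F fun i j x => 2 * b.fc ⟨0, 0⟩ x (i, j)))
    {x : ℚ} (hx : X.Deg d x) : Dgr b x := by
  obtain ⟨n, e, g, Z, f, k1, k2, k3, k4⟩ := hx
  have := Sob92.scs (I := X.I) (M := X.M)
  obtain ⟨p, b1, -, b3⟩ := Gm56.cur_ex hc k3
  refine ⟨n, e, g, f, (k1.mono (subset_univ _) subset_rfl).of_same (ov_ori h) (ov_same h), k2,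
    ⟨p, b1, fun x _ => by rw [b3, add_sub_cancel_left]⟩, ?_⟩
  rw [k2.ip_ori (ov_ori h) X.ori (ov_same h)]
  exact k4

end bg

section
variable {κ : Type} [Fintype κ] [DecidableEq κ] {μ : Type} [Fintype μ] [DecidableEq μ]
  {X : M4} {k : ℕ} {τ : MT κ X} {β : MB τ k} (c : MC μ β) {d : X.L}

theorem cur_cf (h : c.Cl d) (t : Tk k) :
    Cur d (Num57.fm2 (c.P t).bg.F fun i j x => 2 * (c.P t).bg.fc ⟨0, 0⟩ x (i, j)) := by
  have := Sob92.scs (I := X.I) (M := X.M)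
  have r : Gm56.Rp (β.e t) c.m d := Gm56.Rp.fam β.sm β.sp β.P h
  obtain ⟨f, h1, h2⟩ := Gm56.cur_fc (Pz.bg_ok (t := t) c (Pz.ct_ok c _ _)) rfl r (c := ⟨0, 0⟩)
    (fun _ => contMDiff_const) fun _ _ => by simp
  suffices e : (Num57.fm2 (c.P t).bg.F fun i j x => 2 * (c.P t).bg.fc ⟨0, 0⟩ x (i, j)) = f from e ▸ h1
  funext x
  rw [← Num57.fm2_k2 (β.F t) ((Nvg56.cur_cl h1).dg x trivial)]
  refine congrFun (congrArg (Num57.fm2 (β.F t)) ?_) x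
  funext a b y
  exact (h2 y (a, b)).symm

theorem dgr_c (h : c.Cl d) {x : ℚ} (hx : X.Deg d x) (t : Tk k) : Dgr (c.P t).bg x :=
  dgr_of (ad_bg c _ _ _) (cur_cf c h t) hx

theorem qh_of {e : ET κ} {A : Bor5.T.Q3} (h : e.A = A.toO3) :
    HZ e.A.Y.I 1 (univ : Set e.A.Y.M) ∧ HZ e.A.Y.I 2 (univ : Set e.A.Y.M) := h ▸ ⟨A.h1, A.h2⟩

end

/-- **M-TP**, unfolded -/
theorem tp_of {mk : Mk κ0 L0 ν0} {X : M4} {τ : MT κ0 X} {k : ℕ} {β : MB τ k} (c : MC μ0 β) {d : X.L}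
    {x : ℚ} (h : Cb mk c.toMM) (hd : c.Cl d) (hx : X.Deg d x) : ∃ i j, τ.pin = some i ∧
      τ.pout = some j ∧ (∀ l ∈ ({i, j} : Set τ.N), HZ (τ.nb l).e.A.Y.I 1 (univ : Set (τ.nb l).e.A.Y.M) ∧
        HZ (τ.nb l).e.A.Y.I 2 (univ : Set (τ.nb l).e.A.Y.M)) ∧ Dgr (c.P 0).bg x := by
  obtain ⟨i, hi, -⟩ := h.pin
  obtain ⟨j, hj, -⟩ := h.pout
  refine ⟨i, j, hi, hj, ?_, dgr_c c hd hx 0⟩
  rintro l (rfl | rfl)
  · exact qh_of (h.qh _ (by rw [(τ.inn _).2 hi]; simp)).choose_spec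
  · exact qh_of (h.qh _ (by rw [(τ.out _).2 (.inl hj)]; simp)).choose_spec

end Crest.Agent.X212.Rob53.Mb
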