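import Crest.Agent.X212.Rob53.Pz
import Crest.Agent.X212.Nv5.Cyl
import Crest.Agent.X212.Sw87.MoE

/-!
# Row 212, GEO engine, leaf M-U (helper53), part A: the product model of a cylinder
-/

set_option autoImplicit false
set_option linter.unusedSectionVars false
noncomputable section
open scoped Manifold ContDiff Topology InnerProductSpace
open MeasureTheory Set Function Filter

namespace Crest.Agent.X212.Rob53.Mu
open An Cyf70 Sw Flo2 Geo28 Met55 Sw87.Mo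
open Bor5.T (O3 Pb)
open Orx52 (pr oR Pos oriOn ori_oR)
open Int54 (oc volF)
open Line51 (iL)
open Lab56 (C8 Cls)
open Gm56 (Rp)
open Pj41 (FRel)

variable {κ : Type} [Fintype κ] [DecidableEq κ] {X : M4}

/-! ### the chart -/

/-- the change of time -/
def gH : ℝ ≃ₜ ℝ := (Homeomorph.addRight 2).trans ((stH 6).trans (Homeomorph.addRight (-4)))

theorem gH_der (t : ℝ) : HasDerivAt gH (sd 6 (t + 2)) t :=
  ((st_der 6 (t + 2)).comp_add_const t 2).add_const (-4)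

theorem gH_lo {t : ℝ} (h : t < -1 + 1 / 2) : gH t = t - 2 := by
  show st 6 (t + 2) + -4 = _
  rw [st_lo _ (by linarith)]; ring

theorem gH_hi {t : ℝ} (h : 1 - 1 / 2 < t) : gH t = t + 2 := by
  show st 6 (t + 2) + -4 = _
  rw [st_hi _ (by linarith), len_hi (by norm_num)]; ring

/-- the same as a diffeomorphism -/
def gD : ℝ ≃ₘ^∞⟮𝓘(ℝ, ℝ), 𝓘(ℝ, ℝ)⟯ ℝ where
  toEquiv := gH.toEquiv
  contMDiff_toFun := (((st_sm 6).comp (contDiff_id.add contDiff_const)).add contDiff_const).contMDiff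
  contMDiff_invFun := (((stH_sm 6).comp (contDiff_id.add contDiff_const)).add contDiff_const).contMDiff

theorem pos_g : Pos 𝓘(ℝ, ℝ) 𝓘(ℝ, ℝ) gH univ oR oR :=
  Orx52.pos_of_eq (oriOn ori_oR _) (c := fun t => sd 6 (t + 2)) (fun _ _ => sd_pos _ _) fun x _ => by
    rw [Orx52.pm_oR (gH_der x).differentiableAt.mdifferentiableAt, Orx52.oR_eq, ← map_smul, Dr59.df]
    refine congrArg _ (LinearMap.ext_ring ?_)
    simp [Dr59.mf, (gH_der x).deriv]

/-- all bands are ends of the cylinder `φ` -/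
structure CY (e : ET κ) (τ : MT κ X) where
  φ : (e.A.Y.M × ℝ) ≃ₘ^∞⟮IC e.A.Y.I, X.I⟯ X.M
  pos : Pos (IC e.A.Y.I) X.I φ univ (pr e.A.o oR) X.o
  nb : ∀ i, ∃ s n, τ.nb i = ⟨e, some s, n⟩ ∧ ∀ x ∈ univ ×ˢ Jm (some s) (1 / 2), n.k x = φ x

section rp
variable {A : O3} (φ : (A.Y.M × ℝ) ≃ₘ^∞⟮IY A, X.I⟯ X.M)

/-- the chart with the new time -/
def rp : (A.Y.M × ℝ) ≃ₘ^∞⟮IY A, X.I⟯ X.M := ((Diffeomorph.refl A.Y.I A.Y.M ∞).prodCongr gD).trans φ

theorem rp_apply (x : A.Y.M × ℝ) : rp φ x = φ (x.1, gH x.2) := rfl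

theorem pos_rp (h : Pos (IY A) X.I φ univ (pr A.o oR) X.o) :
    Pos (IY A) X.I (rp φ) univ (pr A.o oR) X.o :=
  have p : Pos (IY A) (IY A) (Prod.map id gH) univ (pr A.o oR) (pr A.o oR) :=
    ((Orx52.pos_id.2 (oriOn A.ori univ).same).prodMap pos_g (fun y _ => Cyl58.ld_id y)
      fun t _ => gD.isLocalDiffeomorph t).mono fun _ _ => ⟨trivial, trivial⟩
  have q : ∀ y, IsLocalDiffeomorphAt (IY A) (IY A) ∞ (Prod.map id gH) y := fun y =>
    ((Diffeomorph.refl A.Y.I A.Y.M ∞).prodCongr gD).isLocalDiffeomorph y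
  have r : Pos (IY A) X.I (φ ∘ Prod.map id gH) univ (pr A.o oR) X.o :=
    Pos.comp h p (fun y _ => φ.isLocalDiffeomorph y) (fun y _ => q y) (mapsTo_univ _ _)
  r

end rp

theorem ex_cy {A : O3} (g : EO κ (some A)) (T : Pm (some A) (some A) none) (hT : T.IsCyl) (τ : MT κ T.X)
    (h : OnP T τ g g ()) (he : ∀ i, (τ.nb i).s ≠ none) : ∃ C : CY g.et τ,
    (∀ d s, T.ki.Cl d s → Pb C.φ univ d (show Cls (IY A) univ from s)) ∧
      (∃ i, τ.pin = some i) ∧ (∃ i, τ.pout = some i) ∧ τ.p3 = none := by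
  obtain ⟨φ, h0, h1, h2⟩ := hT
  obtain ⟨i, hi, ki⟩ := Option.map_eq_some_iff.1 h.pin
  obtain ⟨j, hj, kj⟩ := Option.map_eq_some_iff.1 h.pout
  have h3 : τ.p3 = none := Option.map_eq_none_iff.1 h.p3
  have e1 : ∀ x ∈ univ ×ˢ Jm (some false) (1 / 2), Nc.k (A := A) T.ki x = rp φ x := fun x hx => by
    rw [rp_apply, gH_lo (jm_in.1 hx.2), h1 x.1 x.2 (by linarith [jm_in.1 hx.2])]
  have e2 : ∀ x ∈ univ ×ˢ Jm (some true) (1 / 2), Nc.k (A := A) T.ko x = rp φ x := fun x hx => by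
    rw [rp_apply, gH_hi (jm_out.1 hx.2), h2 x.1 x.2 (by linarith [jm_out.1 hx.2])]
  have a : Bor5.T.Ag atBot (Nc.k (A := A) T.ki) (rp φ) := ⟨0, (eventually_lt_atBot (-1 + 1 / 2)).mono
    fun t ht y => by rw [add_zero]; exact e1 _ ⟨trivial, jm_in.2 ht⟩⟩
  have b := Nv5.cl_iff (rp φ) T.ki isOpen_Iio ordConnected_Iio Rfl19.nd_bot Mv17.fat_bot
    (Iio_mem_atBot 0) a
  refine ⟨⟨rp φ, pos_rp φ h0, fun l => ?_⟩, fun d s => (b d s).1, ⟨i, hi⟩, ⟨j, hj⟩, h3⟩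
  obtain ⟨_ | _, hs⟩ := Option.ne_none_iff_exists'.1 (he l)
  · obtain rfl : i = l := Option.some.inj (hi.symm.trans ((τ.inn l).1 hs))
    exact ⟨false, _, ki, e1⟩
  · obtain rfl : j = l := Option.some.inj (hj.symm.trans (((τ.out l).1 hs).resolve_right (by simp [h3])))
    exact ⟨true, _, kj, e2⟩

namespace CY
variable {e : ET κ} {τ : MT κ X} (C : CY e τ)

/-! ### the frame -/

/-- the product frame -/
def fr (a : Option κ) : VF X.I X.M := pfv (IC e.A.Y.I) X.I C.φ (ce e.D.F.e a)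

theorem rel (a : Option κ) (x : e.A.Y.M × ℝ) :
    mfderiv (IC e.A.Y.I) X.I C.φ x (ce e.D.F.e a x) = C.fr a (C.φ x) := pfv_rel C.φ.injective _ x

theorem fat (x : X.M) : FAt C.fr x := C.φ.apply_symm_apply x ▸
  FAt.pfv (Cyl58.IsOE.of_diffeo C.φ) (Gm56.fr_fAt (cyl e.D.F) _)

include C in
theorem ne (i : τ.N) : (τ.nb i).s ≠ none := by
  obtain ⟨s, n, h, -⟩ := C.nb i
  simp [h]

include C in
theorem std (i : τ.N) : e.Std := by
  obtain ⟨s, n, h, -⟩ := C.nb i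
  have := τ.std i
  rwa [h] at this

theorem rl (i : τ.N) : (τ.nb i).Rl C.fr 2 (1 / 2) := by
  obtain ⟨s, n, h, k⟩ := C.nb i
  rw [h]
  intro a x hx
  have : (n.k : _ → X.M) =ᶠ[𝓝 x] C.φ :=
    eventually_of_mem ((isOpen_univ.prod (jm_open _ _)).mem_nhds hx) k
  show mfderiv (IC e.A.Y.I) X.I n.k x (e.nf 2 a x) = C.fr a (n.k x)
  rw [this.mfderiv_eq, e.nf_two le_rfl, k x hx]
  exact C.rel a x

/-- the family over a point -/
def β : MB τ 0 where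
  e _ := C.fr
  wl := Fin.elim0
  sm a _ x := VJ.of_fixed ((C.fat x).sm a)
  sp _ x := (C.fat x).sp
  P _ _ := rfl
  o _ := rfl
  inj c := c.elim0
  fin c := c.elim0
  lit t i _ := by
    rw [show τ.sw Fin.elim0 t i = 2 from if_neg (C.ne i)]
    exact C.rl i
  loc c := c.elim0
  ret _ := rfl

theorem gRel : Gm56.Rel (I' := IC e.A.Y.I) (ce e.D.F.e) C.fr C.φ.toHomeomorph.toOpenPartialHomeomorph :=
  ⟨C.φ.contMDiff.contMDiffOn, C.φ.symm.contMDiff.contMDiffOn, fun a y _ => C.rel a y⟩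

theorem fRel (t : Tk 0) : FRel (cyl e.D.F) (C.β.F t) C.φ univ :=
  ⟨isOpen_univ, fun x _ => C.φ.isLocalDiffeomorph x, fun a x _ => C.rel a x⟩

/-- the cylinder as a neck -/
def nk (hs : e.Std) (t : Tk 0) : Nd18.Nk e.D C.β.B (C.β.G t) where
  p := none
  q := none
  ψ := C.φ.toHomeomorph.toOpenPartialHomeomorph
  tm x := (C.φ.symm x).2
  len := by simp
  src := by simp [Nd18.Jv]
  tgt := by simp [Nd18.Jv]
  cont := continuous_snd.comp C.φ.symm.continuous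
  tm_ψ x _ := congrArg Prod.snd (C.φ.symm_apply_apply x)
  iso := iso_vol hs.ok.G.vol (rFr_vol _ _) C.gRel.sm C.gRel.sm' C.gRel.e
  P a b x _ := ((congrFun (congrFun (congrFun (Pz.F_P (t := t)) a) b) _).symm.trans
    ((C.fRel t).P trivial a b).symm).trans (by cases a <;> cases b <;> rfl)
  o a b c d x _ := (M.cf_rel (I := X.I) (J := IC e.A.Y.I) X.X.dim
    (by rw [Module.finrank_prod, e.A.Y.dim, Module.finrank_self]) (f := C.φ) (e' := ce e.D.F.e)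
    (o := X.o) (o' := pr e.A.o oR) (fun a => C.rel a x) (C.fat _).sp (pre_sp e.D.Z.toPre _)
    (mul_comm (_ : ℝ) _ ▸ C.pos _ trivial) ![a, b, c, d]).trans (hs.o a b c d x).symm
  l x _ := (hs.l x.1).symm
  il := hs.il.symm
  a a x _ := by
    show 0 = Nd18.ca e.D.a a x
    rw [hs.a]
    cases a <;> rfl

/-! ### the module -/

/-- the product module -/
theorem ex_mm (ec : EC ν0 e.eg) (cl : ec.L) (hs : StdT ⟨⟨_, ec⟩, cl⟩) {s : e.A.L}
    (hr : ERp e (ec.m cl) s) {d : X.L} (hd : Pb C.φ univ d (show Cls (IY e.A) univ from s)) :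
    ∃ M : MM μ0 τ, (∀ i, M.ty i = ⟨⟨_, ec⟩, cl⟩) ∧ Rp C.fr M.m d ∧
      ∀ x, M.m.re.p (C.φ x) = (ec.m cl).p x.1 ∧ ∀ a, M.m.re.ρ a (C.φ x) = (ec.m cl).ρ a x.1 := by
  obtain ⟨n, hn, r⟩ := hr
  let m := (Gm56.inl (Fin 6) (n.comp Prod.fst)).comp C.φ.symm
  have lit : ∀ x, m.re.p (C.φ x) = (ec.m cl).p x.1 ∧ ∀ a, m.re.ρ a (C.φ x) = (ec.m cl).ρ a x.1 :=
    fun x => by
      rw [hn]
      simp only [m, C8.re, C8.comp, Gm56.inl, C.φ.symm_apply_apply, implies_true, and_self]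
  have k := Gm56.on_inl (κ := Fin 6) r.on isOpen_univ
  have r' := r.of_ci k.1 k.2
  have o : m.On X.I (fP C.fr) univ := by
    have := C.gRel.on subset_rfl (fun y _ => r.fr y) k.1
    rwa [OpenPartialHomeomorph.image_source_eq_target] at this
  obtain ⟨d', h'⟩ := Gm56.rp_cls C.fat o
  obtain rfl : d' = d := Rfl19.pb_unique (Rfl19.pb_symm (φ := C.φ) (C.gRel.pb_of_le isOpen_univ
    subset_rfl h' r' fun x _ => ⟨congrArg (Gm56.inl (Fin 6) (n.comp Prod.fst)).p (C.φ.symm_apply_apply x),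
      congrArg (Gm56.inl (Fin 6) (n.comp Prod.fst)).r (C.φ.symm_apply_apply x)⟩)) (Rfl19.pb_symm hd)
  have key : ∀ i, ∃ (ec' : EC ν0 (τ.nb i).e.eg) (cl' : ec'.L),
      (⟨⟨_, ec'⟩, cl'⟩ : Ty κ L0 ν0) = ⟨⟨_, ec⟩, cl⟩ ∧ ∀ x ∈ (τ.nb i).V (1 / 2),
        m.re.p ((τ.nb i).k x) = (ec'.m cl').p x.1 ∧
          ∀ a, m.re.ρ a ((τ.nb i).k x) = (ec'.m cl').ρ a x.1 := fun i => by
    obtain ⟨s, n, h, k⟩ := C.nb i
    rw [h]
    exact ⟨ec, cl, rfl, fun x hx => ⟨(congrArg m.re.p (k x hx)).trans (lit x).1,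
      fun a => (congrArg (m.re.ρ a) (k x hx)).trans ((lit x).2 a)⟩⟩
  choose ec' cl' h1 h2 using key
  exact ⟨⟨ec', cl', fun i => h1 i ▸ hs, m, h2⟩, h1, h', lit⟩

end CY

/-! ### the scalar curvature -/

theorem scal_rel {Y Z : M.Mf 4} {ι : Type} [Fintype ι] {F : Fr Y.I Y.M ι} {F' : Fr Z.I Z.M ι}
    {ψ : Y.M → Z.M} (h : FRel F F' ψ univ) (x : Y.M) :
    Wz78.scal Y.I F.e F.c F.Gam x = Wz78.scal Z.I F'.e F'.c F'.Gam (ψ x) := by
  have c := fun y => h.c (x := y) trivial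
  have g := fun y => h.Gam_of (x := y) trivial (c y)
  have d := fun a b m l => h.D (x := x) trivial a (u := F.Gam b m l) (u' := F'.Gam b m l)
    (.of_forall fun y => g y b m l)
  simp only [Pre.D_def] at d
  simp only [Wz78.scal, Wz78.Rm, c, g, d]

end Crest.Agent.X212.Rob53.Mu
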