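import Crest.Agent.X212.Rob53.PzA
import Crest.Agent.X212.Gm56.Cur

/-!
# Row 212, GEO engine, leaf PZ (helper53): the pieces of a model are pieces
-/

set_option autoImplicit false
set_option linter.unusedSectionVars false
noncomputable section
open scoped Manifold ContDiff Topology InnerProductSpace
open MeasureTheory Set Function Filter

namespace Crest.Agent.X212.Rob53.Pz
open An Cyf70 Sw Flo2 Geo28 Met55 Sw87.Mo
open Nd18 (Jv)
open Int54 (oc volF)
open Line51 (iL)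
open Cht98 (Nck Jc Deep TOn BOn)

variable {κ : Type} [Fintype κ] [DecidableEq κ] {μ : Type} [Fintype μ] [DecidableEq μ]
  {X : M4} {k : ℕ} {τ : MT κ X} {β : MB τ k} {t : Tk k} {i : τ.N}

/-! ### geometry -/

theorem B_ok : β.B.OK X.I :=
  Int54.base_ok X.X.dim (X.ori.vol (β.F 0).toPre).sm (X.ori.unit_vol (β.F 0).toPre) contMDiff_const
    (fun _ _ _ => rfl) (fun _ => one_mul _) (fun _ => by
      show LinearMap.trace ℝ _ LinearMap.id = 2
      simp) Line51.iL_sq Line51.iL_skw fun _ => (mul_one _).trans (one_mul _).symm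

theorem G_ok : (β.G t).OK β.B :=
  ⟨F_P, rFr_vol _ _, ⟨fun _ _ => contMDiffAt_const, fun _ _ => by simp [MB.G]⟩,
    fun _ _ _ _ => by simp [MB.G], fun _ _ => by simp [MB.G], fun a x => by
      rw [show (β.G t).F.D a β.B.l x = 0 from congrFun (Sob92.dv_const _) x]
      simp [MB.G]⟩

/-- off a compact set one is deep in an end -/
theorem out_core {x : X.M} (hx : ¬∀ i, ((τ.nb i).s = some true → (τ.nb i).n.tm x ≤ 2) ∧
    ((τ.nb i).s = some false → -2 ≤ (τ.nb i).n.tm x)) : ∃ i : {i // (τ.nb i).s ≠ none},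
    x ∈ (τ.nb i).tm (β.v t i) ⁻¹' Jc (pa (τ.nb i).s) (qa (β.v t i) (τ.nb i).s) 1 := by
  obtain ⟨i, hi⟩ := not_forall.1 hx
  have key : ∀ s, (τ.nb i).s = some s → (τ.nb i).tm (β.v t i) x = (τ.nb i).n.tm x := fun s hs =>
    st_two (v_end (by simp [hs])).le _
  rcases not_and_or.1 hi with h | h <;> obtain ⟨h1, h2⟩ := Classical.not_imp.1 h <;>
    refine ⟨⟨i, by simp [h1]⟩, ?_⟩ <;> simp only [mem_preimage, key _ h1, h1] <;>
    simp only [Jc, pa, qa, mem_ofPred_eq, Option.mem_def, Option.some.injEq, forall_eq', reduceCtorEq,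
      false_imp_iff, implies_true, true_and, and_true] <;> linarith

theorem v_end' (h : (τ.nb i).s ≠ none) : 3 / 2 < β.v t i := by rw [v_end h]; norm_num

theorem tame : ∃ C, (β.F t).Tame C := by
  obtain ⟨C0, h0⟩ := TOn.compact (β.F t) X.X.dim.le (τ.cpt 2)
  have h1 : ∀ i : {i // (τ.nb i).s ≠ none}, ∃ C, Deep (β.F t)
      ((τ.nb i).tm (β.v t i) ⁻¹' Jc (pa (τ.nb i).s) (qa (β.v t i) (τ.nb i).s) 1) C := fun i =>
    let ⟨C, h⟩ := Cht98.deep_nck (τ.nb i).e.D.F (τ.nb i).e.A.Y.dim.le one_pos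
    ⟨C, h (nckF (by linarith [v_end' (β := β) (t := t) i.2]))⟩
  choose C hC using h1
  have h2 : ∀ n, 0 ≤ ∑ i, |C i n| := fun n => Finset.sum_nonneg fun _ _ => abs_nonneg _
  exact ⟨_, Cht98.tame_of_deep (C := fun n => |C0 n| + ∑ i, |C i n|) (τ.cpt 2) (fun x hx => out_core hx)
    (h0.mono subset_rfl fun n => by linarith [le_abs_self (C0 n), h2 n]) fun i =>
    (hC i).mono subset_rfl fun n => by
      linarith [le_abs_self (C i n), abs_nonneg (C0 n), Finset.single_le_sum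
        (f := fun i => |C i n|) (fun _ _ => abs_nonneg _) (Finset.mem_univ i)]⟩

/-- smooth fields that are literal on the ends are bounded -/
theorem cb_lit {W : Type} [NormedAddCommGroup W] [NormedSpace ℝ W] {f : X.M → W} (hf : Sm X.I f)
    (h : ∀ i, 3 / 2 < β.v t i → ∃ g, (cylP (τ.nb i).e.D.F.toPre).Cb g ∧
      ∀ x ∈ ((τ.nb i).ψ (β.v t i)).source, f ((τ.nb i).ψ (β.v t i) x) = g x) : (β.F t).Cb f := by
  obtain ⟨C0, h0⟩ := Cht98.bOn_compact (β.F t).toPre (τ.cpt 2) (f := fun _ : Unit => f) fun _ => hf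
  have h1 : ∀ i : {i // (τ.nb i).s ≠ none}, ∃ C, BOn (β.F t).toPre ((τ.nb i).ψ (β.v t i)).target f C :=
    fun i => let ⟨_, ⟨C, k1⟩, k2⟩ := h i (v_end' i.2)
      ⟨C, (nckF (by linarith [v_end' (β := β) (t := t) i.2])).bOn k2 k1⟩
  choose C hC using h1
  have h2 : ∀ n, 0 ≤ ∑ i, |C i n| := fun n => Finset.sum_nonneg fun _ _ => abs_nonneg _
  refine ⟨fun n => |C0 n| + ∑ i, |C i n|, Cht98.CBs_of_BOn hf fun x => ?_⟩
  by_cases hx : ∀ i, ((τ.nb i).s = some true → (τ.nb i).n.tm x ≤ 2) ∧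
    ((τ.nb i).s = some false → -2 ≤ (τ.nb i).n.tm x)
  · refine ⟨_, ?_, (h0 ()).mono subset_rfl fun n => by linarith [le_abs_self (C0 n), h2 n]⟩
    exact hx
  · obtain ⟨i, hi⟩ := out_core (β := β) (t := t) hx
    refine ⟨_, ψ_tgt' (b := τ.nb i) _ ▸ Cht98.Jc_subset one_pos hi, (hC i).mono subset_rfl fun n => ?_⟩
    linarith [le_abs_self (C i n), abs_nonneg (C0 n), Finset.single_le_sum
      (f := fun i => |C i n|) (fun _ _ => abs_nonneg _) (Finset.mem_univ i)]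

/-! ### cuts -/

theorem tht_apply (e : Option κ → VF X.I X.M) (Ξ : R4 → X.M) (y v : R4) (a : Option κ) :
    tht e Ξ y v a = th (Module.finBasis ℝ X.X.E) (atx e (Ξ y)) (dmp (𝓡 4) X.I Ξ y v) a := rfl

theorem sm_tht {e : Option κ → VF X.I X.M} (he : ∀ x, FAt e x) {Ξ : R4 → X.M}
    (h : ∀ y, IsLocalDiffeomorphAt (𝓡 4) X.I ∞ Ξ y) : ContDiff ℝ ∞ (tht e Ξ) := by
  refine contDiff_clm_apply_iff.2 fun v => contDiff_euclidean.2 fun a => contMDiff_iff_contDiff.1 fun y => ?_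
  have h1 : VAt (𝓡 4) (fun _ : R4 => v) y := vAt_iff_self.2 (by
    refine (contMDiffAt_const (c := v)).congr_of_eventuallyEq (.of_forall fun z => ?_)
    show mfderiv (𝓡 4) (𝓡 4) id z v = v
    rw [mfderiv_id]
    rfl)
  refine (sm_fT (FAt.pbv (h y) (he _)).sm (FAt.pbv (h y) (he _)).sp h1 a).congr_of_eventuallyEq
    (.of_forall fun z => ?_)
  have h2 : atx e (Ξ z) = fun a => dmp (𝓡 4) X.I Ξ z (atx (fun a => pbv (𝓡 4) X.I Ξ (e a)) z a) :=
    funext fun a => (pbv_rel (h z) _).symm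
  refine (tht_apply e Ξ z v a).trans ?_
  rw [h2]
  exact congrFun ((FAt.pbv (h z) (he _)).sp.th_map (ld_bij (h z)) _ _ _) a

variable (c : MC μ β)

theorem ct_ok {n : ℕ} (v : τ.N → ℝ) (ct : Fin n → Cut X.M κ (μ ⊕ μ)) (j : Fin τ.nc) :
    (c.bg t v ct).CutOK (c.ct t j) where
  src := τ.src j
  sm := contMDiffOn_univ.1 (τ.src j ▸ (τ.bx j).contMDiffOn_toFun)
  sm' := (τ.bx j).contMDiffOn_invFun
  sθ := sm_tht (β.fr t) fun y => Orx52.ldp (τ.bx j) (τ.src j ▸ mem_univ y)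
  θ y v := ((β.sp t (τ.bx j y)).sum_th (b := Module.finBasis ℝ X.X.E) (dmp (𝓡 4) X.I (τ.bx j) y v)).symm
  sρ := ContDiffBump.contDiff_normed _
  cρ := ContDiffBump.hasCompactSupport_normed _
  one := ContDiffBump.integral_normed _
  η := ⟨(c.tst t j).sm, (c.tst t j).cpt, (c.tst t j).pos⟩

/-! ### modules, masses, forms -/

theorem m_on : c.m.re.On X.I β.B.P univ := c.mon.re

theorem sm_al (v : τ.N → ℝ) (a : Option κ) : Sm X.I (c.al v a) := fun x =>
  Wz78.SA.sum _ fun i _ => Wz78.SA.smul contMDiffAt_const (sm_ext (b := τ.nb i) (by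
    cases a
    exacts [contMDiff_const, (c.std i).tw.1 _]) x)

theorem P_al (a : Option κ) (x : X.M) :
    ∑ b, β.B.P a b x * c.al (β.v t) b x = c.al (β.v t) a x := by
  simp only [MC.al, Finset.mul_sum]
  rw [Finset.sum_comm]
  refine Finset.sum_congr rfl fun i _ => ?_
  rcases le_or_gt (β.v t i) 1 with h | h
  · simp [wt_lo h]
  by_cases hx : x ∈ (τ.nb i).U (1 / 4)
  swap
  · simp [NB.ext_zero _ hx]
  have h1 := (B_lit h (NB.symm_mem (d := 1 / 2) (by norm_num) ((τ.nb i).U_mono (by norm_num) hx))).1 a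
  rw [(τ.nb i).k.right_inv ((τ.nb i).U_sub (by norm_num) hx)] at h1
  simp only [NB.ext, h1, mul_smul_comm, ← Finset.smul_sum]
  refine congrArg _ (congrArg _ ?_)
  cases a with
  | none => simp [Nd18.YD.B, cP]
  | some a =>
    simp only [Nd18.YD.B, cP, Fintype.sum_option, Option.elim, mul_zero, zero_add]
    exact (c.std i).tw.2.1 a _

theorem ac {n : ℕ} (ct : Fin n → Cut X.M κ (μ ⊕ μ)) :
    Gm56.AC (β.F t) c.m.re (c.bg t (β.v t) ct).A :=
  have h : c.m.re.On X.I (β.F t).P univ := F_P (β := β) (t := t) ▸ m_on c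
  (Gm56.ac_cn h (F_P (β := β) (t := t) ▸ B_ok.rk)).add h (sm_al c _)
    (F_P (β := β) (t := t) ▸ P_al c)

theorem vol_k (h : 1 < β.v t i) {x : (τ.nb i).e.A.Y.M × ℝ} (hx : x ∈ (τ.nb i).V (1 / 2)) :
    (β.bg0 c.m).vol ((τ.nb i).k x) = (c.ty i).en.cyl.vol x := by
  simp only [Bg.vol, MB.bg0, (B_lit h hx).2, (c.lit i x hx).2]
  rfl

theorem ms_J (v : τ.N → ℝ) (x : X.M) : iL μ * c.ms v x = c.ms v x * iL μ := by
  simp only [MC.ms, NB.ext, Finset.mul_sum, Finset.sum_mul, mul_smul_comm, smul_mul_assoc]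
  refine Finset.sum_congr rfl fun i _ => ?_
  rw [← (c.std i).J]
  exact congrArg _ (congrArg _ ((c.std i).ok.cyl.msJ _))

theorem ms_p (x : X.M) :
    (β.bg0 c.m).pm x * c.ms (β.v t) x * (β.bg0 c.m).pp x = c.ms (β.v t) x := by
  rw [MC.ms, Finset.mul_sum, Finset.sum_mul]
  refine Finset.sum_congr rfl fun i _ => ?_
  rcases le_or_gt (β.v t i) 1 with h | h
  · rw [wt_lo h, zero_smul, mul_zero, zero_mul]
  by_cases hx : x ∈ (τ.nb i).U (1 / 4)
  swap
  · rw [NB.ext_zero _ hx, smul_zero, mul_zero, zero_mul]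
  have h1 := NB.symm_mem (d := 1 / 2) (by norm_num) ((τ.nb i).U_mono (by norm_num) hx)
  have h2 := (τ.nb i).k.right_inv ((τ.nb i).U_sub (by norm_num) hx)
  have h3 := vol_k c h h1
  have h4 := (c.lit i _ h1).1
  rw [h2] at h3 h4
  have h5 := (c.std i).ok.cyl.msp ((τ.nb i).k.symm x)
  simp only [NB.ext, mul_smul_comm, smul_mul_assoc]
  refine congrArg _ (congrArg _ ?_)
  rw [Bg.pm, Bg.pp, h3, show (β.bg0 c.m).m.p x = _ from h4]
  exact h5

theorem sm_ms (v : τ.N → ℝ) : Sm X.I (c.ms v) := fun x =>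
  Wz78.SA.sum _ fun i _ => Wz78.SA.smul contMDiffAt_const (sm_ext (b := τ.nb i)
    ((c.std i).ok.cyl.cms.choose_spec.1.comp (contMDiff_id.prodMk contMDiff_const)) x)

theorem sm_om {n : ℕ} (v : τ.N → ℝ) (ct : Fin n → Cut X.M κ (μ ⊕ μ)) : Sm X.I (c.bg t v ct).om := by
  intro x
  have P := fun a b => (B_ok (β := β)).sP a b x
  refine ((PiLp.continuousLinearEquiv 2 ℝ fun _ : Option κ × Option κ => ℝ).symm.contDiff.contMDiff _).comp
    x ((contMDiffAt_pi_space (φ := fun y s => ∑ r, β.B.sd y s r * Sw87.Mo.cmp (β.e t) (c.fo t) y r)).2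
    fun s => Wz78.SA.sum _ fun r _ => Wz78.SA.mul ?_ (Int54.contMDiffAt_cf le_rfl
      (fun a => (β.fr t x).sm a) ((c.cs t).cl.sm x trivial) _)) |>.congr_of_eventuallyEq
    (.of_forall fun y => ?_)
  · exact ((((Wz78.SA.mul (P _ _) (P _ _)).sub (Wz78.SA.mul (P _ _) (P _ _))).div_const 2).add
      ((B_ok.so _ _ _ _ x).div_const 2)).div_const 2
  · ext s
    simp [MC.bg, Bg.p2, MB.bg0]

theorem bg_ok {n : ℕ} {ct : Fin n → Cut X.M κ (μ ⊕ μ)}
    (hc : ∀ j, (c.bg t (β.v t) ct).CutOK (ct j)) : (c.bg t (β.v t) ct).OK := by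
  have cp : (β.F t).Cb c.m.re.p := cb_lit (fun x => (m_on c).sp x trivial) fun i h =>
    ⟨_, (c.std i).ok.cyl.cp, (nk c ct h).hp⟩
  have cρ : ∀ a, (β.F t).Cb (c.m.re.ρ a) := fun a => cb_lit (fun x => (m_on c).sρ a x trivial)
    fun i h => ⟨_, (c.std i).ok.cyl.cρ a, (nk c ct h).hρ a⟩
  exact
    { B := B_ok
      G := G_ok
      tame := tame
      m := m_on c
      cc := F_P (β := β) (t := t) ▸ (ac c ct).cc
      sk := (ac c ct).sk
      AJ := (ac c ct).AJ
      co := fun a b d e => cb_lit (B_ok.so a b d e) fun i h =>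
        ⟨_, (c.std i).ok.cyl.co a b d e, (nk c ct h).o a b d e⟩
      cp := cp
      cρ := cρ
      cA := fun a => cb_lit ((ac c ct).cc.sm a) fun i h =>
        ⟨_, (c.std i).ok.cyl.cA a, (nk c ct h).hA a⟩
      cms := cb_lit ((sm_ms c _).add (c.smc.sm trivial)) fun i h =>
        ⟨_, (c.std i).ok.cyl.cms, (nk c ct h).hms⟩
      com := Sob92.Cb_of_hcs (sm_om c _ ct)
        ((c.cs t).hc.mono fun x hx h => hx (om_zero c ct _ h))
      msJ := fun x => (mul_add _ _ _).trans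
        ((congrArg₂ (· + ·) (ms_J c _ x) (c.mJ t x)).trans (add_mul _ _ _).symm)
      msp := fun x => ((congrArg (· * _) (mul_add _ _ _)).trans (add_mul _ _ _)).trans
        (congrArg₂ (· + ·) (ms_p c x) (c.mp t x))
      omp := fun x => by
        show (β.bg0 c.m).p2 x ((β.bg0 c.m).p2 x _) = (β.bg0 c.m).p2 x _
        simp only [Bg.p2, MB.bg0, Wz78.idx_idx, Wz78.sd_sd B_ok]
        rfl
      w := zero_le_one
      ct := hc }

/-! ### pieces -/

theorem img_far {e : En3 κ L0 (μ ⊕ μ)} {n : ℕ} {b : Bg X.I X.M κ L0 (μ ⊕ μ) n} (K : Nk (X := X.X) e b)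
    (s : Bool) (T : ℝ) : K.ψ '' (univ ×ˢ K.far s T) = K.tm ⁻¹' K.far s T := by
  ext x
  refine ⟨?_, fun hx => ?_⟩
  · rintro ⟨y, hy, rfl⟩
    rw [mem_preimage, K.tm_ψ y (K.src ▸ ⟨trivial, hy.2.1⟩)]
    exact hy.2
  · have h1 : x ∈ K.ψ.target := K.tgt ▸ hx.1
    exact ⟨K.ψ.symm x, ⟨trivial, by rwa [(Cht98.nck K.toNk).snd_symm h1]⟩, K.ψ.right_inv h1⟩

theorem pz_ok {n : ℕ} {ct : Fin n → Cut X.M κ (μ ⊕ μ)}
    (hc : ∀ j, (c.bg t (β.v t) ct).CutOK (ct j)) : (c.pz t (β.v t) ct).OK where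
  bg := bg_ok c hc
  vol := rFr_vol _ _
  con := X.con
  en i := (c.std i).ok
  dj i j hij K hK K' hK' := by
    have h1 : K.ψ = (τ.nb i).ψ _ := congrArg (·.2.2.1) (nk_spec c hK).2
    have h2 : K'.ψ = (τ.nb j).ψ _ := congrArg (·.2.2.1) (nk_spec c hK').2
    exact (τ.dj hij).mono
      (h1 ▸ (NB.ψ_tgt (b := τ.nb i) _).subset.trans ((τ.nb i).U_sub zero_le_one))
      (h2 ▸ (NB.ψ_tgt (b := τ.nb j) _).subset.trans ((τ.nb j).U_sub zero_le_one))
  cpt T := by
    refine (τ.cpt (max T 1)).of_isClosed_subset ?_ fun x hx i => ?_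
    · simp only [Pz.core, ofPred_forall, img_far]
      exact isClosed_iInter fun i => isClosed_iInter fun s => isClosed_iInter fun K =>
        isClosed_iInter fun _ => isClosed_iInter fun _ => (((jv_open _ _).inter
          (isOpen_lt continuous_const (continuous_const.mul continuous_id))).preimage
            K.cont).isClosed_compl
    have key : ∀ s, (τ.nb i).s = some s → M.pm s * (τ.nb i).n.tm x ≤ max T 1 := fun s hs => by
      have h0 : (τ.nb i).s ≠ none := by simp [hs]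
      obtain ⟨K, hK, h⟩ := nk_some c ct (v_end' h0)
      have h1 : K.p = pa (τ.nb i).s := congrArg (·.1) h
      have h2 : K.q = qa _ (τ.nb i).s := congrArg (·.2.1) h
      have h3 : K.tm x = (τ.nb i).n.tm x :=
        (congrFun (congrArg (·.2.2.2) h) x).trans (st_two (v_end h0).le _)
      rw [hs] at h1 h2
      by_contra h4
      obtain ⟨h5, h6⟩ := max_lt_iff.1 (not_le.1 h4)
      refine hx i s K hK (by cases s; exacts [h1, h2]) ?_
      rw [img_far, mem_preimage, h3]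
      refine ⟨?_, h5⟩
      show _ ∈ Jv K.p K.q
      rw [h1, h2]
      cases s <;> simp [Jv, pa, qa, M.pm] at h6 ⊢ <;> linarith
    exact ⟨fun h => by simpa [M.pm] using key _ h, fun h => by
      have := key _ h
      simp only [M.pm, Bool.false_eq_true, if_false] at this
      linarith⟩

variable (κ μ) in
/-- **E-NK + E-PZ** -/
theorem pzStmt : PzStmt κ μ :=
  ⟨fun c _ _ ct _ h => nk_some c ct h,
    fun c _ => ⟨pz_ok c (ct_ok c _ _), pz_ok c fun j => j.elim0⟩⟩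

end Crest.Agent.X212.Rob53.Pz
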