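import Crest.Agent.X212.Rob53.MuA
import Crest.Agent.X212.Rob53.Mb
import Crest.Agent.X212.Sm10.Mh1

/-!
# Row 212, GEO engine, leaf M-U (helper53), part B: masses and marks on the product model
-/

set_option autoImplicit false
set_option linter.unusedSectionVars false
noncomputable section
open scoped Manifold ContDiff Topology InnerProductSpace
open MeasureTheory Set Function Filter

namespace Crest.Agent.X212.Rob53.Mu
open An Cyf70 Sw Flo2 Geo28 Met55 Sw87.Mo Sm10.Mh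
open Rad94 (Rd0 Dat Psc KerCStmt HdgStmt)
open Line51 (iL)
open Pj41 (FRel)
open Dr59 (HZ)
open Wz78 (scal)

/-! ### the scalar curvature, test spinors -/

theorem scal_nat {E E' H H' Y Z ι : Type} [NormedAddCommGroup E] [NormedSpace ℝ E] [FiniteDimensional ℝ E]
    [MeasurableSpace E] [BorelSpace E] [TopologicalSpace H] {I : ModelWithCorners ℝ E H} [I.Boundaryless]
    [TopologicalSpace Y] [ChartedSpace H Y] [IsManifold I ∞ Y] [MeasurableSpace Y]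
    [NormedAddCommGroup E'] [NormedSpace ℝ E'] [FiniteDimensional ℝ E'] [MeasurableSpace E']
    [BorelSpace E'] [TopologicalSpace H'] {J : ModelWithCorners ℝ E' H'} [J.Boundaryless]
    [TopologicalSpace Z] [ChartedSpace H' Z] [IsManifold J ∞ Z] [MeasurableSpace Z] [Fintype ι]
    {F : Fr I Y ι} {F' : Fr J Z ι} {ψ : Y → Z} (h : FRel F F' ψ univ) (x : Y) :
    scal I F.e F.c F.Gam x = scal J F'.e F'.c F'.Gam (ψ x) := by
  have c := fun y => h.c (x := y) trivial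
  have g := fun y => h.Gam_of (x := y) trivial (c y)
  have d := fun a b m l => h.D (x := x) trivial a (u := F.Gam b m l) (u' := F'.Gam b m l)
    (.of_forall fun y => g y b m l)
  simp only [Pre.D_def] at d
  simp only [scal, Wz78.Rm, c, g, d]

theorem ex_tst {κ lam ν : Type} [Fintype κ] [Fintype lam] [Fintype ν] [DecidableEq ν] {Y : M.Mf 4}
    {n : ℕ} {b : Bg Y.I Y.M κ lam ν n} (hb : b.OK) {Ξ : R4 → Y.M} (hΞ : ContMDiff (𝓡 4) Y.I ∞ Ξ) :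
    ∃ η, b.Tst Ξ η ∧ η ≠ 0 := by
  have s : b.F.Cb b.pp := Sob92.Cb_smul (Sob92.Cb_const _) (Sob92.Cb_sub hb.cp (Sob92.Cb_smul
    (Sob92.Cb_const _) (Sob92.Cb_sum _ fun i _ => Sob92.Cb_sum _ fun j _ => Sob92.Cb_sum _ fun k _ =>
      Sob92.Cb_sum _ fun l _ => Sob92.Cb_smul (hb.co i j k l) (Sob92.Cb_comp (Sob92.Cb_comp
        (Sob92.Cb_comp (hb.cρ i) (hb.cρ j)) (hb.cρ k)) (hb.cρ l)))))
  have h0 : b.pp (Ξ 0) ≠ 0 := fun e => by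
    have := (Gm56.p8_of hb (Ξ 0)).tr_pp
    rw [show Taub88.pp _ _ _ = 0 from e] at this
    simp [Taub88.tr] at this
  obtain ⟨v, hv⟩ := DFunLike.ne_iff.1 h0
  let f : ContDiffBump (0 : R4) := ⟨1, 2, one_pos, one_lt_two⟩
  refine ⟨fun y => f y • b.pp (Ξ y) v, ⟨f.contDiff.smul ((s.choose_spec.1.comp hΞ).contDiff.clm_apply
    contDiff_const), f.hasCompactSupport.smul_right, fun y => ?_⟩, fun e => hv ?_⟩
  · rw [map_smul]
    exact congrArg _ (DFunLike.congr_fun (Gm56.p8_of hb (Ξ y)).toPC.pp_pp v)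
  · simpa [f.one_of_mem_closedBall (Metric.mem_closedBall_self zero_le_one)] using congrFun e 0

variable {κ : Type} [Fintype κ] [DecidableEq κ] {μ : Type} [Fintype μ] [DecidableEq μ] {X : M4}
  {e : ET κ} {τ : MT κ X} {ι : Bool → τ.N} {ec : EC (μ ⊕ μ) e.eg} {cl : ec.L}

theorem rt_ψ {n : ℕ} {b : Bg X.I X.M κ L0 (μ ⊕ μ) n} {nb : NB κ X} {s k} (hn : nb = ⟨e, s, k⟩)
    {ec' : EC (μ ⊕ μ) nb.e.eg} {cl' : ec'.L}
    (h : (⟨⟨_, ec'⟩, cl'⟩ : Ty κ L0 (μ ⊕ μ)) = ⟨⟨_, ec⟩, cl⟩)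
    (K : Nk (X := X.X) (Ty.en ⟨⟨_, ec'⟩, cl'⟩) b) {v : ℝ} (hK : K.ψ = nb.ψ v) :
    (rt h K).ψ = (⟨e, s, k⟩ : NB κ X).ψ v := by
  subst hn
  cases h
  exact hK

namespace CY
variable (C : CY e τ)

variable (ec cl) in
/-- the module is the product module -/
structure Lit (M : MM μ τ) : Prop where
  ty : ∀ i, M.ty i = ⟨⟨_, ec⟩, cl⟩
  m : ∀ x, M.m.re.p (C.φ x) = (ec.m cl).p x.1 ∧ ∀ a, M.m.re.ρ a (C.φ x) = (ec.m cl).ρ a x.1

variable {C} {c : MC μ C.β} (L : C.Lit ec cl c.toMM) (P : Po τ ι) (t : Tk 0)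

theorem two_ψ (s : Bool) : ((two c P t fun s => L.ty (ι s)).K s).ψ.target = (τ.nb (ι s)).U 0 ∧
    ∀ x ∈ ((two c P t fun s => L.ty (ι s)).K s).ψ.source,
      ((two c P t fun s => L.ty (ι s)).K s).ψ x = C.φ x := by
  obtain ⟨s', n, h, k⟩ := C.nb (ι s)
  have e1 : ((two c P t fun s => L.ty (ι s)).K s).ψ = _ :=
    rt_ψ h (L.ty (ι s)) (Pz.nk c (c.ct t) (Pz.v_end' (P.ne s))) rfl
  rw [e1, Pz.v_end (P.ne s), NB.ψ_tgt, h]
  refine ⟨rfl, fun x hx => ?_⟩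
  have e2 : cyH _ 2 x = x := (congrArg (fun σ => cyH _ 2 (x.1, σ)) (st_two le_rfl x.2).symm).trans
    (Pz.cy_st 2 x)
  exact (congrArg n.k e2).trans (k x (e2 ▸ Pz.V_half hx))

theorem cyl_two : (two c P t fun s => L.ty (ι s)).Cyl (C.nk (C.std (ι true)) t) :=
  ⟨rfl, rfl, fun s => (two_ψ L P t s).2, fun x => (L.m x).1, fun i x => (L.m x).2 i⟩

variable (C ec cl) in
/-- the mass of the cylinder -/
def S (x : X.M) : En (μ ⊕ μ) := (Ty.en ⟨⟨_, ec⟩, cl⟩).cyl.ms (C.φ.symm x)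

theorem S_φ (x : e.A.Y.M × ℝ) : C.S ec cl (C.φ x) = (Ty.en ⟨⟨_, ec⟩, cl⟩).cyl.ms x :=
  congrArg _ (C.φ.symm_apply_apply x)

include L P

theorem sty : StdT ⟨⟨_, ec⟩, cl⟩ := L.ty (ι true) ▸ c.std (ι true)

theorem sm_S : Sm X.I (C.S ec cl) := (sty L P).ok.cyl.cms.choose_spec.1.comp C.φ.symm.contMDiff

theorem ms_S (h0 : c.mc = 0) : Ms c fun x => C.S ec cl x - c.ms (C.β.v t) x where
  sm := (sm_S L P).sub (Pz.sm_ms c _)
  J x := by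
    rw [mul_sub, sub_mul, Pz.ms_J, ← (sty L P).J]
    exact congrArg (· - _) ((sty L P).ok.cyl.msJ _)
  p x := by
    rw [mul_sub, sub_mul, Pz.ms_p]
    obtain ⟨x, rfl⟩ : ∃ z, C.φ z = x := C.φ.surjective x
    have v : (C.β.bg0 c.m).vol (C.φ x) = (Ty.en ⟨⟨_, ec⟩, cl⟩).cyl.vol x := by
      have := fun a b c d => (C.nk (C.std (ι true)) t).o a b c d x trivial
      simp only [Bg.vol, MB.bg0, (L.m x).2]
      exact congrArg _ (Finset.sum_congr rfl fun a _ => Finset.sum_congr rfl fun b _ =>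
        Finset.sum_congr rfl fun c _ => Finset.sum_congr rfl fun d _ => congrArg (· • _) (this a b c d))
    refine congrArg (· - _) ?_
    erw [S_φ, Bg.pm, Bg.pp, v, show (C.β.bg0 c.m).m.p (C.φ x) = _ from (L.m x).1]
    exact (sty L P).ok.cyl.msp x
  z i x hx := by
    obtain ⟨s, hs⟩ := Option.ne_none_iff_exists'.1 (C.ne i)
    obtain rfl := P.eq hs
    obtain ⟨h1, h2⟩ := two_ψ L P t s
    obtain ⟨y, hy, rfl⟩ := (OpenPartialHomeomorph.image_source_eq_target _).ge (h1.ge hx)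
    have := ((two c P t fun s => L.ty (ι s)).K s).hms y hy
    rw [h2 y hy] at this ⊢
    refine sub_eq_zero.2 ((S_φ y).trans (this.symm.trans ?_))
    show _ + c.mc t _ = _
    rw [h0]
    exact add_zero _

theorem A_none (x : X.M) : (c.P t).bg.A none x = 0 := by
  obtain ⟨x, rfl⟩ : ∃ z, C.φ z = x := C.φ.surjective x
  have h1 := Gm56.cn_lit (F := cyl e.D.F) (F' := C.β.F t) (m := Gm56.mZ (ec.m cl)) (m' := c.m.re)
    (C.fRel t) (fun y _ => (L.m y).1.symm) (fun a y _ => ((L.m y).2 a).symm) (mem_univ x) none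
  rw [Gm56.cn_cyl] at h1
  have h2 : c.al (C.β.v t) none (C.φ x) = 0 := by simp [MC.al, NB.ext]
  exact (congrArg₂ (fun A (r : ℝ) => A + r • _) h1.symm h2).trans ((zero_add _).trans (zero_smul _ _))

theorem D_S (x : X.M) : (C.β.F t).D none (C.S ec cl) x = 0 := by
  obtain ⟨x, rfl⟩ : ∃ z, C.φ z = x := C.φ.surjective x
  exact ((C.fRel t).D trivial none (.of_forall fun y => (S_φ y).symm)).symm.trans
    (congrFun (Gm56.dv_fst (e := e.D.F.e) (fun y : e.A.Y.M => (Ty.en ⟨⟨_, ec⟩, cl⟩).cyl.ms (y, 0)) none) x)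

omit L P in
theorem scal_φ (x : e.A.Y.M × ℝ) : scal X.I (C.β.F t).e (C.β.F t).c (C.β.F t).Gam (C.φ x) =
    scal (IC e.A.Y.I) (cyl e.D.F).e (cyl e.D.F).c (cyl e.D.F).Gam (x.1, 0) := by
  have h : FRel (cyl e.D.F) (cyl e.D.F) (Cht98.tau e.A.Y.M (-x.2)) univ :=
    Pj41.fRel_of_iso (F := cyl e.D.F) (F' := cyl e.D.F) (Cht98.iso_tau e.D.F.toPre (-x.2))
  rw [← scal_nat (C.fRel t) x, scal_nat h x,
    show Cht98.tau e.A.Y.M (-x.2) x = (x.1, 0) from Prod.ext rfl (add_neg_cancel x.2)]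

theorem psc {m : X.M → En (μ ⊕ μ)} (hm : Sm X.I m) {δ K σ : ℝ} (hb : (C.β.F t).CB 1 m δ)
    (e1 : (c.P t).bg.ms = C.S ec cl + m) (e2 : c.fo t = 0)
    (hK : ∀ x, ‖(Ty.en ⟨⟨_, ec⟩, cl⟩).cyl.ms x‖ ≤ K) (h1 : δ ≤ 1) (h2 : δ * (2 * K + 2) ≤ σ / 2)
    (h : ∀ y, σ + ‖(Ty.en ⟨⟨_, ec⟩, cl⟩).cyl.ms (y, 0)‖ ^ 2 ≤
      scal (IC e.A.Y.I) (cyl e.D.F).e (cyl e.D.F).c (cyl e.D.F).Gam (y, 0) / 8)
    {f : X.M → F2 κ} (hf : ∀ x, f x = 0) : Psc (X := X.X) (c.P t).bg f (σ / 2) := fun x => by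
  have k1 : ‖m x‖ ≤ δ := hb [] (by simp) x
  have k2 : ‖(C.β.F t).D none m x‖ ≤ δ := hb [none] (by simp) x
  have k3 : (c.P t).bg.F.D none (C.S ec cl + m) x = (C.β.F t).D none m x :=
    (Sob92.dv_add ((sm_S L P x).mdifferentiableAt (by simp)) ((hm x).mdifferentiableAt (by simp))).trans
      ((congrArg (· + _) (D_S L P t x)).trans (zero_add _))
  rw [e1, k3, A_none L P, hf, show (c.P t).bg.om x = 0 from Pz.om_zero c _ _ (congrFun e2 x)]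
  obtain ⟨x, rfl⟩ : ∃ z, C.φ z = x := C.φ.surjective x
  have k4 := (h x.1).trans_eq (congrArg (· / 8) (scal_φ (C := C) t x).symm)
  have k5 : ‖C.S ec cl (C.φ x)‖ = ‖(Ty.en ⟨⟨_, ec⟩, cl⟩).cyl.ms (x.1, 0)‖ := congrArg norm (S_φ x)
  have k6 := (norm_add_le (C.S ec cl (C.φ x)) (m (C.φ x))).trans (add_le_add_right k1 _)
  have k7 := pow_le_pow_left₀ (norm_nonneg _) k6 2
  have k8 := hK (x.1, 0)
  have k9 : 0 ≤ δ := (norm_nonneg _).trans k1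
  refine le_trans ?_ k4
  simp only [zero_mul, mul_zero, sub_zero, add_zero, norm_zero, zero_div]
  rw [k5] at k7
  have : ‖(C.S ec cl + m) (C.φ x)‖ ^ 2 ≤ _ := k7
  nlinarith [mul_le_mul_of_nonneg_left k8 k9, mul_le_mul_of_nonneg_left h1 k9]

end CY

/-- constant data with the test spinors `η` -/
abbrev cst {k : ℕ} {β : MB τ k} (M : MM μ τ) (ho : M.m.On X.I (fP (β.e 0)) univ)
    {η : Fin τ.nc → R4 → Eu (μ ⊕ μ)} (h : ∀ j, (β.bg0 M.m).Tst (τ.bx j) (η j)) : MC μ β where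
  toMM := M
  mon := ho
  fo := 0
  cs _ := .zero
  sf _ _ _ := (show (fun _ => Sw87.Mo.cmp (β.e 0) (0 : X.Fm)) = fun (_ : Tk k) _ => 0 from
    funext fun _ => funext fun _ => Pz.cmp_zero rfl) ▸ Prm93.JAt.of_fixed contMDiffAt_const
  f0 _ _ _ _ _ := rfl
  mc := 0
  smc _ _ _ := Prm93.JAt.of_fixed contMDiffAt_const
  mJ _ _ := (mul_zero _).trans (zero_mul _).symm
  mp _ _ := (congrArg (· * _) (mul_zero _)).trans (zero_mul _)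
  m0 _ _ _ _ _ := rfl
  η _ := η
  jc j := ⟨((h j).sm.comp contDiff_snd).contDiffOn, _, (h j).cpt,
    fun _ _ _ hy => image_eq_zero_of_notMem_tsupport hy⟩
  tst _ := h

/-- **the marked model of a cylinder** -/
theorem core (hK : KerCStmt κ L0 (μ ⊕ μ)) (hH : HdgStmt κ L0 (μ ⊕ μ)) (C : CY e τ) (P : Po τ ι)
    (hn : τ.nc ≤ 1) {M : MM μ τ} (L : C.Lit ec cl M) (ho : M.m.On X.I (fP C.fr) univ)
    (he : Rd0 (Ty.en ⟨⟨_, ec⟩, cl⟩)) (hs : Rad94.Smp (Ty.en ⟨⟨_, ec⟩, cl⟩))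
    (h1 : HZ X.I 1 (univ : Set X.M)) (hb : X.Bp 0) {K σ : ℝ}
    (hk : ∀ x, ‖(Ty.en ⟨⟨_, ec⟩, cl⟩).cyl.ms x‖ ≤ K) (hσ : 0 < σ) :
    ∃ c : MC μ C.β, c.toMM = M ∧ c.fo 0 = 0 ∧ ∀ ens B, ∃ D : Dat (c.gc ens B) fun _ => ⟨⟨_, ec⟩, cl⟩,
      D.z.Hi D.a₀ ∧ D.z.Al D.a₀ ∧ (∃ N, D.z.Cyl N) ∧
        ((∀ y, σ + ‖(Ty.en ⟨⟨_, ec⟩, cl⟩).cyl.ms (y, 0)‖ ^ 2 ≤
          scal (IC e.A.Y.I) (cyl e.D.F).e (cyl e.D.F).c (cyl e.D.F).Gam (y, 0) / 8) →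
          ∀ t, Psc D.Z.bg (fun x => ∑ i, D.φ t i • D.ϖ i x) (σ / 2)) := by
  let c₀ : MC μ C.β := cst M ho (η := 0) fun _ =>
    ⟨contDiff_const, HasCompactSupport.zero, fun _ => map_zero _⟩
  choose η h2 h3 using fun j => ex_tst (Pz.bg_ok (t := 0) c₀ (Pz.ct_ok c₀ _ _))
    (contMDiffOn_univ.1 (τ.src j ▸ (τ.bx j).contMDiffOn_toFun))
  let c₁ : MC μ C.β := cst M ho (η := η) fun j => ⟨(h2 j).sm, (h2 j).cpt, (h2 j).pos⟩
  have L₁ : C.Lit ec cl c₁.toMM := L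
  let c := am (CY.ms_S L₁ P 0 rfl)
  have L₂ : C.Lit ec cl c.toMM := L
  obtain ⟨r, a₀, H, k⟩ := base0 P hH c 0 (fun s => L₂.ty (ι s)) (fun _ => he)
    (Mb.h1_ex (Mb.ad_bg c _ _ _) h1) fun η hη => Mb.neg0 (Mb.ad_bg c _ _ _) hb hη
  have K0 : 0 < 2 * K + 2 := by
    obtain ⟨y⟩ : Nonempty e.A.Y.M := inferInstance
    linarith [(norm_nonneg _).trans (hk (y, 0))]
  obtain ⟨m, k1, k2⟩ := hK _ _ _ _ _ _ _ a₀ _ _ H.ok H.ref hs
    (reg c P 0 _ hn h3) (CY.cyl_two L₂ P 0) (min 1 (σ / 2 / (2 * K + 2))) (by positivity)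
  have m₀ := ms_of c P 0 _ k1
  have L₃ : C.Lit ec cl (am m₀).toMM := L
  have k3 := k2 _ (two (am m₀) P 0 fun s => L₃.ty (ι s)) (am_bg 0 m₀) (am_ng c P 0 _ m₀)
  exact ⟨am m₀, rfl, rfl, fun ens B => ⟨dat (am m₀) P (fun s => L₃.ty (ι s)) (c₀ := am m₀) _
    (fun a => a.elim0) (fun t' _ => am_sft m₀ m₀ (k t')) (am_base m₀ H) ens B, k3.1, k3.2,
    ⟨_, CY.cyl_two L₃ P 0⟩, fun h t => CY.psc L₃ P 0 m₀.sm k1.bd (funext fun x => by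
      show c.ms (C.β.v 0) x + ((0 : En (μ ⊕ μ)) + (C.S ec cl x - c.ms (C.β.v 0) x) + m x) =
        C.S ec cl x + m x
      abel) rfl hk (min_le_left _ _) ((le_div_iff₀ K0).1 (min_le_right _ _)) h fun x => by simp⟩⟩

/-- **M-U** for marks with the given properties -/
theorem mu_of {mk : Mk κ0 L0 ν0} (hK : KerCStmt κ0 L0 ν0) (hH : HdgStmt κ0 L0 ν0) (tp : MtpStmt mk)
    (hq : ∀ e : End κ0 L0 ν0, mk.qhs e → ∀ c, (∀ x, (e.en c).cyl.eC ⟨0, 0⟩ x = 0) → Rad94.Smp (e.en c))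
    (h1 : ∀ g, Rad94.Hi1 g → mk.hi1 g) (h2 : ∀ g, Rad94.Al1 mk.psc mk.tp g → mk.al1 g)
    (hp : ∀ e : End κ0 L0 ν0, mk.psc e → ∀ c, ∃ σ > 0, ∀ y, σ + ‖(e.en c).cyl.ms (y, 0)‖ ^ 2 ≤
      scal _ (e.en c).cyl.F.e (e.en c).cyl.F.c (e.en c).cyl.F.Gam (y, 0) / 8) : MuStmt mk := by
  intro A E T hT hn τ hτ he d s hd _
  obtain ⟨C, k1, ⟨i, hi⟩, ⟨j, hj⟩, h3⟩ := ex_cy E.g T hT τ hτ.toOnP he
  obtain ⟨M, m1, m2, m3⟩ := C.ex_mm E.ec (E.lab s) (E.sty _) (E.rp s) (k1 d s hd)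
  have P : Po τ fun s => bif s then j else i := ⟨hi, hj, h3⟩
  obtain ⟨t1, t2, t3⟩ := Nv5.cylStmt.top A T hT
  obtain ⟨K, hk⟩ := E.bd
  have q := E.ok.qhs E.kd
  obtain ⟨σ, hσ, hs⟩ := (em (mk.psc ⟨_, E.ec⟩)).elim (fun h => (hp _ h (E.lab s)).imp fun _ k =>
    And.intro k.1 fun _ : mk.psc ⟨_, E.ec⟩ => k.2) fun h => ⟨1, one_pos, fun k => (h k).elim⟩
  obtain ⟨c, rfl, c2, c3⟩ := core hK hH C P (hτ.nc.trans hn).le ⟨m1, m3⟩ m2.on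
    ⟨(E.sty _).ok, q.2.2.2.2 _, q.2.2.2.1, E.red _⟩ (hq _ q.1 _ (E.red _)) t1 t2 (fun x => (hk _ x).1) hσ
  have kd : ∀ l, (c.ec l).kd = .qhs := fun l =>
    (congrArg (fun ε : Ty κ0 L0 ν0 => ε.1.kd) (m1 l)).trans E.kd
  have cb : Cb mk c.toMM := ⟨⟨i, hi, kd i⟩, ⟨j, hj, kd j⟩, h3, fun l => m1 l ▸ E.ok,
    fun l _ => ⟨A, by obtain ⟨_, _, h, -⟩ := C.nb l; rw [h]⟩, fun l _ => m1 l ▸ E.red _, t1⟩
  refine ⟨C.β, c, m1, m2, c2, fun ens B => ?_⟩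
  obtain ⟨D, d1, d2, d3, d4⟩ := c3 ens B
  exact ⟨h1 _ ⟨_, D, d1⟩, fun h => h2 _ ⟨_, D, d2, h, ⟨_, by rw [hτ.nc, hn]; norm_num,
    tp c d 0 ens B cb m2 (t3 d)⟩, d3, _, half_pos hσ, fun t _ => d4 (hs h) t⟩⟩

end Crest.Agent.X212.Rob53.Mu
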