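import Crest.Agent.X212.Rob53.Fix

/-!
# X212 / Rob53, part Psh (helper53): moves along a product end

* `pe φ g` : the map `(y, t) ↦ (y, g t)` of a collar, extended by the identity;
* `mv_col` : it is a move;  `mv_tiso`, `mv_out`, `mv_in` : ends of a timed piece;
* `push_out`, `push_in` : translation of an end;  `Mv.dif` : the positive diffeomorphism of a `W4`.
-/

set_option autoImplicit false
set_option linter.unusedSectionVars false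

open Set Filter Topology Function Metric Module
open scoped ContDiff Manifold
open Crest.Agent.X212.Orx52 Crest.Agent.X212.Dr59
open Crest.Agent.X212.Lab56 (Dfm)
open Crest.Agent.X212.Bor5.T (O3 W4)
open Crest.Agent.X212.Cyl58 (TP TIso)

noncomputable section

namespace Crest.Agent.X212.Rob53

section col

variable {E : Type} [NormedAddCommGroup E] [NormedSpace ℝ E] [FiniteDimensional ℝ E]
  {H : Type} [TopologicalSpace H] {I : ModelWithCorners ℝ E H} [I.Boundaryless]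
  {M : Type} [TopologicalSpace M] [ChartedSpace H M] [IsManifold I ∞ M]
  {E' : Type} [NormedAddCommGroup E'] [NormedSpace ℝ E'] [FiniteDimensional ℝ E']
  {H' : Type} [TopologicalSpace H'] {K : ModelWithCorners ℝ E' H'} [K.Boundaryless]
  {Y : Type} [TopologicalSpace Y] [ChartedSpace H' Y] [IsManifold K ∞ Y]
  (φ : PartialDiffeomorph (K.prod 𝓘(ℝ, ℝ)) I (Y × ℝ) M ∞) {J T T' : Set ℝ} {g g' : ℝ → ℝ} {x : M}

open Classical in
/-- a change of the collar coordinate -/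
def pe (g : ℝ → ℝ) (x : M) : M := if x ∈ φ.target then φ ((φ.symm x).1, g (φ.symm x).2) else x

theorem pe_tgt (hx : x ∈ φ.target) : pe φ g x = φ ((φ.symm x).1, g (φ.symm x).2) := if_pos hx

theorem pe_not (hx : x ∉ φ.target) : pe φ g x = x := if_neg hx

theorem pe_src {z : Y × ℝ} (hz : z ∈ φ.source) : pe φ g (φ z) = φ (z.1, g z.2) :=
  (pe_tgt φ (φ.map_source hz)).trans (congrArg (fun w : Y × ℝ => φ (w.1, g w.2)) (φ.left_inv hz))

theorem pe_fix (h : x ∈ φ.target → g (φ.symm x).2 = (φ.symm x).2) : pe φ g x = x := by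
  by_cases k : x ∈ φ.target
  · exact (pe_tgt φ k).trans ((congrArg (fun t => φ ((φ.symm x).1, t)) (h k)).trans (φ.right_inv k))
  · exact pe_not φ k

variable {φ} (hs : φ.source = Prod.snd ⁻¹' J)
include hs

theorem mem_J (hx : x ∈ φ.target) : (φ.symm x).2 ∈ J := hs.le (φ.map_target hx)

theorem pe_off (h : ∀ u, u ∉ T → g u = u) (hx : x ∉ φ '' (Prod.snd ⁻¹' T)) : pe φ g x = x :=
  pe_fix φ fun k => h _ fun e => hx ⟨_, e, φ.right_inv k⟩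

theorem pe_pe (hm : MapsTo g J J) (l : ∀ u, g' (g u) = u) (x : M) : pe φ g' (pe φ g x) = x := by
  by_cases k : x ∈ φ.target
  · exact (congrArg _ (pe_tgt φ k)).trans ((pe_src φ (hs.ge (hm (mem_J hs k)))).trans
      ((congrArg (fun t => φ ((φ.symm x).1, t)) (l _)).trans (φ.right_inv k)))
  · rw [pe_not φ k, pe_not φ k]

theorem sub_tgt (hT : T ⊆ J) : φ '' (Prod.snd ⁻¹' T) ⊆ φ.target := by
  rintro _ ⟨z, hz, rfl⟩
  exact φ.map_source (hs.ge (hT hz))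

theorem cm_pe (hg : ContDiff ℝ ∞ g) (hm : MapsTo g J J) (h : ∀ u, u ∉ T → g u = u) (hT : T ⊆ J)
    (hc : IsClosed (φ '' (Prod.snd ⁻¹' T))) : ContMDiff I I ∞ (pe φ g) := fun x => by
  by_cases k : x ∈ φ.target
  · have l := (ldp φ.symm k).contMDiffAt
    exact ((ldp φ (hs.ge (hm (mem_J hs k)))).contMDiffAt.comp x ((contMDiffAt_fst.comp x l).prodMk
      (hg.contDiffAt.comp_contMDiffAt (contMDiffAt_snd.comp x l)))).congr_of_eventuallyEq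
      (eventually_of_mem (φ.open_target.mem_nhds k) fun _ => pe_tgt φ)
  · exact contMDiffAt_id.congr_of_eventuallyEq (eventually_of_mem
      (hc.isOpen_compl.mem_nhds fun e => k (sub_tgt hs hT e)) fun _ => pe_off hs h)

/-- the manifold deforms off the part `T` of the collar -/
theorem dfm_col (hJ : OrdConnected J) {ρ : ℝ → ℝ} (cρ : Continuous ρ) (h1 : ∀ u ∈ J, ρ u ∈ J ∧ ρ u ∉ T)
    (h2 : ∀ u, u ∉ T' → ρ u = u) (hT : T ⊆ J) (hT' : T' ⊆ J) (hc : IsClosed (φ '' (Prod.snd ⁻¹' T'))) :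
    Dfm (univ : Set M) (φ '' (Prod.snd ⁻¹' T))ᶜ := by
  refine ⟨fun z => pe φ (fun u => (1 - z.1) * ρ u + z.1 * u) z.2, fun z hz => ContinuousAt.continuousWithinAt ?_,
    fun _ _ _ _ => trivial, fun x _ => ?_, fun x _ => pe_fix φ fun _ => by simp⟩
  · by_cases k : z.2 ∈ φ.target
    · have l : ContinuousAt (fun w : ℝ × M => φ.symm w.2) z :=
        (ldp φ.symm k).contMDiffAt.continuousAt.comp continuousAt_snd
      refine ((ldp φ (y := ((φ.symm z.2).1, (1 - z.1) * ρ (φ.symm z.2).2 + z.1 * (φ.symm z.2).2))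
        (hs.ge (hJ.convex (h1 _ (mem_J hs k)).1 (mem_J hs k) (sub_nonneg.2 hz.1.2) hz.1.1
          (sub_add_cancel _ _)))).contMDiffAt.continuousAt.comp (f := fun w : ℝ × M =>
          ((φ.symm w.2).1, (1 - w.1) * ρ (φ.symm w.2).2 + w.1 * (φ.symm w.2).2)) (l.fst.prodMk
          (((continuousAt_const.sub continuousAt_fst).mul (cρ.continuousAt.comp l.snd)).add
            (continuousAt_fst.mul l.snd)))).congr ?_
      filter_upwards [(φ.open_target.preimage continuous_snd).mem_nhds k] with w hw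
      exact (pe_tgt φ (g := fun u => (1 - w.1) * ρ u + w.1 * u) hw).symm
    · refine continuousAt_snd.congr ?_
      filter_upwards [(hc.isOpen_compl.preimage continuous_snd).mem_nhds fun e => k (sub_tgt hs hT' e)] with w hw
      exact (pe_off hs (fun u hu => by rw [h2 u hu]; ring) hw).symm
  · beta_reduce
    by_cases k : x ∈ φ.target
    · rintro ⟨z, hz, e⟩
      have j := h1 _ (mem_J hs k)
      rw [pe_tgt φ k, sub_zero, one_mul, zero_mul, add_zero] at e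
      obtain rfl := φ.injOn (hs.ge (hT hz)) (hs.ge j.1) e
      exact j.2 hz
    · rw [pe_not φ k]
      exact fun e => k (sub_tgt hs hT e)

/-- **a change of the collar coordinate is a move** -/
theorem mv_col [T2Space M] [SigmaCompactSpace M] [ConnectedSpace Y] (hJ : OrdConnected J) (hT : T ⊆ J)
    (hc : IsClosed (φ '' (Prod.snd ⁻¹' T))) {p : ℝ} (hp : p ∈ J) (hp' : p ∉ T)
    (hd : Dfm (univ : Set M) (φ '' (Prod.snd ⁻¹' T))ᶜ) (σ : ℝ ≃ₘ^∞⟮𝓘(ℝ, ℝ), 𝓘(ℝ, ℝ)⟯ ℝ)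
    (h : ∀ u, u ∉ T → σ u = u) :
    ∃ ψ, Mv I (φ '' (Prod.snd ⁻¹' T)) ψ ∧ ∀ y, ∀ t ∈ J, ψ (φ (y, t)) = φ (y, σ t) := by
  have h' : ∀ u, u ∉ T → σ.symm u = u := fun u k => σ.injective ((σ.apply_symm_apply u).trans (h u k).symm)
  have m : ∀ {f : ℝ → ℝ}, Injective f → (∀ u, u ∉ T → f u = u) → MapsTo f J J := fun {f} a b u hu =>
    (em (f u ∈ T)).elim (hT ·) fun k => (a (b _ k)).symm ▸ hu
  have m0 := m σ.injective h
  have m1 := m σ.symm.injective h'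
  obtain ⟨y₀⟩ : Nonempty Y := inferInstance
  refine ⟨Glue52.diffeoOf (pe φ σ) (pe φ σ.symm) (cm_pe hs σ.contDiff m0 h hT hc)
    (cm_pe hs σ.symm.contDiff m1 h' hT hc) (pe_pe hs m0 σ.symm_apply_apply) (pe_pe hs m1 σ.apply_symm_apply),
    mv_of_ht φ.open_target ?_ hc (sub_tgt hs hT) (φ.map_source (x := (y₀, p)) (hs.ge hp))
      (fun ⟨z, hz, e⟩ => hp' (by obtain rfl := φ.injOn (hs.ge (hT hz)) (hs.ge hp) e; exact hz))
      (F := fun z => φ ((φ.symm z.1).1, (1 - z.2) * (φ.symm z.1).2 + z.2 * σ (φ.symm z.1).2))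
      ⟨fun x k t ht => ?_, fun _ _ _ _ => trivial⟩ (fun x k => ?_) (fun x k => ?_) (fun x k hx t => ?_)
      (fun _ => pe_off hs h) fun a b => hd.eqv isOpen_univ (subset_univ _) a.ok b.ok,
    fun y t ht => pe_src φ (z := (y, t)) (hs.ge ht)⟩
  · rw [← φ.image_source_eq_target]
    refine IsPreconnected.image ?_ _ φ.contMDiffOn_toFun.continuousOn
    rw [hs, ← univ_prod]
    exact isPreconnected_univ.prod hJ.isPreconnected
  · have l : ContMDiffAt (I.prod 𝓘(ℝ, ℝ)) (K.prod 𝓘(ℝ, ℝ)) ∞ (fun z : M × ℝ => φ.symm z.1) (x, t) :=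
      (ldp φ.symm k).contMDiffAt.comp (x, t) contMDiffAt_fst
    have l2 := contMDiffAt_snd.comp (x, t) l
    exact (ldp φ (y := ((φ.symm x).1, (1 - t) * (φ.symm x).2 + t * σ (φ.symm x).2))
      (hs.ge (hJ.convex (mem_J hs k) (m0 (mem_J hs k)) (sub_nonneg.2 ht.2) ht.1
        (sub_add_cancel _ _)))).contMDiffAt.comp (x, t) ((contMDiffAt_fst.comp (x, t) l).prodMk
        (((contMDiffAt_const.sub contMDiffAt_snd).mul l2).add
          (contMDiffAt_snd.mul ((σ.contMDiff _).comp (x, t) l2))))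
  · simp only [sub_zero, one_mul, zero_mul, add_zero]
    exact φ.right_inv k
  · simp only [sub_self, one_mul, zero_mul, zero_add]
    exact (pe_tgt φ k).symm
  · simp only [h (φ.symm x).2 fun e => hx ⟨_, e, φ.right_inv k⟩, ← add_mul, sub_add_cancel, one_mul]
    exact φ.right_inv k

end col

section tiso

variable {V : Type} [NormedAddCommGroup V] [NormedSpace ℝ V] [FiniteDimensional ℝ V] {X : TP V} {B : O3}
  {J T T' : Set ℝ} {a b a₀ δ : ℝ}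

theorem img_tiso (k : TIso B.cyl X J) (h : T ⊆ J) : k.φ '' (Prod.snd ⁻¹' T) = X.τ ⁻¹' T := by
  refine Subset.antisymm ?_ fun x hx => ?_
  · rintro _ ⟨z, hz, rfl⟩
    exact show X.τ (k z) ∈ T from (k.tm z (h hz)).symm ▸ hz
  · obtain ⟨z, a, b⟩ := k.surj (h hx)
    exact ⟨z, show B.cyl.τ z ∈ T from a.symm ▸ hx, b⟩

theorem mv_tiso (k : TIso B.cyl X J) (hJ : OrdConnected J) (hT : T ⊆ J) (cT : IsClosed T) (hT' : T' ⊆ J)
    (cT' : IsClosed T') {p : ℝ} (hp : p ∈ J) {ρ : ℝ → ℝ} (cρ : Continuous ρ) (h1 : ∀ u ∈ J, ρ u ∈ J ∧ ρ u ∉ T)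
    (h2 : ∀ u, u ∉ T' → ρ u = u) (σ : ℝ ≃ₘ^∞⟮𝓘(ℝ, ℝ), 𝓘(ℝ, ℝ)⟯ ℝ) (h : ∀ u, u ∉ T → σ u = u) :
    ∃ ψ, Mv X.P.I (X.τ ⁻¹' T) ψ ∧ (∀ y, ∀ t ∈ J, ψ (k (y, t)) = k (y, σ t)) ∧ ∀ x, X.τ (ψ x) = σ (X.τ x) := by
  have := Manifold.locallyCompact_of_finiteDimensional (M := X.P.M) X.P.I
  obtain ⟨ψ, h3, h4⟩ := mv_col (φ := k.φ) k.src hJ hT (img_tiso k hT ▸ cT.preimage X.cont) (h1 p hp).1 (h1 p hp).2
    (dfm_col k.src hJ cρ h1 h2 hT hT' (img_tiso k hT' ▸ cT'.preimage X.cont)) σ h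
  replace h3 := h3.mono (img_tiso k hT).le
  refine ⟨ψ, h3, h4, fun x => ?_⟩
  by_cases e : X.τ x ∈ T
  · obtain ⟨⟨y, t⟩, j, rfl⟩ := k.surj (hT e)
    have m : t ∈ J := (show t = _ from j) ▸ hT e
    rw [h4 y t m, ← j]
    exact k.tm (y, σ t) ((em (σ t ∈ T)).elim (hT ·) fun l => (σ.injective (h _ l)).symm ▸ m)
  · rw [h3.off x e, h _ e]

/-- an outgoing end -/
theorem mv_out (k : TIso B.cyl X (Ioi b)) (h0 : b < a₀) (σ : ℝ ≃ₘ^∞⟮𝓘(ℝ, ℝ), 𝓘(ℝ, ℝ)⟯ ℝ)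
    (h : ∀ u < a₀, σ u = u) : ∃ ψ, Mv X.P.I (X.τ ⁻¹' Ici a₀) ψ ∧ (∀ y t, b < t → ψ (k (y, t)) = k (y, σ t)) ∧
      ∀ x, X.τ (ψ x) = σ (X.τ x) :=
  let ⟨c, c1, c2⟩ := exists_between h0
  mv_tiso k ordConnected_Ioi (Ici_subset_Ioi.2 h0) isClosed_Ici (Ici_subset_Ioi.2 c1) isClosed_Ici h0
    (ρ := (min · c)) (by fun_prop) (fun _ hu => ⟨lt_min hu c1, fun e => ((min_le_right _ _).trans_lt c2).not_ge e⟩)
    (fun _ hu => min_eq_left (not_le.1 hu).le) σ fun u hu => h u (not_le.1 hu)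

/-- an incoming end -/
theorem mv_in (k : TIso B.cyl X (Iio a)) (h0 : a₀ < a) (σ : ℝ ≃ₘ^∞⟮𝓘(ℝ, ℝ), 𝓘(ℝ, ℝ)⟯ ℝ)
    (h : ∀ u, a₀ < u → σ u = u) : ∃ ψ, Mv X.P.I (X.τ ⁻¹' Iic a₀) ψ ∧ (∀ y t, t < a → ψ (k (y, t)) = k (y, σ t)) ∧
      ∀ x, X.τ (ψ x) = σ (X.τ x) :=
  let ⟨c, c1, c2⟩ := exists_between h0
  mv_tiso k ordConnected_Iio (Iic_subset_Iio.2 h0) isClosed_Iic (Iic_subset_Iio.2 c2) isClosed_Iic h0
    (ρ := (max · c)) (by fun_prop) (fun _ hu => ⟨max_lt hu c2, fun e => (c1.trans_le (le_max_right _ _)).not_ge e⟩)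
    (fun _ hu => max_eq_left (not_le.1 hu).le) σ fun u hu => h u (not_le.1 hu)

/-- **END-PUSH**, outgoing -/
theorem push_out (k : TIso B.cyl X (Ioi b)) (h0 : b < a₀) (h1 : a₀ < a) (h2 : a₀ < a + δ) :
    ∃ ψ, Mv X.P.I (X.τ ⁻¹' Ici a₀) ψ ∧ (∀ y t, a ≤ t → ψ (k (y, t)) = k (y, t + δ)) ∧
      ∃ σ : ℝ ≃ₘ^∞⟮𝓘(ℝ, ℝ), 𝓘(ℝ, ℝ)⟯ ℝ, Cyl58.Up σ univ ∧ (∀ u ≤ a₀, σ u = u) ∧ (∀ u, a ≤ u → σ u = u + δ) ∧
        (∀ y t, b < t → ψ (k (y, t)) = k (y, σ t)) ∧ ∀ x, X.τ (ψ x) = σ (X.τ x) := by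
  obtain ⟨σ, s1, s2, s3⟩ := Cyl58.exists_diffeo_shift (c := 0) (d := δ) h1 (by rwa [add_zero])
  simp only [add_zero] at s2
  obtain ⟨ψ, p1, p2, p3⟩ := mv_out k h0 σ fun u hu => s2 u hu.le
  exact ⟨ψ, p1, fun y t ht => by rw [p2 y t (by linarith), s3 t ht], σ, s1, s2, s3, p2, p3⟩

/-- **END-PUSH**, incoming -/
theorem push_in (k : TIso B.cyl X (Iio a)) (h0 : a₀ < a) (h1 : b < a₀) (h2 : b + δ < a₀) :
    ∃ ψ, Mv X.P.I (X.τ ⁻¹' Iic a₀) ψ ∧ (∀ y t, t ≤ b → ψ (k (y, t)) = k (y, t + δ)) ∧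
      ∃ σ : ℝ ≃ₘ^∞⟮𝓘(ℝ, ℝ), 𝓘(ℝ, ℝ)⟯ ℝ, Cyl58.Up σ univ ∧ (∀ u, a₀ ≤ u → σ u = u) ∧ (∀ u ≤ b, σ u = u + δ) ∧
        (∀ y t, t < a → ψ (k (y, t)) = k (y, σ t)) ∧ ∀ x, X.τ (ψ x) = σ (X.τ x) := by
  obtain ⟨σ, s1, s2, s3⟩ := Cyl58.exists_diffeo_shift (c := δ) (d := 0) h1 (by rwa [add_zero])
  simp only [add_zero] at s3
  obtain ⟨ψ, p1, p2, p3⟩ := mv_in k h0 σ fun u hu => s3 u hu.le
  exact ⟨ψ, p1, fun y t ht => by rw [p2 y t (by linarith), s2 t ht], σ, s1, s3, s2, p2, p3⟩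

end tiso

/-- the positive diffeomorphism of a move -/
def Mv.dif {W : W4} {S : Set W.M} {ψ : W.M ≃ₘ^∞⟮W.X.P.I, W.X.P.I⟯ W.M} (h : Mv W.X.P.I S ψ) : W4.Dif W W :=
  ⟨ψ, h.pos _ W.ori⟩

end Crest.Agent.X212.Rob53
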